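import Vale.Agent.P032Baire.Plane

open Set Metric Filter Topology

namespace Vale.Agent.P032Baire

/-- Two unit circles meeting transversally at `z` still meet near `z` after moving the centres. -/
lemma exists_meet_near (p r z : ℂ) (hp : dist p z = 1) (hr : dist r z = 1) (hpr : p ≠ r)
    (hlt : dist p r < 2) {ε : ℝ} (hε : 0 < ε) :
    ∃ δ > 0, ∀ p' r' : ℂ, dist p' p < δ → dist r' r < δ →
      ∃ z', dist z' z < ε ∧ dist p' z' = 1 ∧ dist r' z' = 1 := by
  set w := r - p with hwdef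
  have hw : w ≠ 0 := sub_ne_zero.2 (Ne.symm hpr)
  set N : ℂ → ℝ := fun v => v.re ^ 2 + v.im ^ 2 with hN
  have hN0 : 0 < N w := by
    have := Complex.normSq_pos.2 hw
    simp only [Complex.normSq_apply] at this; simp only [hN]; linarith
  set u : ℂ := z - (p + r) / 2 with hu
  have e1 : (p.re - z.re) ^ 2 + (p.im - z.im) ^ 2 = 1 := by rw [← dist_sq, hp]; norm_num
  have e2 : (r.re - z.re) ^ 2 + (r.im - z.im) ^ 2 = 1 := by rw [← dist_sq, hr]; norm_num
  have horth : u.re * w.re + u.im * w.im = 0 := by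
    simp [hu, hwdef]; linear_combination (e1 - e2) / 2
  have hlen : u.re ^ 2 + u.im ^ 2 + N w / 4 = 1 := by
    simp [hu, hwdef, hN]; linear_combination (e1 + e2) / 2
  set μ : ℝ := (u.im * w.re - u.re * w.im) / N w with hμ
  have hure : u.re = -μ * w.im := by
    rw [hμ]; field_simp; simp only [hN]; linear_combination w.re * horth
  have huim : u.im = μ * w.re := by
    rw [hμ]; field_simp; simp only [hN]; linear_combination w.im * horth
  have hG0 : μ ^ 2 = 1 / N w - 1 / 4 := by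
    rw [hure, huim] at hlen
    field_simp
    simp only [hN] at hlen ⊢
    linear_combination 4 * hlen
  have hNlt : N w < 4 := by
    have := dist_sq p r
    have h2 : dist p r ^ 2 < 4 := by nlinarith [dist_nonneg (x := p) (y := r)]
    simp [hN, hwdef]; rw [this] at h2; nlinarith
  have hG : 0 < 1 / N w - 1 / 4 := by
    rw [sub_pos, div_lt_div_iff₀ (by norm_num) hN0]; linarith
  let Z : ℂ × ℂ → ℂ := fun v => (v.1 + v.2) / 2 +
    ((μ * Real.sqrt ((1 / N (v.2 - v.1) - 1 / 4) / (1 / N w - 1 / 4)) : ℝ) : ℂ) *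
      (Complex.I * (v.2 - v.1))
  have hcN : Continuous fun v : ℂ × ℂ => N (v.2 - v.1) := by simp only [hN]; fun_prop
  have hcZ : ContinuousAt Z (p, r) := by
    have : ContinuousAt (fun v : ℂ × ℂ => μ * Real.sqrt
        ((1 / N (v.2 - v.1) - 1 / 4) / (1 / N w - 1 / 4))) (p, r) :=
      continuousAt_const.mul ((((continuousAt_const.div hcN.continuousAt hN0.ne').sub
        continuousAt_const).div_const _).sqrt)
    exact ((by fun_prop : Continuous fun v : ℂ × ℂ => (v.1 + v.2) / 2).continuousAt).add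
      ((Complex.continuous_ofReal.continuousAt.comp this).mul (by fun_prop))
  have hZ0 : Z (p, r) = z := by
    simp only [Z, ← hwdef, div_self hG.ne', Real.sqrt_one, mul_one]
    apply Complex.ext
    · have := hure; simp [hu, hwdef] at this ⊢; linarith
    · have := huim; simp [hu, hwdef] at this ⊢; linarith
  have ev : ∀ᶠ v in 𝓝 (p, r), dist (Z v) z < ε ∧ 0 < N (v.2 - v.1) ∧ N (v.2 - v.1) < 4 :=
    (hcZ.eventually (p := fun y => dist y z < ε) (by rw [hZ0]; exact Metric.ball_mem_nhds z hε)).and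
      ((continuousAt_const.eventually_lt hcN.continuousAt hN0).and
        (hcN.continuousAt.eventually_lt continuousAt_const hNlt))
  obtain ⟨δ, hδ, hδ'⟩ := Metric.eventually_nhds_iff.1 ev
  refine ⟨δ, hδ, fun p' r' hp' hr' => ?_⟩
  obtain ⟨hz, hpos, hlt'⟩ := hδ' (y := (p', r')) (by rw [Prod.dist_eq]; exact max_lt hp' hr')
  set s := Real.sqrt ((1 / N (r' - p') - 1 / 4) / (1 / N w - 1 / 4)) with hs
  have hs2 : s ^ 2 * μ ^ 2 = 1 / N (r' - p') - 1 / 4 := by
    rw [hs, Real.sq_sqrt, hG0, div_mul_cancel₀ _ hG.ne']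
    refine div_nonneg (sub_nonneg.2 ?_) hG.le
    rw [div_le_div_iff₀ (by norm_num) hpos]; linarith
  have hZ' : Z (p', r') = (p' + r') / 2 + ((μ * s : ℝ) : ℂ) * (Complex.I * (r' - p')) := rfl
  refine ⟨Z (p', r'), hz, ?_, ?_⟩ <;> rw [hZ'] <;> clear_value μ s <;>
    rw [← pow_left_inj₀ dist_nonneg zero_le_one two_ne_zero, dist_sq] <;>
    simp <;>
    · field_simp at hs2
      simp [hN] at hs2 hpos
      linear_combination (1 / 4 : ℝ) * hs2

/-- L0. -/
lemma cone_excl {Ua Uc : Set ℂ} {Fa Fc : Set ℂ} {p r z : ℂ}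
    (hna : ∀ x ∈ Ua, ∀ y ∈ Fa, dist x y ≠ 1) (hnc : ∀ x ∈ Uc, ∀ y ∈ Fc, dist x y ≠ 1)
    (hcov : ∀ᶠ y in 𝓝 z, y ∈ Fa ∨ y ∈ Fc) (hpa : p ∈ closure Ua) (hrc : r ∈ closure Uc)
    (hp : dist p z = 1) (hr : dist r z = 1) (hpr : p ≠ r) (hlt : dist p r < 2) : False := by
  obtain ⟨ε, hε, hε'⟩ := Metric.eventually_nhds_iff.1 hcov
  obtain ⟨δ, hδ, hmeet⟩ := exists_meet_near p r z hp hr hpr hlt hε
  obtain ⟨p', hp', dp⟩ := Metric.mem_closure_iff.1 hpa δ hδ
  obtain ⟨r', hr', dr⟩ := Metric.mem_closure_iff.1 hrc δ hδ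
  obtain ⟨z', hz', h1, h2⟩ := hmeet p' r' (by rwa [dist_comm]) (by rwa [dist_comm])
  rcases hε' hz' with h | h
  · exact hna p' hp' z' h h1
  · exact hnc r' hr' z' h h2

end Vale.Agent.P032Baire
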