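import Vale.Agent.P032Baire.Plane

open Set Metric Filter Topology

namespace Vale.Agent.P032Baire

/-- The unit circle about the rectangle point `q + u + v` crosses every arc of the circle about `q`
through `q + u`, unless `u` and `v` are parallel. -/
lemma rect_cross (q u v : ℂ) (hu : ‖u‖ = 1) (hv : ‖v‖ = 1)
    (hX : u.re * v.im - u.im * v.re ≠ 0) {τ : ℝ} (hτ : 0 < τ) :
    ∃ s₁ ∈ Icc (-τ) τ, ∃ s₂ ∈ Icc (-τ) τ,
      dist (q + u + v) (arc q u s₁) < 1 ∧ 1 < dist (q + u + v) (arc q u s₂) := by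
  have u1 : u.re ^ 2 + u.im ^ 2 = 1 := by
    have := Complex.sq_norm u; rw [hu, Complex.normSq_apply] at this; nlinarith
  have v1 : v.re ^ 2 + v.im ^ 2 = 1 := by
    have := Complex.sq_norm v; rw [hv, Complex.normSq_apply] at this; nlinarith
  set A := u.re * v.re + u.im * v.im with hA
  set X := u.re * v.im - u.im * v.re with hXdef
  -- squared distance minus one
  have key : ∀ t : ℝ, (dist (q + u + v) (arc q u t)) ^ 2 =
      1 + 4 * t * (t * (1 + A) - X) / (1 + t ^ 2) := by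
    intro t
    have ht := (one_add_sq_pos t).ne'
    rw [dist_sq, hA, hXdef]
    simp [arc, turn]
    field_simp
    linear_combination (4 * t^2 * (1 + t^2)) * u1 + (1 + t^2)^2 * v1
  obtain ⟨t, ht, hXt, hsmall⟩ : ∃ t : ℝ, |t| ≤ τ ∧ 0 < X * t ∧ |t| * (2 + |A|) < |X| := by
    have hx : 0 < |X| := abs_pos.2 hX
    obtain ⟨m, hm, hm1, hm2⟩ : ∃ m, 0 < m ∧ m ≤ τ ∧ m * (2 + |A|) < |X| := by
      refine ⟨min τ (|X| / (3 + |A|)), lt_min hτ (by positivity), min_le_left _ _, ?_⟩
      calc min τ (|X| / (3 + |A|)) * (2 + |A|) ≤ |X| / (3 + |A|) * (2 + |A|) :=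
            mul_le_mul_of_nonneg_right (min_le_right _ _) (by positivity)
        _ < |X| := by rw [div_mul_eq_mul_div, div_lt_iff₀ (by positivity)]; nlinarith
    rcases lt_or_gt_of_ne hX with h | h
    · exact ⟨-m, by rw [abs_neg, abs_of_pos hm]; exact hm1, by nlinarith,
        by rw [abs_neg, abs_of_pos hm]; exact hm2⟩
    · exact ⟨m, by rw [abs_of_pos hm]; exact hm1, by positivity, by rw [abs_of_pos hm]; exact hm2⟩
  have ht0 : t ≠ 0 := by rintro rfl; simp at hXt
  have hb : t ^ 2 * |1 + A| < X * t := by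
    have h1 : |1 + A| ≤ 2 + |A| := (abs_add_le 1 A).trans (by simp)
    calc t ^ 2 * |1 + A| ≤ |t| * (|t| * (2 + |A|)) := by
          rw [← mul_assoc, abs_mul_abs_self, ← pow_two]; exact mul_le_mul_of_nonneg_left h1 (sq_nonneg t)
      _ < |t| * |X| := mul_lt_mul_of_pos_left hsmall (abs_pos.2 ht0)
      _ = X * t := by rw [← abs_mul, mul_comm t X, abs_of_pos hXt]
  have b1 := mul_le_mul_of_nonneg_left (le_abs_self (1 + A)) (sq_nonneg t)
  have b2 := mul_le_mul_of_nonneg_left (neg_abs_le (1 + A)) (sq_nonneg t)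
  refine ⟨t, abs_le.1 ht, -t, abs_le.1 (by rwa [abs_neg]), ?_, ?_⟩
  · rw [lt_one_iff_sq dist_nonneg, key]
    have : 4 * t * (t * (1 + A) - X) / (1 + t ^ 2) < 0 :=
      div_neg_of_neg_of_pos (by nlinarith) (one_add_sq_pos t)
    linarith
  · rw [one_lt_iff_sq dist_nonneg, key]
    have : 0 < 4 * (-t) * (-t * (1 + A) - X) / (1 + (-t) ^ 2) :=
      div_pos (by nlinarith) (one_add_sq_pos _)
    linarith

lemma dist_rect_left (q u v : ℂ) (hv : ‖v‖ = 1) : dist (q + u + v) (q + u) = 1 := by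
  simp [dist_eq_norm, hv]

lemma dist_rect_right (q u v : ℂ) (hu : ‖u‖ = 1) : dist (q + u + v) (q + v) = 1 := by
  have : q + u + v - (q + v) = u := by ring
  simp [dist_eq_norm, this, hu]

end Vale.Agent.P032Baire
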