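import Vale.Agent.P032Baire.Plane

open Set Metric Filter Topology

namespace Vale.Agent.P032Baire

/-- If the components in `K` of the points of `W` stay inside the open set `O`, then `W` has an open
neighbourhood inside `O` whose frontier misses `K`. -/
lemma exists_frontier_avoiding_of_components (K W O : Set ℂ) (hK : IsCompact K) (hWK : W ⊆ K)
    (hW : IsCompact W) (hO : IsOpen O) (hcomp : ∀ x ∈ W, connectedComponentIn K x ⊆ O) :
    ∃ V, IsOpen V ∧ W ⊆ V ∧ closure V ⊆ O ∧ ∀ z ∈ closure V, z ∈ K → z ∈ V := by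
  have : CompactSpace K := isCompact_iff_compactSpace.1 hK
  have hOK : IsOpen (Subtype.val ⁻¹' O : Set K) := hO.preimage continuous_subtype_val
  have step : ∀ x : K, (x : ℂ) ∈ W → ∃ S : Set K, IsClopen S ∧ x ∈ S ∧ S ⊆ Subtype.val ⁻¹' O := by
    intro x hx
    have : Nonempty { s : Set K // IsClopen s ∧ x ∈ s } := ⟨⟨univ, isClopen_univ, mem_univ x⟩⟩
    obtain ⟨⟨S, hS, hxS⟩, hsub⟩ := exists_subset_nhds_of_compactSpace
      (V := fun s : { s : Set K // IsClopen s ∧ x ∈ s } => (s : Set K))
      (fun s t => ⟨⟨s ∩ t, s.2.1.inter t.2.1, s.2.2, t.2.2⟩, inter_subset_left, inter_subset_right⟩)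
      (fun s => s.2.1.1) (U := Subtype.val ⁻¹' O) (by
        intro y hy
        refine hOK.mem_nhds (hcomp _ hx ?_)
        rw [← connectedComponent_eq_iInter_isClopen] at hy
        rw [connectedComponentIn_eq_image x.2]
        exact ⟨y, hy, rfl⟩)
    exact ⟨S, hS, hxS, hsub⟩
  choose S hS hxS hSO using step
  have hWc : IsCompact (Subtype.val ⁻¹' W : Set K) :=
    hW.isClosed.preimage continuous_subtype_val |>.isCompact
  obtain ⟨t, ht⟩ := hWc.elim_finite_subcover (fun x : {x : K // (x : ℂ) ∈ W} => S x.1 x.2)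
    (fun x => (hS _ _).2) (fun x hx => mem_iUnion.2 ⟨⟨x, hx⟩, hxS _ _⟩)
  set S0 : Set K := ⋃ x ∈ t, S x.1 x.2
  have hS0 : IsClopen S0 := isClopen_biUnion_finset fun x _ => hS _ _
  set A : Set ℂ := Subtype.val '' S0
  set B : Set ℂ := Subtype.val '' S0ᶜ
  have hA : IsCompact A := hS0.1.isCompact.image continuous_subtype_val
  have hB : IsCompact B := hS0.compl.1.isCompact.image continuous_subtype_val
  have hAB : Disjoint A B := (disjoint_image_iff Subtype.val_injective).2 disjoint_compl_right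
  have hAO : A ⊆ O := by
    rintro _ ⟨x, hx, rfl⟩
    obtain ⟨y, hy, hxy⟩ := mem_iUnion₂.1 hx
    exact hSO _ _ hxy
  obtain ⟨r₁, hr₁, hd⟩ := hAB.exists_cthickenings hA hB.isClosed
  obtain ⟨r₂, hr₂, hsub⟩ := hA.exists_cthickening_subset_open hO hAO
  refine ⟨thickening (min r₁ r₂) A, isOpen_thickening, ?_, ?_, ?_⟩
  · intro x hx
    obtain ⟨y, hy, hxy⟩ := mem_iUnion₂.1
      (ht (show (⟨x, hWK hx⟩ : K) ∈ (Subtype.val ⁻¹' W : Set K) from hx))
    exact self_subset_thickening (lt_min hr₁ hr₂) A ⟨_, mem_iUnion₂.2 ⟨y, hy, hxy⟩, rfl⟩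
  · exact (closure_thickening_subset_cthickening _ _).trans
      ((cthickening_mono (min_le_right _ _) _).trans hsub)
  · intro z hz hzK
    by_cases h : (⟨z, hzK⟩ : K) ∈ S0
    · exact self_subset_thickening (lt_min hr₁ hr₂) A (show z ∈ A from ⟨_, h, rfl⟩)
    · exact absurd (self_subset_cthickening B (show z ∈ B from ⟨⟨z, hzK⟩, h, rfl⟩)) (disjoint_left.1 hd
        (cthickening_mono (min_le_left _ _) _ (closure_thickening_subset_cthickening _ _ hz)))

/-- Boundary bumping: a compact set has, at each of its points, either a connected part reaching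
radius `δ`, or a small neighbourhood whose frontier misses it. -/
lemma bump (K : Set ℂ) (hK : IsClosed K) {x : ℂ} (hx : x ∈ K) {δ : ℝ} (hδ : 0 < δ) :
    (∃ L, L ⊆ K ∩ closedBall x δ ∧ IsConnected L ∧ IsCompact L ∧ x ∈ L ∧ ∃ y ∈ L, dist y x = δ) ∨
      ∃ V, IsOpen V ∧ x ∈ V ∧ closure V ⊆ ball x δ ∧ Disjoint (frontier V) K := by
  set K' := K ∩ closedBall x δ
  have hK' : IsCompact K' := (isCompact_closedBall x δ).inter_left hK
  have hx' : x ∈ K' := ⟨hx, mem_closedBall_self hδ.le⟩
  by_cases h : connectedComponentIn K' x ⊆ ball x δ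
  · right
    obtain ⟨V, hV, hxV, hVO, hVK⟩ := exists_frontier_avoiding_of_components K' {x} (ball x δ) hK'
      (singleton_subset_iff.2 hx') isCompact_singleton isOpen_ball
      (fun y hy => by rw [mem_singleton_iff.1 hy]; exact h)
    refine ⟨V, hV, hxV rfl, hVO, disjoint_left.2 fun z hz hzK => ?_⟩
    rw [hV.frontier_eq] at hz
    exact hz.2 (hVK z hz.1 ⟨hzK, ball_subset_closedBall (hVO hz.1)⟩)
  · left
    obtain ⟨y, hy, hyb⟩ := not_subset.1 h
    refine ⟨connectedComponentIn K' x, connectedComponentIn_subset _ _,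
      isConnected_connectedComponentIn_iff.2 hx', ?_, mem_connectedComponentIn hx', y, hy, ?_⟩
    · rw [connectedComponentIn_eq_image hx']
      have : CompactSpace K' := isCompact_iff_compactSpace.1 hK'
      exact isClosed_connectedComponent.isCompact.image continuous_subtype_val
    · exact le_antisymm (connectedComponentIn_subset _ _ hy).2 (not_lt.1 hyb)

end Vale.Agent.P032Baire
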