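import Vale.Agent.P032Baire.Plane
import Vale.Agent.P032Baire.Cone
import Vale.Agent.P032Baire.Rect
import Vale.Agent.P032Baire.Split

open Set Metric Filter Topology

namespace Vale.Agent.P032Baire

/-- Five disjoint open sets with dense union, none containing two points at distance one.
(`Config` without the bound on the number of closures at a point.) -/
structure Cfg where
  U : Fin 5 → Set ℂ
  isOpen : ∀ i, IsOpen (U i)
  disj : ∀ i j, i ≠ j → Disjoint (U i) (U j)
  dense : Dense (⋃ i, U i)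
  avoid : ∀ i, ∀ x ∈ U i, ∀ y ∈ U i, dist x y ≠ 1

namespace Cfg

variable (C : Cfg)

def F (i : Fin 5) : Set ℂ := closure (C.U i)

open Classical in
noncomputable def T (x : ℂ) : Finset (Fin 5) := Finset.univ.filter fun i => x ∈ C.F i

lemma mem_T {x : ℂ} {i : Fin 5} : i ∈ C.T x ↔ x ∈ C.F i := by simp [T]

lemma isClosed_F (i : Fin 5) : IsClosed (C.F i) := isClosed_closure

lemma cover (x : ℂ) : ∃ i, x ∈ C.F i := by
  have h := C.dense x
  rw [closure_iUnion_of_finite] at h
  exact mem_iUnion.1 h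

lemma T_nonempty (x : ℂ) : (C.T x).Nonempty := by
  obtain ⟨i, hi⟩ := C.cover x
  exact ⟨i, C.mem_T.2 hi⟩

lemma eventually_T_subset (x : ℂ) : ∀ᶠ y in 𝓝 x, C.T y ⊆ C.T x := by
  have : ∀ i, ∀ᶠ y in 𝓝 x, i ∈ C.T y → i ∈ C.T x := by
    intro i
    by_cases hi : i ∈ C.T x
    · exact Eventually.of_forall fun _ _ => hi
    · filter_upwards [(C.isClosed_F i).isOpen_compl.mem_nhds (fun h => hi (C.mem_T.2 h))] with y hy h
      exact absurd (C.mem_T.1 h) hy
  filter_upwards [eventually_all.2 this] with y hy i hi using hy i hi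

lemma exists_T_ball (x : ℂ) : ∃ ε > 0, ∀ y, dist y x < ε → C.T y ⊆ C.T x :=
  Metric.eventually_nhds_iff.1 (C.eventually_T_subset x)

lemma no_open_in_two {a b : Fin 5} (hab : a ≠ b) {W : Set ℂ} (hW : IsOpen W)
    (h : W ⊆ C.F a ∩ C.F b) : W = ∅ := by
  by_contra hne
  obtain ⟨x, hx⟩ := nonempty_iff_ne_empty.2 hne
  obtain ⟨y, hy, hya⟩ := mem_closure_iff.1 (h hx).1 W hW hx
  obtain ⟨z, hz, hzb⟩ := mem_closure_iff.1 (h hy).2 (C.U a) (C.isOpen a) hya
  exact disjoint_left.1 (C.disj a b hab) hz hzb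

lemma interior_of_single {x : ℂ} {a : Fin 5} (h : C.T x ⊆ {a}) : x ∈ interior (C.F a) := by
  rw [mem_interior_iff_mem_nhds]
  filter_upwards [C.eventually_T_subset x] with y hy
  obtain ⟨i, hi⟩ := C.cover y
  have : i = a := Finset.mem_singleton.1 (h (hy (C.mem_T.2 hi)))
  exact this ▸ hi

lemma dist_ne_one {a : Fin 5} {x y : ℂ} (hx : x ∈ interior (C.F a)) (hy : y ∈ C.F a) :
    dist x y ≠ 1 := by
  intro h
  obtain ⟨δ, hδ, hsub⟩ := Metric.isOpen_iff.1 isOpen_interior x hx
  obtain ⟨y', hy', hd⟩ := Metric.mem_closure_iff.1 hy δ hδ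
  have hx' : x + (y' - y) ∈ C.F a := interior_subset (hsub (by
    rw [mem_ball, dist_eq_norm]; simpa [← dist_eq_norm, dist_comm] using hd))
  obtain ⟨ρ, hρ, hball⟩ := Metric.isOpen_iff.1 (C.isOpen a) y' hy'
  obtain ⟨x'', hx'', hd'⟩ := Metric.mem_closure_iff.1 hx' ρ hρ
  have hy'' : y' + (x'' - (x + (y' - y))) ∈ C.U a := hball (by
    rw [mem_ball, dist_eq_norm]; simpa [← dist_eq_norm, dist_comm] using hd')
  apply C.avoid a x'' hx'' _ hy''
  rw [dist_eq_norm] at h ⊢
  rw [← h]; congr 1; ring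

lemma crossing {a : Fin 5} {K : Set ℂ} (hK : IsPreconnected K) (hKF : K ⊆ C.F a) {p q r : ℂ}
    (hq : q ∈ K) (hr : r ∈ K) (h1 : dist p q < 1) (h2 : 1 < dist p r) : p ∉ C.F a := by
  intro hp
  have e1 : ∀ᶠ y in 𝓝 p, dist y q < 1 := (by fun_prop : Continuous fun y => dist y q).continuousAt.eventually_lt continuousAt_const h1
  have e2 : ∀ᶠ y in 𝓝 p, 1 < dist y r := continuousAt_const.eventually_lt (by fun_prop : Continuous fun y => dist y r).continuousAt h2
  obtain ⟨y, ⟨hy1, hy2⟩, hya⟩ := mem_closure_iff_nhds.1 hp _ (e1.and e2)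
  obtain ⟨z, hz, hz1⟩ := hK.intermediate_value hq hr
    (by fun_prop : Continuous fun z => dist y z).continuousOn ⟨hy1.le, hy2.le⟩
  exact C.dist_ne_one (interior_maximal subset_closure (C.isOpen a) hya) (hKF hz) hz1

lemma crossing_prod {a : Fin 5} {K : Set ℂ} (hK : IsPreconnected K) (hKF : K ⊆ C.F a) {p q r : ℂ}
    (hq : q ∈ K) (hr : r ∈ K) (h : (dist p q - 1) * (dist p r - 1) < 0) : p ∉ C.F a := by
  rcases mul_neg_iff.1 h with ⟨h1, h2⟩ | ⟨h1, h2⟩
  · exact C.crossing hK hKF hr hq (by linarith) (by linarith)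
  · exact C.crossing hK hKF hq hr (by linarith) (by linarith)

lemma diam_le {a : Fin 5} {K : Set ℂ} (hK : IsPreconnected K) (hKF : K ⊆ C.F a) :
    ∀ x ∈ K, ∀ y ∈ K, dist x y ≤ 1 := by
  intro x hx y hy
  by_contra h
  push Not at h
  exact C.crossing hK hKF hx hy (by simp) h (hKF hx)

/-- A pair of colours at `p` fills a neighbourhood of a point of the unit circle about `p`. -/
def Bad (p : ℂ) (a b : Fin 5) : Prop :=
  a ≠ b ∧ a ∈ C.T p ∧ b ∈ C.T p ∧
    ∃ (w : ℂ) (ε : ℝ), 0 < ε ∧ dist p w = 1 ∧ ∀ z, dist z w < ε → C.T z ⊆ {a, b}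

lemma bad_of_pair {p z : ℂ} {a b : Fin 5} (hab : a ≠ b) (ha : a ∈ C.T p) (hb : b ∈ C.T p)
    (hz : dist p z = 1) (hT : C.T z ⊆ {a, b}) : C.Bad p a b := by
  obtain ⟨ε, hε, h⟩ := C.exists_T_ball z
  exact ⟨hab, ha, hb, z, ε, hε, hz, fun y hy => (h y hy).trans hT⟩

lemma bad_symm {p : ℂ} {a b : Fin 5} (h : C.Bad p a b) : C.Bad p b a := by
  obtain ⟨hab, ha, hb, w, ε, hε, hw, hT⟩ := h
  exact ⟨hab.symm, hb, ha, w, ε, hε, hw, fun z hz => by rw [Finset.pair_comm]; exact hT z hz⟩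

lemma pair_arc {w z q : ℂ} {ε : ℝ} {a b : Fin 5} (hT : ∀ z, dist z w < ε → C.T z ⊆ {a, b})
    (hqa : q ∈ C.F a) (hqb : q ∈ C.F b) (hz : dist z w < ε) (hd : dist q z = 1) :
    z ∈ C.F a ∧ z ∈ C.F b := by
  constructor
  · by_contra h
    have hs : C.T z ⊆ {b} := by
      intro i hi
      have hi' := hT z hz hi
      simp only [Finset.mem_insert, Finset.mem_singleton] at hi' ⊢
      rcases hi' with rfl | rfl
      · exact absurd (C.mem_T.1 hi) h
      · rfl
    exact C.dist_ne_one (C.interior_of_single hs) hqb (by rw [dist_comm]; exact hd)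
  · by_contra h
    have hs : C.T z ⊆ {a} := by
      intro i hi
      have hi' := hT z hz hi
      simp only [Finset.mem_insert, Finset.mem_singleton] at hi' ⊢
      rcases hi' with rfl | rfl
      · rfl
      · exact absurd (C.mem_T.1 hi) h
    exact C.dist_ne_one (C.interior_of_single hs) hqa (by rw [dist_comm]; exact hd)

lemma bad_totally_disconnected {p : ℂ} {a b : Fin 5} (h : C.Bad p a b) :
    ∃ δ > 0, IsTotallyDisconnected (C.F a ∩ C.F b ∩ closedBall p δ) := by
  obtain ⟨hab, -, -, w, ε, hε, hw, hT⟩ := h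
  refine ⟨min (ε/4) (1/4), lt_min (by linarith) (by norm_num), fun K hKsub hK x hx y hy => ?_⟩
  by_contra hne
  have hmem : ∀ q ∈ K, q ∈ C.F a ∧ q ∈ C.F b := fun q hq => (hKsub hq).1
  have hxp : dist x p ≤ min (ε/4) (1/4) := (hKsub hx).2
  have hxw1 : |dist x w - 1| ≤ ε/4 := by
    rw [← hw]; exact (abs_dist_sub_le x p w).trans (hxp.trans (min_le_left _ _))
  have hxw0 : 0 < dist x w := by
    have h1 : dist p w ≤ dist p x + dist x w := dist_triangle p x w
    rw [hw, dist_comm p x] at h1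
    linarith [hxp.trans (min_le_right _ _)]
  set e : ℂ := ((dist x w)⁻¹ : ℝ) • (w - x) with he_def
  have he : ‖e‖ = 1 := by
    rw [he_def, norm_smul, Real.norm_of_nonneg (by positivity), ← dist_eq_norm, dist_comm w x]
    exact inv_mul_cancel₀ hxw0.ne'
  have hz0 : dist (arc x e 0) w < ε/2 := by
    have : arc x e 0 - w = ((dist x w)⁻¹ - 1) • (w - x) := by
      rw [arc_zero, sub_smul, one_smul, he_def]; ring
    rw [dist_eq_norm, this, norm_smul, ← dist_eq_norm w x, dist_comm w x, Real.norm_eq_abs]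
    have : |(dist x w)⁻¹ - 1| * dist x w = |dist x w - 1| := by
      rw [← abs_of_pos hxw0, ← abs_mul, abs_of_pos hxw0, sub_mul, inv_mul_cancel₀ hxw0.ne', one_mul,
        abs_sub_comm]
    rw [this]; linarith
  have hev : ∀ᶠ t in 𝓝 (0:ℝ), dist (arc x e t) w < ε/2 :=
    ((continuous_arc x e).dist continuous_const).continuousAt.eventually_lt continuousAt_const hz0
  obtain ⟨η, hη, hηw⟩ := Metric.eventually_nhds_iff.1 hev
  obtain ⟨t, ht, hty⟩ : ∃ t, dist (arc x e t) w < ε/2 ∧ dist y (arc x e t) ≠ 1 := by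
    by_cases h0 : dist y (arc x e 0) = 1
    · by_cases h1 : dist y (arc x e (η/2)) = 1
      · refine ⟨-(η/2), hηw (by simp [abs_of_pos hη]; linarith), fun h2 => ?_⟩
        exact not_three_on_two_circles x y e he hne (by linarith : η/2 ≠ 0) h0 h1 h2
      · exact ⟨η/2, hηw (by simp [abs_of_pos hη]; linarith), h1⟩
    · exact ⟨0, hz0, h0⟩
  -- move radially to separate the two points
  set v := e * turn t with hv
  have hvn : ‖v‖ = 1 := by simp [hv, he, norm_turn]
  set σ : ℝ := if 1 < dist y (arc x e t) then -1 else 1 with hσ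
  obtain ⟨s, hs0, hsε, hs1, hsy⟩ : ∃ s : ℝ, 0 < s ∧ s < ε/2 ∧ s < 1 ∧ s < |dist y (arc x e t) - 1| := by
    have : 0 < min (min (ε/2) 1) |dist y (arc x e t) - 1| :=
      lt_min (lt_min (by linarith) one_pos) (abs_pos.2 (sub_ne_zero.2 hty))
    refine ⟨_ / 2, half_pos this, ?_, ?_, ?_⟩ <;>
      linarith [min_le_left (min (ε/2) 1) |dist y (arc x e t) - 1|,
        min_le_right (min (ε/2) 1) |dist y (arc x e t) - 1|, min_le_left (ε/2) 1, min_le_right (ε/2) 1]
  set z := arc x e t + (σ * s) • v with hz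
  have hσ1 : |σ| = 1 := by rw [hσ]; split_ifs <;> simp
  have hzd : dist z (arc x e t) = s := by
    simp [hz, dist_eq_norm, hvn, hσ1, abs_of_pos hs0]
  have hzx : dist x z = 1 + σ * s := by
    have : z - x = (1 + σ * s) • v := by simp [hz, arc, hv, add_smul]; ring
    rw [dist_comm, dist_eq_norm, this, norm_smul, hvn, mul_one, Real.norm_of_nonneg]
    nlinarith [abs_le.1 hσ1.le]
  have hzy : |dist y z - dist y (arc x e t)| ≤ s := by
    rw [dist_comm y z, dist_comm y (arc x e t), ← hzd]; exact abs_dist_sub_le _ _ _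
  have hstr : (dist x z - 1) * (dist y z - 1) < 0 := by
    rw [hzx, hσ]
    obtain ⟨l, u⟩ := abs_le.1 hzy
    split_ifs with hc
    · rw [abs_of_pos (by linarith)] at hsy
      nlinarith
    · have : dist y (arc x e t) < 1 := lt_of_le_of_ne (not_lt.1 hc) hty
      rw [abs_of_neg (by linarith)] at hsy
      nlinarith
  let W : Set ℂ := {z' | (dist x z' - 1) * (dist y z' - 1) < 0} ∩ ball w ε
  have hWo : IsOpen W := (isOpen_lt (by fun_prop) continuous_const).inter isOpen_ball
  have hWsub : W ⊆ C.F a ∩ C.F b := by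
    rintro z' ⟨hz', hb⟩
    have key : ∀ q r, q ∈ K → r ∈ K → dist q z' < 1 → 1 < dist r z' →
        z' ∈ C.F a ∩ C.F b := by
      intro q r hq hr h1 h2
      obtain ⟨m, hm, hm1⟩ := hK.intermediate_value hq hr
        (by fun_prop : Continuous fun m => dist m z').continuousOn ⟨h1.le, h2.le⟩
      exact C.pair_arc hT (hmem m hm).1 (hmem m hm).2 hb hm1
    have hz'' : (dist x z' - 1) * (dist y z' - 1) < 0 := hz'
    rcases mul_neg_iff.1 hz'' with ⟨h1, h2⟩ | ⟨h1, h2⟩
    · exact key y x hy hx (by linarith) (by linarith)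
    · exact key x y hx hy (by linarith) (by linarith)
  have hzW : z ∈ W := ⟨hstr, by
    rw [mem_ball]; exact (dist_triangle z (arc x e t) w).trans_lt (by linarith)⟩
  rw [C.no_open_in_two hab hWo hWsub] at hzW
  exact hzW

lemma avoid_closure {a : Fin 5} : ∀ x ∈ C.U a, ∀ y ∈ C.F a, dist x y ≠ 1 :=
  fun _ hx _ hy => C.dist_ne_one (interior_maximal subset_closure (C.isOpen a) hx) hy

/-- L0: a point whose closures are among `a`, `c` cannot be at distance one from non antipodal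
points of `F a` and `F c`. -/
lemma meet_excl {a c : Fin 5} {p r v : ℂ} (hv : C.T v ⊆ {a, c}) (hp : p ∈ C.F a) (hr : r ∈ C.F c)
    (hpv : dist p v = 1) (hrv : dist r v = 1) (hpr : p ≠ r) (hlt : dist p r < 2) : False := by
  refine cone_excl (C.avoid_closure (a := a)) (C.avoid_closure (a := c)) ?_ hp hr hpv hrv hpr hlt
  filter_upwards [C.eventually_T_subset v] with y hy
  obtain ⟨i, hi⟩ := C.cover y
  have := hv (hy (C.mem_T.2 hi))
  simp only [Finset.mem_insert, Finset.mem_singleton] at this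
  rcases this with rfl | rfl
  · exact Or.inl hi
  · exact Or.inr hi

/-- Slot lemma: a colour of each crossing leaves some closure outside the two at the centre. -/
lemma slot {x y : Fin 5} {z₁ z₂ v : ℂ} (h₁ : z₁ ∈ C.F x) (h₂ : z₂ ∈ C.F y)
    (d₁ : dist z₁ v = 1) (d₂ : dist z₂ v = 1) (hne : z₁ ≠ z₂) (hlt : dist z₁ z₂ < 2) :
    ∃ i ∈ C.T v, i ≠ x ∧ i ≠ y := by
  by_contra h
  push Not at h
  refine C.meet_excl (a := x) (c := y) ?_ h₁ h₂ d₁ d₂ hne hlt
  intro i hi
  simp only [Finset.mem_insert, Finset.mem_singleton]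
  exact (em (i = x)).imp_right (h i hi)

/-- Rectangle exclusion: an arc of the circle about `q` through `q + u` lying in `F a` keeps
`q + u + v` out of `F a`. -/
lemma rect_excl {a : Fin 5} (q u v : ℂ) (hu : ‖u‖ = 1) (hv : ‖v‖ = 1)
    (hX : u.re * v.im - u.im * v.re ≠ 0) {τ : ℝ} (hτ : 0 < τ)
    (hF : arc q u '' Icc (-τ) τ ⊆ C.F a) : q + u + v ∉ C.F a := by
  obtain ⟨s₁, hs₁, s₂, hs₂, l1, l2⟩ := rect_cross q u v hu hv hX hτ
  exact C.crossing (isPreconnected_Icc.image _ (continuous_arc q u).continuousOn) hF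
    ⟨s₁, hs₁, rfl⟩ ⟨s₂, hs₂, rfl⟩ l1 l2

/-- A point of the circle about `p` has a closure outside each pair of `T p` that fills nothing. -/
lemma outside_pair {p z : ℂ} {a b : Fin 5} (hz : dist p z = 1) (ha : a ∈ C.T p) (hb : b ∈ C.T p)
    (hnb : a ≠ b → ¬ C.Bad p a b) : ∃ i ∈ C.T z, i ≠ a ∧ i ≠ b := by
  by_contra h
  push Not at h
  have hsub : C.T z ⊆ {a, b} := fun i hi => by
    simp only [Finset.mem_insert, Finset.mem_singleton]; exact (em (i = a)).imp_right (h i hi)
  rcases eq_or_ne a b with rfl | hab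
  · exact C.dist_ne_one (C.interior_of_single (by simpa using hsub)) (C.mem_T.1 ha)
      (by rw [dist_comm]; exact hz)
  · exact hnb hab (C.bad_of_pair hab ha hb hz hsub)

end Cfg

end Vale.Agent.P032Baire
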