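import Mathlib

/-!
A finite checker for colour sets on a hexagon of centres: `0` is the middle, `k + 1` is the
vertex in direction `k`. A state lists, for the seven centres, `0` (unknown) or a five bit colour
set plus `32 * (c + 1)` when the colour `c` is missing on the whole circle about that centre.
-/

namespace Vale.Agent.P032Baire.Finite

/-- The centre next to `a` in direction `k`, or `7` outside the seven. -/
def tgt (a k : ℕ) : ℕ :=
  [1, 2, 3, 4, 5, 6, 7, 7, 2, 0, 6, 7, 7, 7, 7, 3, 0, 1, 2, 7, 7, 7, 4, 0, 0, 3, 7, 7, 7, 5, 6, 0, 4, 7, 7, 7, 7, 1, 0, 5, 7, 7].getD (6 * a + k % 6) 7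

def mask (v : ℕ) : ℕ := v % 32

def flag (v : ℕ) : ℕ := v / 32

def card (s : ℕ) : ℕ :=
  s.testBit 0 |>.toNat |> (· + (s.testBit 1).toNat + (s.testBit 2).toNat + (s.testBit 3).toNat +
    (s.testBit 4).toNat)

def sub (s t : ℕ) : Bool := s &&& t == s

def look (T : List ℕ) (a : ℕ) : ℕ := T.getD a 0

/-- Whether `s` may be the colour set of a slot in direction `k` from the centre `a`. -/
def allowed (T : List ℕ) (a k s : ℕ) : Bool :=
  s != 0 &&
  (look T (tgt a k) == 0 || sub s (mask (look T (tgt a k)))) &&
  (card s != 1 || s &&& mask (look T a) == 0) &&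
  (if flag (look T a) == 0 then card (mask (look T a)) != 3 || !sub s (mask (look T a))
   else !s.testBit (flag (look T a) - 1))

def sets : List ℕ := List.range 32

/-- The bit set of the members of `sets` satisfying `f`. -/
def pack (f : ℕ → Bool) : List ℕ → ℕ
  | [] => 0
  | s :: l => if f s then pack f l ||| 2 ^ s else pack f l

/-- A forbidden colour at one node: `some (a, k, c)`. -/
abbrev Extra := Option (ℕ × ℕ × ℕ)

def extraOk : Extra → ℕ → ℕ → ℕ → Bool
  | none, _, _, _ => true
  | some (a', k', c), a, k, s => !(a == a' && k == k' && s.testBit c)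

def dom (T : List ℕ) (e : Extra) (v : ℕ × ℕ) : ℕ :=
  pack (fun s => allowed T v.1 v.2 s && extraOk e v.1 v.2 s) sets

def adj (u v : ℕ × ℕ) : Bool :=
  (u.1 == v.1 && ((u.2 + 1) % 6 == v.2 || (v.2 + 1) % 6 == u.2)) ||
  (u.2 == v.2 && (List.range 6).any fun j => tgt u.1 j == v.1)

def rows : List (ℕ × ℕ) → List (List Bool)
  | [] => []
  | u :: l => l.map (adj u) :: rows l

/-- `compTable` pairs a colour set with the bit set of the sets disjoint from it. -/
def compTable : List (ℕ × ℕ) :=
  [(0, 4294967295), (1, 1431655765), (2, 858993459), (3, 286331153), (4, 252645135),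
   (5, 84215045), (6, 50529027), (7, 16843009), (8, 16711935),
   (9, 5570645), (10, 3342387), (11, 1114129), (12, 983055),
   (13, 327685), (14, 196611), (15, 65537), (16, 65535),
   (17, 21845), (18, 13107), (19, 4369), (20, 3855),
   (21, 1285), (22, 771), (23, 257), (24, 255),
   (25, 85), (26, 51), (27, 17), (28, 15),
   (29, 5), (30, 3), (31, 1)]

def upd (m : ℕ) (b : Bool) (d : ℕ) : ℕ := if b then d &&& m else d

/-- Evaluate the numbers of a list before going on (this saves work in the kernel). -/
def force : List ℕ → (List ℕ → Bool) → Bool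
  | [], k => k []
  | 0 :: l, k => force l fun l' => k (0 :: l')
  | (n + 1) :: l, k => force l fun l' => k ((n + 1) :: l')

lemma force_eq : ∀ (l : List ℕ) (k : List ℕ → Bool), force l k = k l
  | [], _ => rfl
  | 0 :: l, k => by rw [force, force_eq l]
  | (n + 1) :: l, k => by rw [force, force_eq l]

/-- No choice of one set from each domain makes all flagged pairs disjoint. -/
def noSol (tab : List (ℕ × ℕ)) : List (List Bool) → List ℕ → Bool
  | f :: fs, d :: ds =>
    tab.all fun p => !d.testBit p.1 ||
      force (List.zipWith (upd p.2) f ds) fun ds' => ds'.any (· == 0) || noSol tab fs ds'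
  | _, _ => false

/-- The values `vs` are in the domains and disjoint at the flagged pairs. -/
def Fits : List (List Bool) → List ℕ → List ℕ → Prop
  | [], [], [] => True
  | f :: fs, d :: ds, v :: vs => v < 32 ∧ d.testBit v ∧ f.length = vs.length ∧
      (∀ i : ℕ, f[i]? = some true → ∀ w, vs[i]? = some w → v &&& w = 0) ∧ Fits fs ds vs
  | _, _, _ => False

lemma testBit_pack (f : ℕ → Bool) (l : List ℕ) (t : ℕ) :
    (pack f l).testBit t = true ↔ t ∈ l ∧ f t = true := by
  induction l with
  | nil => simp [pack]
  | cons s l ih =>
    by_cases h : f s = true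
    · simp only [pack, h, if_true, Nat.testBit_or, Bool.or_eq_true, ih, List.mem_cons,
        Nat.testBit_two_pow, decide_eq_true_eq]
      constructor
      · rintro (⟨h1, h2⟩ | rfl) <;> simp_all
      · rintro ⟨rfl | h1, h2⟩ <;> simp_all
    · simp only [pack, h, Bool.false_eq_true, if_false, ih, List.mem_cons]
      constructor
      · rintro ⟨h1, h2⟩; exact ⟨Or.inr h1, h2⟩
      · rintro ⟨rfl | h1, h2⟩
        · exact absurd h2 h
        · exact ⟨h1, h2⟩

lemma fits_upd {m v : ℕ} (hm : ∀ t < 32, v &&& t = 0 → m.testBit t = true) :
    ∀ (fs : List (List Bool)) (ds vs : List ℕ) (f : List Bool), f.length = vs.length →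
      (∀ i : ℕ, f[i]? = some true → ∀ w, vs[i]? = some w → v &&& w = 0) → Fits fs ds vs →
      Fits fs (List.zipWith (upd m) f ds) vs := by
  intro fs
  induction fs with
  | nil =>
    intro ds vs f hlen _ h
    match ds, vs, f, h with
    | [], [], [], _ => trivial
    | [], [], _ :: _, _ => simp at hlen
    | [], _ :: _, _, h => exact h.elim
    | _ :: _, _, _, h => exact absurd h (by simp [Fits])
  | cons g gs ih =>
    intro ds vs f hlen hd h
    match ds, vs, f, h with
    | d :: ds, w :: vs, b :: f, h =>
      obtain ⟨hw, hdw, hgl, hg, hrest⟩ := h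
      refine ⟨hw, ?_, hgl, hg, ih ds vs f (by simpa using hlen)
        (fun i hi x hx => hd (i + 1) (by simpa using hi) x (by simpa using hx)) hrest⟩
      show (upd m b d).testBit w = true
      cases b with
      | false => simpa [upd] using hdw
      | true => simp [upd, Nat.testBit_and, hdw, hm w hw (hd 0 rfl w rfl)]
    | _ :: _, _ :: _, [], _ => simp at hlen
    | [], _, _, h => exact absurd h (by simp [Fits])
    | _ :: _, [], _, h => exact h.elim

lemma not_any_zero : ∀ (fs : List (List Bool)) (ds vs : List ℕ), Fits fs ds vs → ds.any (· == 0) = false := by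
  intro fs
  induction fs with
  | nil =>
    intro ds vs h
    match ds, vs, h with
    | [], [], _ => rfl
    | [], _ :: _, h => exact h.elim
    | _ :: _, _, h => exact absurd h (by simp [Fits])
  | cons g gs ih =>
    intro ds vs h
    match ds, vs, h with
    | [], _, h => simp
    | _ :: _, [], h => exact h.elim
    | d :: ds, w :: vs, h =>
      obtain ⟨-, hdw, -, -, hrest⟩ := h
      have : d ≠ 0 := by rintro rfl; simp at hdw
      simp [List.any_cons, ih ds vs hrest, this]

theorem noSol_sound {tab : List (ℕ × ℕ)}
    (htab : ∀ v < 32, ∃ m, (v, m) ∈ tab ∧ ∀ t < 32, v &&& t = 0 → m.testBit t = true) :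
    ∀ (fs : List (List Bool)) (ds vs : List ℕ), noSol tab fs ds = true → ¬ Fits fs ds vs := by
  intro fs
  induction fs with
  | nil => intro ds vs h; simp [noSol] at h
  | cons f fs ih =>
    intro ds vs h hfit
    match ds, vs, hfit with
    | [], _, hfit => simp [Fits] at hfit
    | _ :: _, [], hfit => exact hfit.elim
    | d :: ds, v :: vs, hfit =>
      obtain ⟨hv, hdv, hlen, hdis, hrest⟩ := hfit
      obtain ⟨m, hmem, hm⟩ := htab v hv
      simp only [noSol, List.all_eq_true] at h
      have h' := h _ hmem
      have hfit' := fits_upd hm fs ds vs f hlen hdis hrest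
      simp only [hdv, Bool.not_true, Bool.false_or, force_eq, Bool.or_eq_true] at h'
      rcases h' with h' | h'
      · rw [not_any_zero _ _ _ hfit'] at h'; simp at h'
      · exact ih _ vs h' hfit'

lemma compTable_fst : compTable.map Prod.fst = sets := by decide +kernel

lemma compTable_ok : (compTable.all fun p => sets.all fun t => p.1 &&& t != 0 || p.2.testBit t) = true := by
  decide +kernel

lemma compTable_spec : ∀ v < 32, ∃ m, (v, m) ∈ compTable ∧ ∀ t < 32, v &&& t = 0 → m.testBit t = true := by
  intro v hv
  have : v ∈ compTable.map Prod.fst := by rw [compTable_fst]; exact List.mem_range.2 hv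
  obtain ⟨⟨v', m⟩, hp, rfl⟩ := List.mem_map.1 this
  refine ⟨m, hp, fun t ht h => ?_⟩
  have h' := compTable_ok
  simp only [List.all_eq_true] at h'
  simpa [h] using h' _ hp t (List.mem_range.2 ht)

/-- A colour set for each slot, obeying all the rules of the state `T`. -/
structure Ok (T : List ℕ) (σ : ℕ → ℕ → ℕ) : Prop where
  lt : ∀ a k, a < 7 → k < 6 → look T a ≠ 0 → σ a k < 32
  allow : ∀ a k, a < 7 → k < 6 → look T a ≠ 0 → allowed T a k (σ a k) = true
  disj : ∀ a k b l, a < 7 → k < 6 → b < 7 → l < 6 → look T a ≠ 0 → look T b ≠ 0 →
    adj (a, k) (b, l) = true → σ a k &&& σ b l = 0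

def nodeOk (T : List ℕ) (v : ℕ × ℕ) : Bool := decide (v.1 < 7) && decide (v.2 < 6) && look T v.1 != 0

/-- The nodes `o` admit no colour sets in the state `T` with the extra restriction `e`. -/
def refute (T : List ℕ) (e : Extra) (o : List (ℕ × ℕ)) : Bool :=
  o.all (nodeOk T) && force (o.map (dom T e)) (noSol compTable (rows o))

lemma fits_of_ok {T : List ℕ} {σ : ℕ → ℕ → ℕ} {e : Extra} (h : Ok T σ)
    (he : ∀ a k, extraOk e a k (σ a k) = true) :
    ∀ o : List (ℕ × ℕ), (∀ v ∈ o, nodeOk T v = true) →
      Fits (rows o) (o.map (dom T e)) (o.map fun v => σ v.1 v.2) := by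
  intro o
  induction o with
  | nil => intro _; simp [rows, Fits]
  | cons u o ih =>
    intro ho
    have hu := ho u List.mem_cons_self
    simp only [nodeOk, Bool.and_eq_true, decide_eq_true_eq, bne_iff_ne] at hu
    refine ⟨h.lt _ _ hu.1.1 hu.1.2 hu.2, ?_, by simp, ?_, ih fun v hv => ho v (List.mem_cons_of_mem _ hv)⟩
    · rw [dom, testBit_pack]
      exact ⟨List.mem_range.2 (h.lt _ _ hu.1.1 hu.1.2 hu.2), by
        rw [h.allow _ _ hu.1.1 hu.1.2 hu.2, he]; rfl⟩
    · intro i hi w hw
      simp only [List.getElem?_map, Option.map_eq_some_iff] at hi hw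
      obtain ⟨v, hv, hadj⟩ := hi
      obtain ⟨v', hv', rfl⟩ := hw
      rw [hv] at hv'; cases hv'
      have hv2 := ho v (List.mem_cons_of_mem _ (List.mem_of_getElem? hv))
      simp only [nodeOk, Bool.and_eq_true, decide_eq_true_eq, bne_iff_ne] at hv2
      exact h.disj _ _ _ _ hu.1.1 hu.1.2 hv2.1.1 hv2.1.2 hu.2 hv2.2 hadj

theorem refute_sound {T : List ℕ} {σ : ℕ → ℕ → ℕ} {e : Extra} {o : List (ℕ × ℕ)}
    (h : refute T e o = true) (hok : Ok T σ) : ¬ ∀ a k, extraOk e a k (σ a k) = true := by
  intro he
  simp only [refute, Bool.and_eq_true, List.all_eq_true] at h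
  rw [force_eq] at h
  exact noSol_sound compTable_spec _ _ _ h.2 (fits_of_ok hok he o h.1)

/-- A colour absent on a whole circle is present at a neighbour. -/
def badHit (T : List ℕ) : Bool :=
  (List.range 7).any fun a => flag (look T a) != 0 &&
    (List.range 6).any fun k => tgt a k < 7 && (mask (look T (tgt a k))).testBit (flag (look T a) - 1)

/-- Near a vertex without the colour `u`, a neighbouring vertex has another outside colour of `o`. -/
def flipPair (o b c : ℕ) : Bool :=
  (List.range 5).any fun u => o.testBit u && !b.testBit u && c &&& (o - 2 ^ u) != 0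

/-- At a triple without such a colour, the two outside colours fail to alternate. -/
def flipHit (T : List ℕ) : Bool :=
  (List.range 7).any fun a => look T a != 0 && flag (look T a) == 0 && card (mask (look T a)) == 3 &&
    (List.range 6).any fun k =>
      tgt a k < 7 && tgt a (k + 1) < 7 && look T (tgt a k) != 0 && look T (tgt a (k + 1)) != 0 &&
      (flipPair (31 - mask (look T a)) (mask (look T (tgt a k))) (mask (look T (tgt a (k + 1)))) ||
       flipPair (31 - mask (look T a)) (mask (look T (tgt a (k + 1)))) (mask (look T (tgt a k))))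

inductive Item
  | search (o : List (ℕ × ℕ))
  | forced (a k c j : ℕ) (o : List (ℕ × ℕ))
  | split (j : ℕ) (up : Bool)

/-- The colour `c` missing at every slot from `a` towards a neighbour is absent around it. -/
def forcedHit (T : List ℕ) (a k c j : ℕ) : Bool :=
  decide (a < 7) && decide (k < 6) && decide (j < 6) && decide (c < 5) && look T a != 0 &&
  decide (tgt a k < 7) && j % 3 != k % 3 &&
  decide (tgt (tgt a k) j < 7) && (mask (look T (tgt (tgt a k) j))).testBit c

def ring (j : ℕ) (up : Bool) : ℕ := if up then j % 6 + 1 else (j + 4) % 6 + 1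

/-- A third vertex of a middle and a rich vertex has three closures. -/
def canSplit (T : List ℕ) (j : ℕ) (up : Bool) : Bool :=
  decide (1 ≤ j) && decide (j ≤ 6) && look T (ring j up) == 0 && look T j != 0 && look T 0 != 0 &&
  ((card (mask (look T j)) ≥ 4 && card (mask (look T 0)) ≥ 4 &&
      !(card (mask (look T 0)) == 4 && mask (look T j) == mask (look T 0))) ||
   (card (mask (look T 0)) == 5 && card (mask (look T j)) == 3))

/-- Check the certificate `code` against the state `T`, returning the unused part. -/
def walk (pool : List Item) (opts : List ℕ) (final : List ℕ → Bool) :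
    ℕ → List ℕ → List ℕ → Option (List ℕ)
  | 0, _, _ => none
  | fuel + 1, T, code =>
    if badHit T || flipHit T then some code else
    if final T then some code else
    match code with
    | [] => none
    | i :: rest =>
      match pool[i]? with
      | none => none
      | some (.search o) => if refute T none o then some rest else none
      | some (.forced a k c j o) =>
        if forcedHit T a k c j && refute T (some (a, k, c)) o then some rest else none
      | some (.split j up) =>
        if canSplit T j up then
          opts.foldlM (fun acc s => walk pool opts final fuel (T.set (ring j up) s) acc) rest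
        else none

/-- What the geometry has to provide about the states that occur. -/
structure Rules (opts : List ℕ) (V : List ℕ → Prop) : Prop where
  bad : ∀ T, V T → badHit T = false
  flip : ∀ T, V T → flipHit T = false
  slots : ∀ T, V T → ∃ σ, Ok T σ
  forced : ∀ T a k c j, V T → forcedHit T a k c j = true → ∃ σ, Ok T σ ∧ (σ a k).testBit c = false
  split : ∀ T j up, V T → canSplit T j up = true → ∃ s ∈ opts, V (T.set (ring j up) s)

lemma foldlM_some {α β : Type} {f : β → α → Option β} :
    ∀ {l : List α} {b r : β}, l.foldlM f b = some r → ∀ x ∈ l, ∃ b' r', f b' x = some r' := by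
  intro l
  induction l with
  | nil => intro b r _ x hx; cases hx
  | cons y l ih =>
    intro b r h x hx
    simp only [List.foldlM_cons] at h
    cases hy : f b y with
    | none => simp [hy] at h
    | some b₁ =>
      simp [hy] at h
      rcases List.mem_cons.1 hx with rfl | hx
      · exact ⟨b, b₁, hy⟩
      · exact ih h x hx

theorem walk_sound {pool : List Item} {opts : List ℕ} {final : List ℕ → Bool} {V : List ℕ → Prop}
    (R : Rules opts V) : ∀ (fuel : ℕ) (T code r : List ℕ),
      walk pool opts final fuel T code = some r → V T → ∃ T', V T' ∧ final T' = true := by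
  intro fuel
  induction fuel with
  | zero => intro T code r h; simp [walk] at h
  | succ fuel ih =>
    intro T code r h hV
    rw [walk.eq_def] at h
    simp only [R.bad T hV, R.flip T hV] at h
    simp only [Bool.or_self, Bool.false_eq_true, if_false] at h
    by_cases hf : final T = true
    · exact ⟨T, hV, hf⟩
    simp only [hf, Bool.false_eq_true, if_false] at h
    match code, h with
    | i :: rest, h =>
      dsimp only at h
      match hp : pool[i]?, h with
      | none, h => simp [hp] at h
      | some (.search o), h =>
        simp only [hp] at h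
        by_cases hr : refute T none o = true
        · obtain ⟨σ, hσ⟩ := R.slots T hV
          exact absurd (fun a k => rfl) (refute_sound hr hσ)
        · simp [hr] at h
      | some (.forced a k c j o), h =>
        simp only [hp] at h
        by_cases hr : (forcedHit T a k c j && refute T (some (a, k, c)) o) = true
        · rw [Bool.and_eq_true] at hr
          obtain ⟨σ, hσ, hc⟩ := R.forced T a k c j hV hr.1
          refine absurd (fun a' k' => ?_) (refute_sound hr.2 hσ)
          by_cases he : a' = a ∧ k' = k
          · obtain ⟨rfl, rfl⟩ := he; simp [extraOk, hc]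
          · simp only [extraOk, Bool.not_eq_true', Bool.and_eq_false_iff, beq_eq_false_iff_ne]
            tauto
        · simp [hr] at h
      | some (.split j up), h =>
        simp only [hp] at h
        by_cases hs : canSplit T j up = true
        · simp only [hs, if_true] at h
          obtain ⟨s, hso, hV'⟩ := R.split T j up hV hs
          obtain ⟨c', r', hw⟩ := foldlM_some h s hso
          exact ih _ _ _ hw hV'
        · simp [hs] at h

end Vale.Agent.P032Baire.Finite
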