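import Vale.Agent.P032Baire.Tools2
import Vale.Agent.P032Baire.Finite

/-! The rules of the finite checker hold for seven centres in a triangular lattice. -/

open Set Metric Filter Topology
open scoped ComplexConjugate

namespace Vale.Agent.P032Baire

/-- Bit code of a colour set. -/
def enc (s : Finset (Fin 5)) : ℕ := ∑ i ∈ s, 2 ^ (i : ℕ)

lemma enc_lt : ∀ s, enc s < 32 := by decide +kernel
lemma enc_inj' : ∀ s t, enc s = enc t → s = t := by decide +kernel
lemma testBit_enc : ∀ s, ∀ i : Fin 5, (enc s).testBit i = decide (i ∈ s) := by decide +kernel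
lemma card_enc : ∀ s, Finite.card (enc s) = s.card := by decide +kernel
lemma enc_eq_zero : ∀ s, enc s = 0 → s = ∅ := by decide +kernel
lemma sub_enc : ∀ s t, Finite.sub (enc s) (enc t) = decide (s ⊆ t) := by decide +kernel
lemma and_enc : ∀ s t, Disjoint s t → enc s &&& enc t = 0 := by decide +kernel
lemma flipPair_enc : ∀ s t r : Finset (Fin 5), s.card = 3 →
    Finite.flipPair (31 - enc s) (enc t) (enc r) = true →
    ∃ u v : Fin 5, u ∉ t ∧ v ∈ r ∧ u ≠ v ∧ sᶜ = {u, v} := by decide +kernel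

/-- The point `x + y ω` of the triangular lattice. -/
noncomputable def lat (x y : ℤ) : ℂ := ⟨x + y / 2, y * (Real.sqrt 3 / 2)⟩

def qf (x y : ℤ) : ℤ := x * x + x * y + y * y

lemma normSq_lat (x y : ℤ) : Complex.normSq (lat x y) = (qf x y : ℝ) := by
  have h3 := Real.mul_self_sqrt (show (0:ℝ) ≤ 3 by norm_num)
  simp [lat, qf, Complex.normSq_mk]
  nlinarith

lemma norm_lat {x y : ℤ} (h : qf x y = 1) : ‖lat x y‖ = 1 := by
  rw [Complex.norm_def, normSq_lat, h]; simp

lemma lat_sub (x y x' y' : ℤ) : lat x y - lat x' y' = lat (x - x') (y - y') := by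
  apply Complex.ext <;> simp [lat] <;> ring

lemma lat_add (x y x' y' : ℤ) : lat x y + lat x' y' = lat (x + x') (y + y') := by
  apply Complex.ext <;> simp [lat] <;> ring

/-- Coordinates of the seven centres, and of the six directions. -/
def cx (a : ℕ) : ℤ := [0, 1, 0, -1, -1, 0, 1].getD a 0
def cy (a : ℕ) : ℤ := [0, 0, 1, 1, 0, -1, -1].getD a 0
def dx (k : ℕ) : ℤ := cx (k % 6 + 1)
def dy (k : ℕ) : ℤ := cy (k % 6 + 1)

lemma qf_dir : ∀ k < 7, qf (dx k) (dy k) = 1 := by decide +kernel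
lemma tgt_coord : ∀ a < 7, ∀ k < 7, Finite.tgt a k < 7 →
    cx (Finite.tgt a k) = cx a + dx k ∧ cy (Finite.tgt a k) = cy a + dy k := by decide +kernel
lemma tgt_next : ∀ a < 7, ∀ k < 6, Finite.tgt a k < 7 → Finite.tgt a (k + 1) < 7 →
    qf (cx (Finite.tgt a k) - cx (Finite.tgt a (k + 1))) (cy (Finite.tgt a k) - cy (Finite.tgt a (k + 1))) = 1 := by
  decide +kernel
lemma next_dir : ∀ k < 6, ∀ l < 6, ((k + 1) % 6 = l ∨ (l + 1) % 6 = k) →
    qf (dx k - dx l) (dy k - dy l) = 1 := by decide +kernel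
lemma tgt_self : ∀ a < 7, ∀ j < 6, Finite.tgt a j ≠ a := by decide +kernel
lemma dir_cases : ∀ k < 6, ∀ j < 6, (dx k * dy j - dy k * dx j).natAbs ≤ 1 ∧
    (j % 3 ≠ k % 3 → dx k * dy j - dy k * dx j ≠ 0) := by decide +kernel
lemma ring_facts : ∀ j, 1 ≤ j → j ≤ 6 → ∀ up, Finite.ring j up < 7 ∧
    qf (cx j - cx 0) (cy j - cy 0) = 1 ∧
    qf (cx 0 - cx (Finite.ring j up)) (cy 0 - cy (Finite.ring j up)) = 1 ∧
    qf (cx j - cx (Finite.ring j up)) (cy j - cy (Finite.ring j up)) = 1 := by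
  intro j h1 h2
  revert h1
  revert j
  decide +kernel

/-- The seven centres in the frame `q`, `u`. -/
noncomputable def pos (q u : ℂ) (a : ℕ) : ℂ := q + u * lat (cx a) (cy a)

noncomputable def dir (u : ℂ) (k : ℕ) : ℂ := u * lat (dx k) (dy k)

lemma norm_dir {u : ℂ} (hu : ‖u‖ = 1) {k : ℕ} (hk : k < 7) : ‖dir u k‖ = 1 := by
  rw [dir, norm_mul, hu, norm_lat (qf_dir k hk), one_mul]

lemma pos_tgt (q u : ℂ) {a k : ℕ} (ha : a < 7) (hk : k < 7) (h : Finite.tgt a k < 7) :
    pos q u (Finite.tgt a k) = pos q u a + dir u k := by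
  obtain ⟨e1, e2⟩ := tgt_coord a ha k hk h
  rw [pos, pos, dir, e1, e2, ← lat_add, mul_add, add_assoc]

lemma dist_pos (q : ℂ) {u : ℂ} (hu : ‖u‖ = 1) {a b : ℕ}
    (h : qf (cx a - cx b) (cy a - cy b) = 1) : dist (pos q u a) (pos q u b) = 1 := by
  rw [dist_eq_norm, pos, pos, add_sub_add_left_eq_sub, ← mul_sub, lat_sub, norm_mul, hu, norm_lat h,
    one_mul]

lemma dist_tgt (q : ℂ) {u : ℂ} (hu : ‖u‖ = 1) {a k : ℕ} (ha : a < 7) (hk : k < 7)
    (h : Finite.tgt a k < 7) : dist (pos q u a) (pos q u (Finite.tgt a k)) = 1 := by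
  rw [pos_tgt q u ha hk h]; simp [dist_eq_norm, norm_dir hu hk]

lemma cross_mul {u a b : ℂ} (hu : ‖u‖ = 1) :
    (u * a).re * (u * b).im - (u * a).im * (u * b).re = a.re * b.im - a.im * b.re := by
  have := Complex.sq_norm u
  rw [hu, Complex.normSq_apply] at this
  simp only [Complex.mul_re, Complex.mul_im]
  linear_combination -(a.re * b.im - a.im * b.re) * this

lemma cross_lat (x y x' y' : ℤ) : (lat x y).re * (lat x' y').im - (lat x y).im * (lat x' y').re =
    ((x * y' - y * x' : ℤ) : ℝ) * (Real.sqrt 3 / 2) := by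
  simp [lat]; ring

lemma dir_cross_ne {u : ℂ} (hu : ‖u‖ = 1) {k j : ℕ} (hk : k < 6) (hj : j < 6) (h : j % 3 ≠ k % 3) :
    (dir u k).re * (dir u j).im - (dir u k).im * (dir u j).re ≠ 0 := by
  rw [dir, dir, cross_mul hu, cross_lat]
  exact mul_ne_zero (by exact_mod_cast (dir_cases k hk j hj).2 h) (by positivity)

lemma turned_cross_ne {u : ℂ} (hu : ‖u‖ = 1) {k j : ℕ} (hk : k < 6) (hj : j < 6) {θ : ℝ}
    (hθ : θ ≠ 0) (hθ' : |θ| < 1/2) :
    (dir u k * Complex.exp (θ * Complex.I)).re * (dir u j).im -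
      (dir u k * Complex.exp (θ * Complex.I)).im * (dir u j).re ≠ 0 := by
  set a := dir u k with ha
  set b := dir u j with hb
  have hn : ∀ l < 6, (dir u l).re * (dir u l).re + (dir u l).im * (dir u l).im = 1 := by
    intro l hl
    rw [← Complex.normSq_apply, ← Complex.sq_norm, norm_dir hu (by omega)]; norm_num
  set X := a.re * b.im - a.im * b.re with hX
  set D := a.re * b.re + a.im * b.im
  have hXD : X ^ 2 + D ^ 2 = 1 := by
    linear_combination (b.re * b.re + b.im * b.im) * hn k hk + hn j hj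
  have hX2 : X ^ 2 ≤ 3 / 4 := by
    rw [hX, ha, hb, dir, dir, cross_mul hu, cross_lat]
    have h3 := Real.sq_sqrt (show (0:ℝ) ≤ 3 by norm_num)
    have hz := (dir_cases k hk j hj).1
    set m := dx k * dy j - dy k * dx j
    have : m = -1 ∨ m = 0 ∨ m = 1 := by omega
    rcases this with h | h | h <;> rw [h] <;> norm_num <;> nlinarith
  have e : (a * Complex.exp (θ * Complex.I)).re * b.im - (a * Complex.exp (θ * Complex.I)).im * b.re =
      Real.cos θ * X - Real.sin θ * D := by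
    simp [Complex.exp_ofReal_mul_I_re, Complex.exp_ofReal_mul_I_im, X, D]; ring
  rw [e]
  intro h
  have hs := Real.sin_sq_add_cos_sq θ
  have h2 : Real.cos θ ^ 2 * X ^ 2 = Real.sin θ ^ 2 * D ^ 2 := by
    linear_combination (Real.cos θ * X + Real.sin θ * D) * h
  have hsin : Real.sin θ ≠ 0 := by
    intro h0
    rcases lt_or_gt_of_ne hθ with h | h
    · exact absurd h0 (Real.sin_neg_of_neg_of_neg_pi_lt h (by linarith [Real.pi_gt_three, (abs_lt.1 hθ').1])).ne
    · exact absurd h0 (Real.sin_pos_of_pos_of_lt_pi h (by linarith [Real.pi_gt_three, (abs_lt.1 hθ').2])).ne'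
  have hsm : Real.sin θ ^ 2 < 1/4 := by
    have : |Real.sin θ| < 1/2 := lt_of_le_of_lt Real.abs_sin_le_abs hθ'
    nlinarith [sq_abs (Real.sin θ), abs_nonneg (Real.sin θ)]
  have h3 : X ^ 2 = Real.sin θ ^ 2 := by linear_combination h2 + Real.sin θ ^ 2 * hXD - X ^ 2 * hs
  have h4 : D ^ 2 > 0 := by nlinarith
  have : X ≠ 0 := fun h0 => hsin (by nlinarith [h3, h0])
  have hm : X ^ 2 = 3/4 := by
    rw [hX, ha, hb, dir, dir, cross_mul hu, cross_lat] at this ⊢
    have h5 := Real.sq_sqrt (show (0:ℝ) ≤ 3 by norm_num)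
    have hz := (dir_cases k hk j hj).1
    set m := dx k * dy j - dy k * dx j
    have hm : m = -1 ∨ m = 0 ∨ m = 1 := by omega
    rcases hm with h | h | h
    · rw [h]; push_cast; linear_combination (1/4 : ℝ) * h5
    · rw [h] at this; simp at this
    · rw [h]; push_cast; linear_combination (1/4 : ℝ) * h5
  linarith

namespace Cfg

variable (C : Cfg)

/-- The colour `c` is missing on the whole circle about `w`. -/
def Abs (c : Fin 5) (w : ℂ) : Prop := ∀ p, dist w p = 1 → c ∉ C.T p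

/-- What a state entry says about its point. -/
def Desc (v : ℕ) (w : ℂ) : Prop :=
  v ≠ 0 → Finite.mask v = enc (C.T w) ∧ 3 ≤ (C.T w).card ∧
    (Finite.flag v = 0 → (C.T w).card = 3 → ∀ z, dist w z = 1 → ¬ C.T z ⊆ C.T w) ∧
    (Finite.flag v ≠ 0 → ∃ c : Fin 5, Finite.flag v = (c : ℕ) + 1 ∧ C.Abs c w)

/-- A state holds in the frame `q`, `u`. -/
def Valid (q u : ℂ) (T : List ℕ) : Prop :=
  T.length = 7 ∧ ∀ a < 7, C.Desc (Finite.look T a) (pos q u a)

/-- The entry options cover every point with at least three colours. -/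
def Covers (opts : List ℕ) : Prop := ∀ w, 3 ≤ (C.T w).card → ∃ v ∈ opts, C.Desc v w

theorem exists_desc {w : ℂ} (hw : 3 ≤ (C.T w).card) :
    ∃ v, C.Desc v w ∧ Finite.mask v = enc (C.T w) ∧
      (v = enc (C.T w) ∨ (C.T w).card = 3 ∧ ∃ c ∈ C.T w, v = enc (C.T w) + 32 * ((c : ℕ) + 1)) := by
  have hlt := enc_lt (C.T w)
  by_cases hb : (C.T w).card = 3 ∧ ∃ a b, C.Bad w a b
  · obtain ⟨h3, a, b, hab⟩ := hb
    obtain ⟨hne, ha, hbb, -⟩ := id hab
    obtain ⟨c, hc⟩ : ∃ c, ((C.T w).erase a).erase b = {c} := Finset.card_eq_one.1 (by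
      rw [Finset.card_erase_of_mem (Finset.mem_erase.2 ⟨hne.symm, hbb⟩), Finset.card_erase_of_mem ha, h3])
    have hcm : c ∈ C.T w := Finset.mem_of_mem_erase (Finset.mem_of_mem_erase (hc ▸ Finset.mem_singleton_self c))
    have hmask : Finite.mask (enc (C.T w) + 32 * ((c : ℕ) + 1)) = enc (C.T w) := by
      simp only [Finite.mask]; omega
    refine ⟨_, fun _ => ⟨hmask, hw, fun h => ?_, fun _ => ⟨c, ?_, fun p hp => ?_⟩⟩, hmask,
      Or.inr ⟨h3, c, hcm, rfl⟩⟩
    · simp only [Finite.flag] at h; omega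
    · simp only [Finite.flag]; omega
    · obtain ⟨c', hc', hca, hcb, hp'⟩ := C.bad_absent h3.le hab (p := p) (by rw [dist_comm]; exact hp)
      have : c' ∈ ((C.T w).erase a).erase b := by simp [hc', hca, hcb]
      rw [hc, Finset.mem_singleton] at this
      exact fun h => hp' (C.mem_T.1 (this ▸ h))
  · have hmask : Finite.mask (enc (C.T w)) = enc (C.T w) := Nat.mod_eq_of_lt hlt
    refine ⟨_, fun _ => ⟨hmask, hw, fun _ h3 => ?_, fun h => ?_⟩, hmask, Or.inl rfl⟩
    · exact C.circle_outside h3 fun a b h => hb ⟨h3, a, b, h⟩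
    · exact absurd (Nat.div_eq_of_lt hlt) h

lemma testBit_mask {v : ℕ} {w : ℂ} (hd : C.Desc v w) {i : Fin 5}
    (h : (Finite.mask v).testBit i = true) : i ∈ C.T w := by
  have hv : v ≠ 0 := by rintro rfl; simp [Finite.mask] at h
  rw [(hd hv).1, testBit_enc] at h
  exact of_decide_eq_true h

variable {q u : ℂ} {opts : List ℕ}

theorem valid_bad (hu : ‖u‖ = 1) {T : List ℕ} (hV : C.Valid q u T) : Finite.badHit T = false := by
  by_contra h
  simp only [Bool.not_eq_false, Finite.badHit, List.any_eq_true, List.mem_range, Bool.and_eq_true,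
    bne_iff_ne, decide_eq_true_eq] at h
  obtain ⟨a, ha, hf, k, hk, ht, hbit⟩ := h
  have h0 : Finite.look T a ≠ 0 := fun h => hf (by simp [h, Finite.flag])
  obtain ⟨c, hc, habs⟩ := (hV.2 a ha h0).2.2.2 hf
  rw [hc, Nat.add_sub_cancel] at hbit
  exact habs _ (dist_tgt q hu ha (by omega) ht) (C.testBit_mask (hV.2 _ ht) hbit)

theorem valid_flip (hu : ‖u‖ = 1) {T : List ℕ} (hV : C.Valid q u T) : Finite.flipHit T = false := by
  by_contra h
  simp only [Bool.not_eq_false, Finite.flipHit, List.any_eq_true, List.mem_range, Bool.and_eq_true,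
    Bool.or_eq_true, bne_iff_ne, beq_iff_eq, decide_eq_true_eq] at h
  obtain ⟨a, ha, ⟨⟨h0, hfl⟩, hc3⟩, k, hk, ⟨⟨⟨htb, htc⟩, hb0⟩, hc0⟩, hp⟩ := h
  obtain ⟨hm, -, hout, -⟩ := hV.2 a ha h0
  rw [hm, card_enc] at hc3
  rw [hm, (hV.2 _ htb hb0).1, (hV.2 _ htc hc0).1] at hp
  have key : ∀ z z', dist (pos q u a) z = 1 → dist (pos q u a) z' = 1 → dist z z' = 1 →
      Finite.flipPair (31 - enc (C.T (pos q u a))) (enc (C.T z)) (enc (C.T z')) = true → False := by
    intro z z' hz hz' hzz hpair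
    obtain ⟨c, v, hc, hv, hcv, hcompl⟩ := flipPair_enc _ _ _ hc3 hpair
    refine C.flip (f := v) (g := c) (fun x hx => ?_) hz hz' hzz (fun h => hc (C.mem_T.2 h)) (C.mem_T.1 hv)
    obtain ⟨i, hi, hia⟩ := Finset.not_subset.1 (hout hfl hc3 x hx)
    have := hcompl ▸ Finset.mem_compl.2 hia
    simp only [Finset.mem_insert, Finset.mem_singleton] at this
    rcases this with rfl | rfl
    · exact Or.inr (C.mem_T.1 hi)
    · exact Or.inl (C.mem_T.1 hi)
  have d1 := dist_tgt q hu ha (show k < 7 by omega) htb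
  have d2 := dist_tgt q hu ha (show k + 1 < 7 by omega) htc
  have d3 := dist_pos q hu (tgt_next a ha k hk htb htc)
  rcases hp with hp | hp
  · exact key _ _ d1 d2 d3 hp
  · exact key _ _ d2 d1 (by rw [dist_comm]; exact d3) hp

/-- The colour set met at angle `θ` in direction `k` from the centre `a`. -/
noncomputable def sig (q u : ℂ) (θ : ℝ) (a k : ℕ) : ℕ :=
  enc (C.T (pos q u a + dir u k * Complex.exp (θ * Complex.I)))

lemma exists_radius (q u : ℂ) :
    ∃ η > 0, η ≤ 1/2 ∧ ∀ θ : ℝ, |θ| < η → ∀ a k : Fin 7,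
      C.T (pos q u a + dir u k * Complex.exp (θ * Complex.I)) ⊆ C.T (pos q u a + dir u k) := by
  have : ∀ᶠ θ : ℝ in 𝓝 0, ∀ a k : Fin 7,
      C.T (pos q u a + dir u k * Complex.exp (θ * Complex.I)) ⊆ C.T (pos q u a + dir u k) := by
    refine eventually_all.2 fun a => eventually_all.2 fun k => ?_
    have hc : Tendsto (fun θ : ℝ => pos q u a + dir u k * Complex.exp (θ * Complex.I)) (𝓝 0)
        (𝓝 (pos q u a + dir u k)) := by
      have := (by fun_prop : Continuous fun θ : ℝ => pos q u a + dir u k * Complex.exp (θ * Complex.I)).tendsto 0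
      simpa using this
    exact hc.eventually (C.eventually_T_subset _)
  obtain ⟨η, hη, h⟩ := Metric.eventually_nhds_iff.1 this
  exact ⟨min η (1/2), lt_min hη (by norm_num), min_le_right _ _,
    fun θ hθ => h (by simpa using hθ.trans_le (min_le_left _ _))⟩

theorem ok_sig (hu : ‖u‖ = 1) {T : List ℕ} (hV : C.Valid q u T) {θ : ℝ} (h0 : θ ≠ 0) (hθ : |θ| < 1/2)
    (hgen : ∀ a k : Fin 7, C.Slot (pos q u a) (pos q u a + dir u k * Complex.exp (θ * Complex.I)))
    (hsub : ∀ a k : Fin 7,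
      C.T (pos q u a + dir u k * Complex.exp (θ * Complex.I)) ⊆ C.T (pos q u a + dir u k)) :
    Finite.Ok T (C.sig q u θ) := by
  refine ⟨fun a k _ _ _ => enc_lt _, fun a k ha hk hne => ?_, fun a k b l ha hk hb hl hna hnb hadj => ?_⟩
  · have hslot := hgen ⟨a, ha⟩ ⟨k, by omega⟩
    have hsub' := hsub ⟨a, ha⟩ ⟨k, by omega⟩
    dsimp only at hslot hsub'
    set z := pos q u a + dir u k * Complex.exp (θ * Complex.I)
    obtain ⟨hm, -, hout, hbad⟩ := hV.2 a ha hne
    simp only [Finite.allowed, sig, Bool.and_eq_true, Bool.or_eq_true, bne_iff_ne, beq_iff_eq]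
    refine ⟨⟨⟨fun h => (C.T_nonempty z).ne_empty (enc_eq_zero _ h), ?_⟩, ?_⟩, ?_⟩
    · by_cases ht : Finite.tgt a k < 7
      · by_cases hn : Finite.look T (Finite.tgt a k) = 0
        · exact Or.inl hn
        · refine Or.inr ?_
          rw [(hV.2 _ ht hn).1, sub_enc, decide_eq_true_eq, pos_tgt q u ha (by omega) ht]
          exact hsub'
      · left
        rw [Finite.look, List.getD_eq_default]
        rw [hV.1]; omega
    · by_cases h1 : (C.T z).card = 1
      · right
        obtain ⟨i, hi⟩ := Finset.card_eq_one.1 h1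
        rw [hm, hi]
        exact and_enc _ _ (Finset.disjoint_singleton_left.2 (C.slot_single hslot hi))
      · exact Or.inl (by rw [card_enc]; exact h1)
    · by_cases hf : Finite.flag (Finite.look T a) = 0
      · rw [if_pos hf]
        simp only [Bool.or_eq_true, bne_iff_ne]
        by_cases h3 : (C.T (pos q u a)).card = 3
        · right
          rw [hm, sub_enc]
          simp only [Bool.not_eq_true', decide_eq_false_iff_not]
          exact hout hf h3 z hslot.1
        · exact Or.inl (by rw [hm, card_enc]; exact h3)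
      · obtain ⟨c, hc, habs⟩ := hbad hf
        rw [if_neg hf, hc, Nat.add_sub_cancel, testBit_enc]
        simp only [Bool.not_eq_true', decide_eq_false_iff_not]
        exact habs _ hslot.1
  · have hz := hgen ⟨a, ha⟩ ⟨k, by omega⟩
    dsimp only at hz
    simp only [Finite.adj, Bool.or_eq_true, Bool.and_eq_true, beq_iff_eq, List.any_eq_true,
      List.mem_range] at hadj
    apply and_enc
    rcases hadj with ⟨rfl, hkl⟩ | ⟨rfl, j, hj, hjb⟩
    · refine C.slot_disjoint hz (hgen ⟨a, ha⟩ ⟨l, by omega⟩).1 ?_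
      have hq := next_dir l hl k hk (hkl.symm)
      simp only [dir, dist_eq_norm, add_sub_add_left_eq_sub, ← sub_mul, ← mul_sub, lat_sub, norm_mul, hu,
        norm_lat hq, Complex.norm_exp_ofReal_mul_I, mul_one]
    · have ht : Finite.tgt a j < 7 := hjb ▸ hb
      have hp := pos_tgt q u ha (show j < 7 by omega) ht
      rw [hjb] at hp
      have e : pos q u b + dir u k * Complex.exp (θ * Complex.I) =
          pos q u a + dir u k * Complex.exp (θ * Complex.I) + (pos q u b - pos q u a) := by ring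
      rw [e]
      refine C.trans_disjoint hz (hjb ▸ dist_tgt q hu ha (by omega) ht) ?_
      rw [add_sub_cancel_left, hp, add_sub_cancel_left]
      exact turned_cross_ne hu hk hj h0 hθ

/-- Slots at arbitrarily small nonzero angles, next to any given small angle. -/
lemma exists_angle (hu : ‖u‖ = 1) {θ₁ η : ℝ} (hη : 0 < η) (h1 : θ₁ ≠ 0) :
    ∃ θ : ℝ, θ ≠ 0 ∧ |θ - θ₁| < η ∧
      ∀ a k : Fin 7, C.Slot (pos q u a) (pos q u a + dir u k * Complex.exp (θ * Complex.I)) := by
  obtain ⟨θ, hθ, h⟩ := C.exists_generic (fun p : Fin 7 × Fin 7 => pos q u p.1)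
    (fun p => dir u p.2) (fun p => norm_dir hu p.2.2) θ₁ (lt_min hη (abs_pos.2 h1))
  refine ⟨θ, ?_, hθ.trans_le (min_le_left _ _), fun a k => h (a, k)⟩
  rintro rfl
  have := hθ.trans_le (min_le_right _ _)
  rw [zero_sub, abs_neg] at this
  exact lt_irrefl _ this

theorem valid_slots (hu : ‖u‖ = 1) {T : List ℕ} (hV : C.Valid q u T) : ∃ σ, Finite.Ok T σ := by
  obtain ⟨η, hη, hη2, hsub⟩ := C.exists_radius q u
  obtain ⟨θ, h0, hθ, hgen⟩ := C.exists_angle (q := q) hu (θ₁ := η/2) (show 0 < η/4 by linarith) (by linarith)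
  have : |θ| < η := by rw [abs_lt] at hθ ⊢; constructor <;> linarith
  exact ⟨_, C.ok_sig hu hV h0 (this.trans_le hη2) hgen (hsub θ this)⟩

/-- If a colour is seen at every small generic angle, it fills an arc and is missing across. -/
theorem absent_of_forced (hu : ‖u‖ = 1) {T : List ℕ} (hV : C.Valid q u T) {a k : ℕ} {c : Fin 5}
    (hk : k < 6)
    (hall : ∀ σ, Finite.Ok T σ → (σ a k).testBit c = true) {p : ℂ}
    (hp : dist (pos q u a + dir u k) p = 1)
    (hX : (dir u k).re * (p - (pos q u a + dir u k)).im -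
      (dir u k).im * (p - (pos q u a + dir u k)).re ≠ 0) : c ∉ C.T p := by
  obtain ⟨η, hη, hη2, hsub⟩ := C.exists_radius q u
  set w := pos q u a with hw
  let γ : ℝ → ℂ := fun θ => w + dir u k * Complex.exp (θ * Complex.I)
  have hγ : Continuous γ := by fun_prop
  have hS : IsClosed {θ : ℝ | c ∈ C.T (γ θ)} := by
    simp only [C.mem_T]; exact (C.isClosed_F c).preimage hγ
  have hne : ∀ θ₁ : ℝ, θ₁ ≠ 0 → |θ₁| < η → c ∈ C.T (γ θ₁) := by
    intro θ₁ h1 h2
    by_contra hc
    obtain ⟨r, hr, hrs⟩ := Metric.isOpen_iff.1 hS.isOpen_compl θ₁ hc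
    obtain ⟨θ, h0, hθ, hgen⟩ := C.exists_angle (q := q) hu (lt_min hr (sub_pos.2 h2)) h1
    have hθη : |θ| < η := by
      have := hθ.trans_le (min_le_right _ _)
      have := abs_sub_abs_le_abs_sub θ θ₁
      linarith
    have := hall _ (C.ok_sig hu hV h0 (hθη.trans_le hη2) hgen (hsub θ hθη))
    rw [sig, testBit_enc, decide_eq_true_eq] at this
    exact hrs (by simpa [Real.dist_eq] using hθ.trans_le (min_le_left _ _)) this
  have h00 : (0:ℝ) ∈ {θ : ℝ | c ∈ C.T (γ θ)} := by
    refine hS.mem_of_tendsto (f := fun t : ℝ => t) (b := 𝓝[≠] (0:ℝ)) (tendsto_id.mono_left inf_le_left) ?_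
    filter_upwards [self_mem_nhdsWithin,
      nhdsWithin_le_nhds (Metric.ball_mem_nhds (0:ℝ) hη)] with t ht ht'
    exact hne t ht (by simpa using ht')
  have harc : Tendsto (fun t : ℝ => Complex.arg (turn t)) (𝓝 0) (𝓝 0) := by
    have h1 : ContinuousAt (fun t : ℝ => Complex.arg (turn t)) 0 := by
      refine ContinuousAt.comp (Complex.continuousAt_arg ?_) continuous_turn.continuousAt
      simp [turn_zero, Complex.one_mem_slitPlane]
    simpa [ContinuousAt, turn_zero] using h1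
  obtain ⟨τ, hτ, hτη⟩ := Metric.eventually_nhds_iff.1 (harc.eventually (Metric.ball_mem_nhds (0:ℝ) hη))
  refine C.sol (a := w) (b := w + dir u k) (τ := τ/2) (half_pos hτ) ?_ ?_ hp ?_
  · simp [dist_eq_norm, norm_dir hu (show k < 7 by omega)]
  · intro t ht
    have hturn : turn t = Complex.exp (Complex.arg (turn t) * Complex.I) := by
      have := Complex.norm_mul_exp_arg_mul_I (turn t)
      rw [norm_turn, Complex.ofReal_one, one_mul] at this
      exact this.symm
    rw [add_sub_cancel_left, arc, hturn]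
    have := hτη (y := t) (by rw [dist_zero_right, Real.norm_eq_abs]; exact (abs_le.2 ht).trans_lt (by linarith))
    rw [dist_zero_right, Real.norm_eq_abs] at this
    by_cases h : Complex.arg (turn t) = 0
    · rw [h]; exact h00
    · exact hne _ h this
  · rw [add_sub_cancel_left]; exact hX

theorem valid_forced (hu : ‖u‖ = 1) {T : List ℕ} {a k c j : ℕ} (hV : C.Valid q u T)
    (h : Finite.forcedHit T a k c j = true) : ∃ σ, Finite.Ok T σ ∧ (σ a k).testBit c = false := by
  simp only [Finite.forcedHit, Bool.and_eq_true, decide_eq_true_eq, bne_iff_ne] at h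
  obtain ⟨⟨⟨⟨⟨⟨⟨⟨ha, hk⟩, hj⟩, hc⟩, -⟩, ht⟩, hjk⟩, htt⟩, hbit⟩ := h
  by_contra hcon
  push Not at hcon
  simp only [ne_eq, Bool.not_eq_false] at hcon
  have hp := pos_tgt q u ht (show j < 7 by omega) htt
  rw [pos_tgt q u ha (show k < 7 by omega) ht] at hp
  refine C.absent_of_forced hu hV (c := ⟨c, hc⟩) hk hcon (p := pos q u (Finite.tgt (Finite.tgt a k) j)) ?_ ?_
    (C.testBit_mask (hV.2 _ htt) hbit)
  · simp [hp, dist_eq_norm, norm_dir hu (show j < 7 by omega)]
  · rw [hp, add_sub_cancel_left]; exact dir_cross_ne hu hk hj hjk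

theorem valid_split (hu : ‖u‖ = 1) (hopts : C.Covers opts) {T : List ℕ} {j : ℕ} {up : Bool}
    (hV : C.Valid q u T) (h : Finite.canSplit T j up = true) :
    ∃ s ∈ opts, C.Valid q u (T.set (Finite.ring j up) s) := by
  simp only [Finite.canSplit, Bool.and_eq_true, Bool.or_eq_true, decide_eq_true_eq, bne_iff_ne,
    beq_iff_eq, Bool.not_eq_true', ge_iff_le] at h
  obtain ⟨⟨⟨⟨⟨hj1, hj6⟩, -⟩, hjn⟩, h0n⟩, hcase⟩ := h
  obtain ⟨hr, d1, d2, d3⟩ := ring_facts j hj1 hj6 up
  obtain ⟨hm0, -⟩ := hV.2 0 (by norm_num) h0n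
  obtain ⟨hmj, -⟩ := hV.2 j (by omega) hjn
  rw [hm0, hmj, card_enc, card_enc] at hcase
  have e1 : dist (pos q u 0) (pos q u j) = 1 := by rw [dist_comm]; exact dist_pos q hu d1
  have hw : 3 ≤ (C.T (pos q u (Finite.ring j up))).card := by
    by_contra hlt
    rcases hcase with ⟨⟨hy, h0⟩, hne⟩ | ⟨h5, hy⟩
    · obtain ⟨he, h4⟩ := C.rich_neighbour e1 (dist_pos q hu d2) (dist_pos q hu d3) h0 hy (by omega)
      rw [he] at h4
      simp [he, h4] at hne
    · exact hlt (C.five_neighbour e1 (dist_pos q hu d2) (dist_pos q hu d3) h5 hy)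
  obtain ⟨s, hs, hd⟩ := hopts _ hw
  refine ⟨s, hs, by simpa using hV.1, fun a ha => ?_⟩
  by_cases hae : a = Finite.ring j up
  · subst hae
    simpa [Finite.look, List.getD_eq_getElem?_getD, List.getElem?_set, hV.1, ha] using hd
  · simpa [Finite.look, List.getD_eq_getElem?_getD, List.getElem?_set, Ne.symm hae] using hV.2 a ha

theorem rules (hu : ‖u‖ = 1) (hopts : C.Covers opts) : Finite.Rules opts (C.Valid q u) where
  bad _ hV := C.valid_bad hu hV
  flip _ hV := C.valid_flip hu hV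
  slots _ hV := C.valid_slots hu hV
  forced _ _ _ _ _ hV h := C.valid_forced hu hV h
  split _ _ _ hV h := C.valid_split hu hopts hV h

end Cfg

end Vale.Agent.P032Baire
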