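import Mathlib

open Set Metric Filter Topology Real MeasureTheory
open scoped ComplexConjugate

namespace Vale.Agent.P032Baire

lemma exists_off_segments {ι : Type*} [Finite ι] (c : ι → ℂ) :
    ∃ o : ℂ, ‖o‖ < 1 ∧ ∀ k l, o ∉ segment ℝ (c k) (c l) := by
  classical
  have := Fintype.ofFinite ι
  let L : ι × ι → Set ℂ := fun kl => affineSpan ℝ ({c kl.1, c kl.2} : Set ℂ)
  have hL : ∀ kl, volume (L kl) = 0 := by
    intro kl
    refine Measure.addHaar_affineSubspace _ _ ?_
    intro htop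
    have h1 : vectorSpan ℝ ({c kl.1, c kl.2} : Set ℂ) = ⊤ := by
      rw [← direction_affineSpan, htop, AffineSubspace.direction_top]
    rw [vectorSpan_pair] at h1
    have h2 : Module.finrank ℝ (⊤ : Submodule ℝ ℂ) ≤ 1 := by
      rw [← h1]
      exact finrank_span_le_card ({c kl.1 -ᵥ c kl.2} : Set ℂ) |>.trans (by simp)
    rw [finrank_top, Complex.finrank_real_complex] at h2
    omega
  have hnull : volume (⋃ kl, L kl) = 0 := measure_iUnion_null hL
  by_contra h
  push Not at h
  have hsub : ball (0:ℂ) 1 ⊆ ⋃ kl, L kl := by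
    intro o ho
    obtain ⟨k, l, hkl⟩ := h o (mem_ball_zero_iff.1 ho)
    exact mem_iUnion.2 ⟨(k, l), (convexHull_subset_affineSpan _) (convexHull_pair (𝕜 := ℝ) (c k) (c l) ▸ hkl)⟩
  exact (measure_ball_pos volume (0:ℂ) one_pos).ne' (measure_mono_null hsub hnull)

lemma exists_log_on_disk (h : ℂ → ℂ) {R : ℝ} (hh : ContinuousOn h (closedBall 0 R))
    (h0 : ∀ z ∈ closedBall (0:ℂ) R, h z ≠ 0) :
    ∃ ℓ : ℂ → ℂ, ContinuousOn ℓ (closedBall 0 R) ∧
      ∀ z ∈ closedBall (0:ℂ) R, Complex.exp (ℓ z) = h z := by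
  rcases lt_or_ge R 0 with hR | hR
  · exact ⟨0, continuousOn_const, fun z hz => absurd (mem_closedBall.1 hz)
      (not_le.2 (lt_of_lt_of_le hR dist_nonneg))⟩
  obtain ⟨z₁, hz₁, hmin⟩ := (isCompact_closedBall (0:ℂ) R).exists_isMinOn
    (nonempty_closedBall.2 hR) hh.norm
  have hm : 0 < ‖h z₁‖ := norm_pos_iff.2 (h0 z₁ hz₁)
  obtain ⟨δ, hδ, hU⟩ := Metric.uniformContinuousOn_iff.1
    ((isCompact_closedBall (0:ℂ) R).uniformContinuousOn_of_continuous hh) _ hm
  obtain ⟨N, hN⟩ := exists_nat_gt (R / δ)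
  have hN0 : (0:ℝ) < N := lt_of_le_of_lt (div_nonneg hR hδ.le) hN
  let p : ℕ → ℂ → ℂ := fun j z => ((j:ℝ) / N) • z
  have hp : ∀ j ≤ N, ∀ z ∈ closedBall (0:ℂ) R, p j z ∈ closedBall (0:ℂ) R := by
    intro j hj z hz
    rw [mem_closedBall_zero_iff] at hz ⊢
    show ‖((j:ℝ) / N) • z‖ ≤ R
    rw [norm_smul, Real.norm_of_nonneg (by positivity)]
    have : (j:ℝ) / N ≤ 1 := by rw [div_le_one hN0]; exact_mod_cast hj
    calc (j:ℝ) / N * ‖z‖ ≤ 1 * R := mul_le_mul this hz (norm_nonneg _) zero_le_one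
      _ = R := one_mul R
  have hq : ∀ j < N, ∀ z ∈ closedBall (0:ℂ) R,
      h (p (j+1) z) / h (p j z) ∈ Complex.slitPlane := by
    intro j hj z hz
    have hd : dist (p (j+1) z) (p j z) < δ := by
      show dist ((((j+1 : ℕ):ℝ) / N) • z) (((j:ℝ) / N) • z) < δ
      rw [dist_eq_norm, ← sub_smul, norm_smul]
      rw [mem_closedBall_zero_iff] at hz
      have : ((j+1 : ℕ):ℝ) / N - (j:ℝ) / N = 1 / N := by push_cast; ring
      rw [this, Real.norm_of_nonneg (by positivity), div_mul_eq_mul_div, one_mul,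
        div_lt_iff₀ hN0]
      rw [div_lt_iff₀ hδ] at hN
      nlinarith
    have hclose := hU _ (hp (j+1) hj z hz) _ (hp j hj.le z hz) hd
    have hle : ‖h z₁‖ ≤ ‖h (p j z)‖ := hmin (hp j hj.le z hz)
    refine Complex.mem_slitPlane_of_norm_lt_one (z := h (p (j+1) z) / h (p j z) - 1) ?_ |> fun t => by
      simpa using t
    have hne := h0 _ (hp j hj.le z hz)
    rw [div_sub_one hne, norm_div, div_lt_one (norm_pos_iff.2 hne), ← dist_eq_norm]
    linarith
  refine ⟨fun z => Complex.log (h 0) + ∑ j ∈ Finset.range N,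
      Complex.log (h (p (j+1) z) / h (p j z)), ?_, ?_⟩
  · refine continuousOn_const.add (continuousOn_finsetSum _ fun j hj => ?_)
    have hj' := Finset.mem_range.1 hj
    refine ContinuousOn.clog ?_ (fun z hz => hq j hj' z hz)
    refine ContinuousOn.div ?_ ?_ (fun z hz => h0 _ (hp j hj'.le z hz))
    · exact hh.comp (Continuous.continuousOn (by fun_prop : Continuous fun z : ℂ => p (j+1) z)) (fun z hz => hp (j+1) hj' z hz)
    · exact hh.comp (Continuous.continuousOn (by fun_prop : Continuous fun z : ℂ => p j z)) (fun z hz => hp j hj'.le z hz)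
  · intro z hz
    rw [Complex.exp_add, Complex.exp_log (h0 0 (mem_closedBall_self hR)), Complex.exp_sum]
    have key : ∀ n ≤ N, h 0 * ∏ j ∈ Finset.range n,
        Complex.exp (Complex.log (h (p (j+1) z) / h (p j z))) = h (p n z) := by
      intro n hn
      induction n with
      | zero => simp [p]
      | succ n ih =>
        rw [Finset.prod_range_succ, ← mul_assoc, ih (by omega),
          Complex.exp_log (div_ne_zero (h0 _ (hp (n+1) hn z hz)) (h0 _ (hp n (by omega) z hz))),
          mul_div_cancel₀]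
        exact h0 _ (hp n (by omega) z hz)
    rw [key N le_rfl]
    simp only [p, div_self hN0.ne', one_smul]

/-- A nowhere vanishing continuous map on a disc is not close to the identity on the circle. -/
lemma disk_no_retraction (h : ℂ → ℂ) {R : ℝ} (hR : 0 < R)
    (hh : ContinuousOn h (closedBall 0 R)) (h0 : ∀ z ∈ closedBall (0:ℂ) R, h z ≠ 0)
    (hclose : ∀ z ∈ closedBall (0:ℂ) R, ‖h z - z‖ < R) : False := by
  obtain ⟨ℓ, hℓc, hℓ⟩ := exists_log_on_disk h hh h0
  let γ : ℝ → ℂ := fun θ => (R:ℂ) * Complex.exp (θ * Complex.I)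
  have hγn : ∀ θ, ‖γ θ‖ = R := fun θ => by
    simp [γ, Complex.norm_exp_ofReal_mul_I, abs_of_pos hR]
  have hγm : ∀ θ, γ θ ∈ closedBall (0:ℂ) R := fun θ => by simp [hγn]
  have hγc : Continuous γ := by fun_prop
  have hγ0 : ∀ θ, γ θ ≠ 0 := fun θ => by
    intro e; have := hγn θ; rw [e, norm_zero] at this; linarith
  have hsl : ∀ θ, h (γ θ) / γ θ ∈ Complex.slitPlane := by
    intro θ
    refine Complex.mem_slitPlane_of_norm_lt_one (z := h (γ θ) / γ θ - 1) ?_ |> fun t => by
      simpa using t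
    rw [div_sub_one (hγ0 θ), norm_div, hγn, div_lt_one hR]
    exact hclose _ (hγm θ)
  have hlogR : Complex.exp ((Real.log R : ℝ) : ℂ) = (R:ℂ) := by
    rw [← Complex.ofReal_exp, Real.exp_log hR]
  let M : ℝ → ℂ := fun θ =>
    ℓ (γ θ) - Complex.log (h (γ θ) / γ θ) - (Real.log R : ℝ) - θ * Complex.I
  have hMc : Continuous M := by
    have h1 : Continuous fun θ => ℓ (γ θ) := hℓc.comp_continuous hγc hγm
    have h2 : Continuous fun θ => h (γ θ) := hh.comp_continuous hγc hγm
    have h3 : Continuous fun θ => Complex.log (h (γ θ) / γ θ) :=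
      (h2.div hγc hγ0).clog hsl
    exact ((h1.sub h3).sub continuous_const).sub (by fun_prop)
  have hMk : ∀ θ, ∃ n : ℤ, M θ = n * (2 * π * Complex.I) := by
    intro θ
    rw [← Complex.exp_eq_one_iff]
    have hne := h0 _ (hγm θ)
    simp only [M, Complex.exp_sub, hℓ _ (hγm θ), Complex.exp_log (div_ne_zero hne (hγ0 θ)), hlogR]
    simp only [γ] at hne ⊢
    have hR' : (R:ℂ) ≠ 0 := by exact_mod_cast hR.ne'
    field_simp
  have hconst : M 0 = M (2 * π) := by
    obtain ⟨a, ha⟩ := hMk 0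
    obtain ⟨b, hb⟩ := hMk (2 * π)
    by_contra hne
    have hab : a ≠ b := fun e => hne (by rw [ha, hb, e])
    let m : ℝ := (min a b : ℤ) * (2 * π) + π
    have hlo : min (M 0).im (M (2*π)).im ≤ m ∧ m ≤ max (M 0).im (M (2*π)).im := by
      have ea : (M 0).im = a * (2*π) := by rw [ha]; simp
      have eb : (M (2*π)).im = b * (2*π) := by rw [hb]; simp
      rw [ea, eb]
      rcases lt_or_gt_of_ne hab with hlt | hlt
      · have : (a:ℝ) + 1 ≤ b := by exact_mod_cast hlt
        simp only [m, min_eq_left hlt.le]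
        exact ⟨min_le_of_left_le (by linarith [pi_pos]), le_max_of_le_right (by nlinarith [pi_pos])⟩
      · have : (b:ℝ) + 1 ≤ a := by exact_mod_cast hlt
        simp only [m, min_eq_right hlt.le]
        exact ⟨min_le_of_right_le (by linarith [pi_pos]), le_max_of_le_left (by nlinarith [pi_pos])⟩
    obtain ⟨θ, -, hθ⟩ := intermediate_value_uIcc
      ((Complex.continuous_im.comp hMc).continuousOn (s := uIcc 0 (2*π)))
      (show m ∈ uIcc (M 0).im (M (2*π)).im from hlo)
    obtain ⟨n, hn⟩ := hMk θ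
    have e : (n:ℝ) * (2*π) = (min a b : ℤ) * (2*π) + π := by
      have : (M θ).im = (n:ℝ) * (2*π) := by rw [hn]; simp
      rw [← this]; exact hθ
    have : (2 * n : ℤ) = 2 * min a b + 1 := by
      have e2 : (π:ℝ) * (2 * n) = π * (2 * (min a b : ℤ) + 1) := by linarith
      exact_mod_cast mul_left_cancel₀ pi_ne_zero e2
    omega
  have hper : γ (2 * π) = γ 0 := by simp [γ, Complex.exp_two_pi_mul_I]
  simp only [M, hper] at hconst
  simp at hconst
  have e : (2 * π * Complex.I : ℂ) = 0 := by linear_combination hconst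
  simp [pi_ne_zero] at e

/-- No closed cover of a large disc by sets of bounded diameter has all triple intersections empty. -/
lemma no_order_two_cover {ι : Type*} [Finite ι] (P : ι → Set ℂ) (hP : ∀ k, IsCompact (P k))
    {D R : ℝ} (hD : ∀ k, ∀ x ∈ P k, ∀ y ∈ P k, dist x y ≤ D) (hD0 : 0 ≤ D) (hR : D + 4 ≤ R)
    (hcov : closedBall (0:ℂ) R ⊆ ⋃ k, P k)
    (hord : ∀ j k l, j ≠ k → k ≠ l → j ≠ l → ∀ x, ¬ (x ∈ P j ∧ x ∈ P k ∧ x ∈ P l)) : False := by
  classical
  have := Fintype.ofFinite ι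
  let ι' := {k : ι // (P k).Nonempty}
  let ctr : ι' → ℂ := fun k => k.2.some
  obtain ⟨o, ho, hoff⟩ := exists_off_segments ctr
  -- a radius at which only two of the pieces are near any point of the disc
  have hloc : ∃ r : ℝ, 0 < r ∧ r ≤ 1 ∧ ∀ z ∈ closedBall (0:ℂ) R, ∀ j k l : ι', j ≠ k → k ≠ l → j ≠ l →
      ¬ (infDist z (P j) < r ∧ infDist z (P k) < r ∧ infDist z (P l) < r) := by
    let T := {t : ι' × ι' × ι' // t.1 ≠ t.2.1 ∧ t.2.1 ≠ t.2.2 ∧ t.1 ≠ t.2.2}
    have each : ∀ t : T, ∃ r : ℝ, 0 < r ∧ ∀ z ∈ closedBall (0:ℂ) R,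
        r ≤ max (infDist z (P t.1.1)) (max (infDist z (P t.1.2.1)) (infDist z (P t.1.2.2))) := by
      intro t
      rcases (closedBall (0:ℂ) R).eq_empty_or_nonempty with he | hne
      · exact ⟨1, one_pos, by simp [he]⟩
      obtain ⟨z₀, hz₀, hmin⟩ := (isCompact_closedBall (0:ℂ) R).exists_isMinOn hne
        (Continuous.continuousOn (f := fun z => max (infDist z (P t.1.1))
          (max (infDist z (P t.1.2.1)) (infDist z (P t.1.2.2)))) (by fun_prop))
      refine ⟨_, ?_, fun z hz => hmin hz⟩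
      by_contra hle
      push Not at hle
      simp only [max_le_iff] at hle
      obtain ⟨a, b, c⟩ := hle
      have mem : ∀ k : ι', infDist z₀ (P k) ≤ 0 → z₀ ∈ P k := fun k hk =>
        ((hP k).isClosed.mem_iff_infDist_zero k.2).2 (le_antisymm hk infDist_nonneg)
      exact hord _ _ _ (fun e => t.2.1 (Subtype.ext e)) (fun e => t.2.2.1 (Subtype.ext e))
        (fun e => t.2.2.2 (Subtype.ext e)) z₀ ⟨mem _ a, mem _ b, mem _ c⟩
    choose r hr hrle using each
    obtain ⟨r0, hr0, hr0'⟩ : ∃ r0 : ℝ, 0 < r0 ∧ ∀ t, r0 ≤ r t := by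
      rcases isEmpty_or_nonempty T with h | h
      · exact ⟨1, one_pos, fun t => isEmptyElim t⟩
      · obtain ⟨t0, ht0⟩ := Finite.exists_min r
        exact ⟨r t0, hr t0, ht0⟩
    refine ⟨min r0 1, lt_min hr0 one_pos, min_le_right _ _, ?_⟩
    rintro z hz j k l hjk hkl hjl ⟨a, b, c⟩
    have := (hr0' ⟨(j, k, l), hjk, hkl, hjl⟩).trans (hrle _ z hz)
    exact absurd ((min_le_left r0 1).trans this) (not_le.2 (max_lt a (max_lt b c)))
  obtain ⟨r, hr, hr1, htwo⟩ := hloc
  let φ : ι' → ℂ → ℝ := fun k z => max 0 (r - infDist z (P k))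
  have φ0 : ∀ k z, 0 ≤ φ k z := fun k z => le_max_left _ _
  have φc : ∀ k, Continuous (φ k) := fun k => by fun_prop
  have φpos : ∀ k z, φ k z ≠ 0 → infDist z (P k) < r := by
    intro k z h; by_contra hc; exact h (max_eq_left (by linarith [not_lt.1 hc]))
  let S : ℂ → ℝ := fun z => ∑ k, φ k z
  have Spos : ∀ z ∈ closedBall (0:ℂ) R, 0 < S z := by
    intro z hz
    obtain ⟨k, hk⟩ := mem_iUnion.1 (hcov hz)
    refine lt_of_lt_of_le ?_ (Finset.single_le_sum (fun k _ => φ0 k z) (Finset.mem_univ (⟨k, z, hk⟩ : ι')))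
    simp [φ, infDist_zero_of_mem hk, hr]
  let f : ℂ → ℂ := fun z => ∑ k, (φ k z / S z) • ctr k
  have hone : ∀ z ∈ closedBall (0:ℂ) R, ∑ k, φ k z / S z = 1 := fun z hz => by
    rw [← Finset.sum_div]; exact div_self (Spos z hz).ne'
  refine disk_no_retraction (fun z => f z - o) (R := R) (by linarith) ?_ ?_ ?_
  · refine ContinuousOn.sub (continuousOn_finsetSum _ fun k _ => ?_) continuousOn_const
    refine ContinuousOn.smul ((φc k).continuousOn.div ?_ fun z hz => (Spos z hz).ne') continuousOn_const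
    exact (continuous_finsetSum _ fun k _ => φc k).continuousOn
  · intro z hz e
    rw [sub_eq_zero] at e
    let A := Finset.univ.filter fun k => φ k z ≠ 0
    have hA : ∃ k l : ι', A ⊆ {k, l} := by
      by_contra hA
      push Not at hA
      obtain ⟨k0, hk0⟩ : A.Nonempty := by
        by_contra hemp
        rw [Finset.not_nonempty_iff_eq_empty, Finset.filter_eq_empty_iff] at hemp
        exact (Spos z hz).ne' (Finset.sum_eq_zero fun k _ => by simpa using hemp (Finset.mem_univ k))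
      obtain ⟨k1, hk1, hn1⟩ := Finset.not_subset.1 (hA k0 k0)
      obtain ⟨k2, hk2, hn2⟩ := Finset.not_subset.1 (hA k0 k1)
      simp only [Finset.mem_insert, Finset.mem_singleton, or_self, not_or] at hn1 hn2
      simp only [A, Finset.mem_filter] at hk0 hk1 hk2
      exact htwo z hz k0 k1 k2 (Ne.symm hn1) (Ne.symm hn2.2) (Ne.symm hn2.1)
        ⟨φpos _ _ hk0.2, φpos _ _ hk1.2, φpos _ _ hk2.2⟩
    obtain ⟨k, l, hkl⟩ := hA
    apply hoff k l
    rw [← convexHull_pair, ← e]
    refine mem_convexHull_of_exists_fintype (w := fun i => φ i z / S z) (z := fun i => if i ∈ A then ctr i else ctr k)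
      (fun i => div_nonneg (φ0 i z) (Spos z hz).le) (hone z hz) ?_ ?_
    · intro i
      by_cases hi : i ∈ A
      · have := hkl hi
        simp only [Finset.mem_insert, Finset.mem_singleton] at this
        simp only [hi, if_true]
        rcases this with rfl | rfl <;> simp
      · simp [hi]
    · refine Finset.sum_congr rfl fun i _ => ?_
      by_cases hi : i ∈ A
      · simp [hi]
      · have : φ i z = 0 := by simpa [A] using hi
        simp [this]
  · intro z hz
    have : f z - z = ∑ k, (φ k z / S z) • (ctr k - z) := by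
      simp only [smul_sub, Finset.sum_sub_distrib, ← Finset.sum_smul, hone z hz, one_smul]; rfl
    have hb : ‖f z - z‖ ≤ D + 1 := by
      rw [this]
      calc ‖∑ k, (φ k z / S z) • (ctr k - z)‖ ≤ ∑ k, (φ k z / S z) * (D + 1) := by
            refine (norm_sum_le _ _).trans (Finset.sum_le_sum fun k _ => ?_)
            rw [norm_smul, Real.norm_of_nonneg (div_nonneg (φ0 k z) (Spos z hz).le)]
            rcases eq_or_ne (φ k z) 0 with h | h
            · simp [h]
            refine mul_le_mul_of_nonneg_left ?_ (div_nonneg (φ0 k z) (Spos z hz).le)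
            obtain ⟨y, hy, hd⟩ := (infDist_lt_iff k.2).1 (φpos k z h)
            rw [← dist_eq_norm]
            calc dist (ctr k) z ≤ dist (ctr k) y + dist y z := dist_triangle _ _ _
              _ ≤ D + 1 := add_le_add (hD k _ k.2.some_mem _ hy) (by rw [dist_comm]; linarith)
        _ = D + 1 := by rw [← Finset.sum_mul, hone z hz, one_mul]
    calc ‖f z - o - z‖ = ‖(f z - z) - o‖ := by ring_nf
      _ ≤ ‖f z - z‖ + ‖o‖ := norm_sub_le _ _
      _ < R := by linarith

end Vale.Agent.P032Baire
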