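import Mathlib

open Set Metric Filter Topology

namespace Vale.Agent.P032Baire

/-- A compact set whose connected subsets have diameter at most `r` splits into finitely many
disjoint compact pieces of diameter at most `r + 1`. -/
lemma exists_pieces (K : Set ℂ) (hK : IsCompact K) (r : ℝ)
    (hr : ∀ C ⊆ K, IsPreconnected C → ∀ x ∈ C, ∀ y ∈ C, dist x y ≤ r) :
    ∃ (n : ℕ) (P : Fin n → Set ℂ), (∀ k, IsCompact (P k)) ∧ K = ⋃ k, P k ∧
      (∀ k l, k ≠ l → Disjoint (P k) (P l)) ∧
      (∀ k, ∀ x ∈ P k, ∀ y ∈ P k, dist x y ≤ r + 1) := by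
  have : CompactSpace K := isCompact_iff_compactSpace.1 hK
  have step : ∀ x : K, ∃ S : Set K, IsClopen S ∧ x ∈ S ∧
      ∀ y ∈ S, ∀ z ∈ S, dist (y : ℂ) z ≤ r + 1 := by
    intro x
    have hsmall : ∀ y ∈ connectedComponent x, ∀ z ∈ connectedComponent x,
        dist (y : ℂ) z ≤ r := by
      intro y hy z hz
      refine hr (Subtype.val '' connectedComponent x) ?_
        (isPreconnected_connectedComponent.image _ continuous_subtype_val.continuousOn)
        _ ⟨y, hy, rfl⟩ _ ⟨z, hz, rfl⟩
      rintro _ ⟨w, -, rfl⟩; exact w.2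
    have hN : thickening (1/2) (connectedComponent x) ∈ 𝓝ˢ (connectedComponent x) := by
      exact isOpen_thickening.mem_nhdsSet.2 (self_subset_thickening (by norm_num) _)
    have hcap : ∃ s : { s : Set K // IsClopen s ∧ x ∈ s },
        (s : Set K) ⊆ thickening (1/2) (connectedComponent x) := by
      have : Nonempty { s : Set K // IsClopen s ∧ x ∈ s } :=
        ⟨⟨univ, isClopen_univ, mem_univ x⟩⟩
      refine exists_subset_nhds_of_compactSpace (V := fun s : { s : Set K // IsClopen s ∧ x ∈ s } => (s : Set K))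
        ?_ (fun s => s.2.1.1) ?_
      · intro s t
        exact ⟨⟨s ∩ t, s.2.1.inter t.2.1, s.2.2, t.2.2⟩, inter_subset_left, inter_subset_right⟩
      · intro y hy
        refine isOpen_thickening.mem_nhds (self_subset_thickening (by norm_num) _ ?_)
        rwa [connectedComponent_eq_iInter_isClopen]
    obtain ⟨⟨S, hS, hxS⟩, hsub⟩ := hcap
    refine ⟨S, hS, hxS, fun y hy z hz => ?_⟩
    obtain ⟨y', hy', dy⟩ := mem_thickening_iff.1 (hsub hy)
    obtain ⟨z', hz', dz⟩ := mem_thickening_iff.1 (hsub hz)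
    have := hsmall y' hy' z' hz'
    simp only [Subtype.dist_eq] at dy dz
    calc dist (y : ℂ) z ≤ dist (y : ℂ) y' + dist (y' : ℂ) z' + dist (z' : ℂ) z :=
          dist_triangle4 _ _ _ _
      _ ≤ r + 1 := by rw [dist_comm (z' : ℂ) z]; linarith
  choose S hS hxS hdiam using step
  obtain ⟨t, ht⟩ := isCompact_univ.elim_finite_subcover S (fun x => (hS x).2)
    (fun x _ => mem_iUnion.2 ⟨x, hxS x⟩)
  classical
  let e := t.equivFin
  let T : Fin t.card → Set K := disjointed (fun k => S (e.symm k))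
  have hTc : ∀ k, IsClosed (T k) := by
    intro k
    have : T k = S (e.symm k) ∩ ⋂ j, ⋂ (_ : j < k), (S (e.symm j))ᶜ := by
      show disjointed (fun k => S (e.symm k)) k = _
      rw [disjointed_eq_inter_compl]
    rw [this]
    exact (hS _).1.inter (isClosed_biInter fun j _ => (hS _).2.isClosed_compl)
  refine ⟨t.card, fun k => Subtype.val '' T k, fun k => ((hTc k).isCompact).image
    continuous_subtype_val, ?_, ?_, ?_⟩
  · ext z
    constructor
    · intro hz
      obtain ⟨x, hx⟩ := mem_iUnion₂.1 (ht (mem_univ (⟨z, hz⟩ : K)))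
      obtain ⟨hxt, hzx⟩ := hx
      have : (⟨z, hz⟩ : K) ∈ ⋃ k, T k := by
        show _ ∈ ⋃ k, disjointed (fun k => S (e.symm k)) k
        rw [iUnion_disjointed]
        exact mem_iUnion.2 ⟨e ⟨x, hxt⟩, by simpa using hzx⟩
      obtain ⟨k, hk⟩ := mem_iUnion.1 this
      exact mem_iUnion.2 ⟨k, ⟨_, hk, rfl⟩⟩
    · intro hz
      obtain ⟨k, w, -, rfl⟩ := mem_iUnion.1 hz
      exact w.2
  · intro k l hkl
    exact (disjoint_image_iff Subtype.val_injective).2
      (disjoint_disjointed (fun k => S (e.symm k)) hkl)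
  · rintro k _ ⟨y, hy, rfl⟩ _ ⟨z, hz, rfl⟩
    exact hdiam _ y (disjointed_subset _ k hy) z (disjointed_subset _ k hz)

end Vale.Agent.P032Baire
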