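import Vale.Agent.P032Baire.Plane
import Vale.Agent.P032Baire.Pieces
import Vale.Agent.P032Baire.Degree

open Set Metric Filter Topology

namespace Vale.Agent.P032Baire

/-- Five disjoint open sets with dense union, none containing two points at distance one, such that
no point lies in four of the closures. -/
structure Config where
  U : Fin 5 → Set ℂ
  isOpen : ∀ i, IsOpen (U i)
  disj : ∀ i j, i ≠ j → Disjoint (U i) (U j)
  dense : Dense (⋃ i, U i)
  avoid : ∀ i, ∀ x ∈ U i, ∀ y ∈ U i, dist x y ≠ 1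
  three : ∀ x : ℂ, ∀ s : Finset (Fin 5), (∀ i ∈ s, x ∈ closure (U i)) → s.card ≤ 3

namespace Config

variable (C : Config)

def F (i : Fin 5) : Set ℂ := closure (C.U i)

open Classical in
noncomputable def T (x : ℂ) : Finset (Fin 5) := Finset.univ.filter fun i => x ∈ C.F i

lemma mem_T {x : ℂ} {i : Fin 5} : i ∈ C.T x ↔ x ∈ C.F i := by simp [T]

lemma card_T (x : ℂ) : (C.T x).card ≤ 3 := C.three x _ fun _ hi => C.mem_T.1 hi

lemma isClosed_F (i : Fin 5) : IsClosed (C.F i) := isClosed_closure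

lemma cover (x : ℂ) : ∃ i, x ∈ C.F i := by
  have h := C.dense x
  rw [closure_iUnion_of_finite] at h
  exact mem_iUnion.1 h

lemma T_nonempty (x : ℂ) : (C.T x).Nonempty := by
  obtain ⟨i, hi⟩ := C.cover x
  exact ⟨i, C.mem_T.2 hi⟩

lemma eventually_T_subset (x : ℂ) : ∀ᶠ y in 𝓝 x, C.T y ⊆ C.T x := by
  have : ∀ i, ∀ᶠ y in 𝓝 x, i ∈ C.T y → i ∈ C.T x := by
    intro i
    by_cases hi : i ∈ C.T x
    · exact Eventually.of_forall fun _ _ => hi
    · filter_upwards [(C.isClosed_F i).isOpen_compl.mem_nhds (fun h => hi (C.mem_T.2 h))] with y hy h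
      exact absurd (C.mem_T.1 h) hy
  filter_upwards [eventually_all.2 this] with y hy i hi using hy i hi

lemma exists_T_ball (x : ℂ) : ∃ ε > 0, ∀ y, dist y x < ε → C.T y ⊆ C.T x :=
  Metric.eventually_nhds_iff.1 (C.eventually_T_subset x)

lemma no_open_in_two {a b : Fin 5} (hab : a ≠ b) {W : Set ℂ} (hW : IsOpen W)
    (h : W ⊆ C.F a ∩ C.F b) : W = ∅ := by
  by_contra hne
  obtain ⟨x, hx⟩ := nonempty_iff_ne_empty.2 hne
  obtain ⟨y, hy, hya⟩ := mem_closure_iff.1 (h hx).1 W hW hx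
  obtain ⟨z, hz, hzb⟩ := mem_closure_iff.1 (h hy).2 (C.U a) (C.isOpen a) hya
  exact disjoint_left.1 (C.disj a b hab) hz hzb

lemma interior_of_single {x : ℂ} {a : Fin 5} (h : C.T x ⊆ {a}) : x ∈ interior (C.F a) := by
  rw [mem_interior_iff_mem_nhds]
  filter_upwards [C.eventually_T_subset x] with y hy
  obtain ⟨i, hi⟩ := C.cover y
  have : i = a := Finset.mem_singleton.1 (h (hy (C.mem_T.2 hi)))
  exact this ▸ hi

lemma dist_ne_one {a : Fin 5} {x y : ℂ} (hx : x ∈ interior (C.F a)) (hy : y ∈ C.F a) :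
    dist x y ≠ 1 := by
  intro h
  obtain ⟨δ, hδ, hsub⟩ := Metric.isOpen_iff.1 isOpen_interior x hx
  obtain ⟨y', hy', hd⟩ := Metric.mem_closure_iff.1 hy δ hδ
  have hx' : x + (y' - y) ∈ C.F a := interior_subset (hsub (by
    rw [mem_ball, dist_eq_norm]; simpa [← dist_eq_norm, dist_comm] using hd))
  obtain ⟨ρ, hρ, hball⟩ := Metric.isOpen_iff.1 (C.isOpen a) y' hy'
  obtain ⟨x'', hx'', hd'⟩ := Metric.mem_closure_iff.1 hx' ρ hρ
  have hy'' : y' + (x'' - (x + (y' - y))) ∈ C.U a := hball (by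
    rw [mem_ball, dist_eq_norm]; simpa [← dist_eq_norm, dist_comm] using hd')
  apply C.avoid a x'' hx'' _ hy''
  rw [dist_eq_norm] at h ⊢
  rw [← h]; congr 1; ring

lemma crossing {a : Fin 5} {K : Set ℂ} (hK : IsPreconnected K) (hKF : K ⊆ C.F a) {p q r : ℂ}
    (hq : q ∈ K) (hr : r ∈ K) (h1 : dist p q < 1) (h2 : 1 < dist p r) : p ∉ C.F a := by
  intro hp
  have e1 : ∀ᶠ y in 𝓝 p, dist y q < 1 := (by fun_prop : Continuous fun y => dist y q).continuousAt.eventually_lt continuousAt_const h1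
  have e2 : ∀ᶠ y in 𝓝 p, 1 < dist y r := continuousAt_const.eventually_lt (by fun_prop : Continuous fun y => dist y r).continuousAt h2
  obtain ⟨y, ⟨hy1, hy2⟩, hya⟩ := mem_closure_iff_nhds.1 hp _ (e1.and e2)
  obtain ⟨z, hz, hz1⟩ := hK.intermediate_value hq hr
    (by fun_prop : Continuous fun z => dist y z).continuousOn ⟨hy1.le, hy2.le⟩
  exact C.dist_ne_one (interior_maximal subset_closure (C.isOpen a) hya) (hKF hz) hz1

lemma crossing_prod {a : Fin 5} {K : Set ℂ} (hK : IsPreconnected K) (hKF : K ⊆ C.F a) {p q r : ℂ}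
    (hq : q ∈ K) (hr : r ∈ K) (h : (dist p q - 1) * (dist p r - 1) < 0) : p ∉ C.F a := by
  rcases mul_neg_iff.1 h with ⟨h1, h2⟩ | ⟨h1, h2⟩
  · exact C.crossing hK hKF hr hq (by linarith) (by linarith)
  · exact C.crossing hK hKF hq hr (by linarith) (by linarith)

lemma diam_le {a : Fin 5} {K : Set ℂ} (hK : IsPreconnected K) (hKF : K ⊆ C.F a) :
    ∀ x ∈ K, ∀ y ∈ K, dist x y ≤ 1 := by
  intro x hx y hy
  by_contra h
  push Not at h
  exact C.crossing hK hKF hx hy (by simp) h (hKF hx)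

/-- A pair of colours at `p` fills a neighbourhood of a point of the unit circle about `p`. -/
def Bad (p : ℂ) (a b : Fin 5) : Prop :=
  a ≠ b ∧ a ∈ C.T p ∧ b ∈ C.T p ∧
    ∃ (w : ℂ) (ε : ℝ), 0 < ε ∧ dist p w = 1 ∧ ∀ z, dist z w < ε → C.T z ⊆ {a, b}

lemma bad_of_pair {p z : ℂ} {a b : Fin 5} (hab : a ≠ b) (ha : a ∈ C.T p) (hb : b ∈ C.T p)
    (hz : dist p z = 1) (hT : C.T z ⊆ {a, b}) : C.Bad p a b := by
  obtain ⟨ε, hε, h⟩ := C.exists_T_ball z
  exact ⟨hab, ha, hb, z, ε, hε, hz, fun y hy => (h y hy).trans hT⟩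

lemma bad_symm {p : ℂ} {a b : Fin 5} (h : C.Bad p a b) : C.Bad p b a := by
  obtain ⟨hab, ha, hb, w, ε, hε, hw, hT⟩ := h
  exact ⟨hab.symm, hb, ha, w, ε, hε, hw, fun z hz => by rw [Finset.pair_comm]; exact hT z hz⟩

lemma pair_arc {w z q : ℂ} {ε : ℝ} {a b : Fin 5} (hT : ∀ z, dist z w < ε → C.T z ⊆ {a, b})
    (hqa : q ∈ C.F a) (hqb : q ∈ C.F b) (hz : dist z w < ε) (hd : dist q z = 1) :
    z ∈ C.F a ∧ z ∈ C.F b := by
  constructor
  · by_contra h
    have hs : C.T z ⊆ {b} := by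
      intro i hi
      have hi' := hT z hz hi
      simp only [Finset.mem_insert, Finset.mem_singleton] at hi' ⊢
      rcases hi' with rfl | rfl
      · exact absurd (C.mem_T.1 hi) h
      · rfl
    exact C.dist_ne_one (C.interior_of_single hs) hqb (by rw [dist_comm]; exact hd)
  · by_contra h
    have hs : C.T z ⊆ {a} := by
      intro i hi
      have hi' := hT z hz hi
      simp only [Finset.mem_insert, Finset.mem_singleton] at hi' ⊢
      rcases hi' with rfl | rfl
      · rfl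
      · exact absurd (C.mem_T.1 hi) h
    exact C.dist_ne_one (C.interior_of_single hs) hqa (by rw [dist_comm]; exact hd)

lemma bad_totally_disconnected {p : ℂ} {a b : Fin 5} (h : C.Bad p a b) :
    ∃ δ > 0, IsTotallyDisconnected (C.F a ∩ C.F b ∩ closedBall p δ) := by
  obtain ⟨hab, -, -, w, ε, hε, hw, hT⟩ := h
  refine ⟨min (ε/4) (1/4), lt_min (by linarith) (by norm_num), fun K hKsub hK x hx y hy => ?_⟩
  by_contra hne
  have hmem : ∀ q ∈ K, q ∈ C.F a ∧ q ∈ C.F b := fun q hq => (hKsub hq).1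
  have hxp : dist x p ≤ min (ε/4) (1/4) := (hKsub hx).2
  have hxw1 : |dist x w - 1| ≤ ε/4 := by
    rw [← hw]; exact (abs_dist_sub_le x p w).trans (hxp.trans (min_le_left _ _))
  have hxw0 : 0 < dist x w := by
    have h1 : dist p w ≤ dist p x + dist x w := dist_triangle p x w
    rw [hw, dist_comm p x] at h1
    linarith [hxp.trans (min_le_right _ _)]
  set e : ℂ := ((dist x w)⁻¹ : ℝ) • (w - x) with he_def
  have he : ‖e‖ = 1 := by
    rw [he_def, norm_smul, Real.norm_of_nonneg (by positivity), ← dist_eq_norm, dist_comm w x]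
    exact inv_mul_cancel₀ hxw0.ne'
  have hz0 : dist (arc x e 0) w < ε/2 := by
    have : arc x e 0 - w = ((dist x w)⁻¹ - 1) • (w - x) := by
      rw [arc_zero, sub_smul, one_smul, he_def]; ring
    rw [dist_eq_norm, this, norm_smul, ← dist_eq_norm w x, dist_comm w x, Real.norm_eq_abs]
    have : |(dist x w)⁻¹ - 1| * dist x w = |dist x w - 1| := by
      rw [← abs_of_pos hxw0, ← abs_mul, abs_of_pos hxw0, sub_mul, inv_mul_cancel₀ hxw0.ne', one_mul,
        abs_sub_comm]
    rw [this]; linarith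
  have hev : ∀ᶠ t in 𝓝 (0:ℝ), dist (arc x e t) w < ε/2 :=
    ((continuous_arc x e).dist continuous_const).continuousAt.eventually_lt continuousAt_const hz0
  obtain ⟨η, hη, hηw⟩ := Metric.eventually_nhds_iff.1 hev
  obtain ⟨t, ht, hty⟩ : ∃ t, dist (arc x e t) w < ε/2 ∧ dist y (arc x e t) ≠ 1 := by
    by_cases h0 : dist y (arc x e 0) = 1
    · by_cases h1 : dist y (arc x e (η/2)) = 1
      · refine ⟨-(η/2), hηw (by simp [abs_of_pos hη]; linarith), fun h2 => ?_⟩
        exact not_three_on_two_circles x y e he hne (by linarith : η/2 ≠ 0) h0 h1 h2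
      · exact ⟨η/2, hηw (by simp [abs_of_pos hη]; linarith), h1⟩
    · exact ⟨0, hz0, h0⟩
  -- move radially to separate the two points
  set v := e * turn t with hv
  have hvn : ‖v‖ = 1 := by simp [hv, he, norm_turn]
  set σ : ℝ := if 1 < dist y (arc x e t) then -1 else 1 with hσ
  obtain ⟨s, hs0, hsε, hs1, hsy⟩ : ∃ s : ℝ, 0 < s ∧ s < ε/2 ∧ s < 1 ∧ s < |dist y (arc x e t) - 1| := by
    have : 0 < min (min (ε/2) 1) |dist y (arc x e t) - 1| :=
      lt_min (lt_min (by linarith) one_pos) (abs_pos.2 (sub_ne_zero.2 hty))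
    refine ⟨_ / 2, half_pos this, ?_, ?_, ?_⟩ <;>
      linarith [min_le_left (min (ε/2) 1) |dist y (arc x e t) - 1|,
        min_le_right (min (ε/2) 1) |dist y (arc x e t) - 1|, min_le_left (ε/2) 1, min_le_right (ε/2) 1]
  set z := arc x e t + (σ * s) • v with hz
  have hσ1 : |σ| = 1 := by rw [hσ]; split_ifs <;> simp
  have hzd : dist z (arc x e t) = s := by
    simp [hz, dist_eq_norm, hvn, hσ1, abs_of_pos hs0]
  have hzx : dist x z = 1 + σ * s := by
    have : z - x = (1 + σ * s) • v := by simp [hz, arc, hv, add_smul]; ring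
    rw [dist_comm, dist_eq_norm, this, norm_smul, hvn, mul_one, Real.norm_of_nonneg]
    nlinarith [abs_le.1 hσ1.le]
  have hzy : |dist y z - dist y (arc x e t)| ≤ s := by
    rw [dist_comm y z, dist_comm y (arc x e t), ← hzd]; exact abs_dist_sub_le _ _ _
  have hstr : (dist x z - 1) * (dist y z - 1) < 0 := by
    rw [hzx, hσ]
    obtain ⟨l, u⟩ := abs_le.1 hzy
    split_ifs with hc
    · rw [abs_of_pos (by linarith)] at hsy
      nlinarith
    · have : dist y (arc x e t) < 1 := lt_of_le_of_ne (not_lt.1 hc) hty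
      rw [abs_of_neg (by linarith)] at hsy
      nlinarith
  let W : Set ℂ := {z' | (dist x z' - 1) * (dist y z' - 1) < 0} ∩ ball w ε
  have hWo : IsOpen W := (isOpen_lt (by fun_prop) continuous_const).inter isOpen_ball
  have hWsub : W ⊆ C.F a ∩ C.F b := by
    rintro z' ⟨hz', hb⟩
    have key : ∀ q r, q ∈ K → r ∈ K → dist q z' < 1 → 1 < dist r z' →
        z' ∈ C.F a ∩ C.F b := by
      intro q r hq hr h1 h2
      obtain ⟨m, hm, hm1⟩ := hK.intermediate_value hq hr
        (by fun_prop : Continuous fun m => dist m z').continuousOn ⟨h1.le, h2.le⟩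
      exact C.pair_arc hT (hmem m hm).1 (hmem m hm).2 hb hm1
    have hz'' : (dist x z' - 1) * (dist y z' - 1) < 0 := hz'
    rcases mul_neg_iff.1 hz'' with ⟨h1, h2⟩ | ⟨h1, h2⟩
    · exact key y x hy hx (by linarith) (by linarith)
    · exact key x y hx hy (by linarith) (by linarith)
  have hzW : z ∈ W := ⟨hstr, by
    rw [mem_ball]; exact (dist_triangle z (arc x e t) w).trans_lt (by linarith)⟩
  rw [C.no_open_in_two hab hWo hWsub] at hzW
  exact hzW

/-- With a filled pair, the third colour at `q` is missing at every point at distance one. -/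
lemma bad_third {q : ℂ} {a b : Fin 5} (h : C.Bad q a b) {p : ℂ} (hpq : dist p q = 1) :
    ∃ c, c ∈ C.T q ∧ c ≠ a ∧ c ≠ b ∧ p ∉ C.F c := by
  obtain ⟨hab, ha, hb, w, ε, hε, hw, hT⟩ := h
  set e := w - q with he_def
  have he : ‖e‖ = 1 := by rw [he_def, ← dist_eq_norm, dist_comm]; exact hw
  have hev : ∀ᶠ t in 𝓝 (0:ℝ), dist (arc q e t) w < ε := by
    refine ((continuous_arc q e).dist continuous_const).continuousAt.eventually_lt continuousAt_const ?_
    simp [arc_zero, he_def, hε]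
  obtain ⟨η, hη, hηw⟩ := Metric.eventually_nhds_iff.1 hev
  set τ := η/2 with hτ
  have hτ0 : 0 < τ := half_pos hη
  set K := arc q e '' Icc (-τ) τ
  have hK : IsPreconnected K := isPreconnected_Icc.image _ (continuous_arc q e).continuousOn
  have hKF : K ⊆ C.F a ∩ C.F b := by
    rintro _ ⟨t, ht, rfl⟩
    exact C.pair_arc hT (C.mem_T.1 ha) (C.mem_T.1 hb)
      (hηw (by rw [dist_zero_right, Real.norm_eq_abs]; exact (abs_le.2 ht).trans_lt (by linarith))) (dist_arc he t)
  obtain ⟨d, hd1, hd2, hd3⟩ : ∃ d : ℂ, dot (q - arc q e τ) d < 0 ∧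
      0 < dot (q - arc q e (-τ)) d ∧ dot (q - p) d ≠ 0 := by
    obtain ⟨t1, t2⟩ := arc_tangent q e he hτ0
    by_cases h0 : dot (q - p) (e * Complex.I) = 0
    · have cont : ∀ u : ℂ, Continuous fun η : ℝ => dot u (e * Complex.I + η • (q - p)) := by
        intro u; unfold dot; fun_prop
      have e1 : ∀ᶠ η in 𝓝 (0:ℝ), dot (q - arc q e τ) (e * Complex.I + η • (q - p)) < 0 :=
        (cont _).continuousAt.eventually_lt continuousAt_const (by simpa using t1)
      have e2 : ∀ᶠ η in 𝓝 (0:ℝ), 0 < dot (q - arc q e (-τ)) (e * Complex.I + η • (q - p)) :=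
        continuousAt_const.eventually_lt (cont _).continuousAt (by simpa using t2)
      obtain ⟨r, hr, hr'⟩ := Metric.eventually_nhds_iff.1 (e1.and e2)
      have hh := hr' (y := r/2) (by simp [abs_of_pos hr]; linarith)
      refine ⟨_, hh.1, hh.2, ?_⟩
      have hqp : (q-p).re^2 + (q-p).im^2 = 1 := by
        have := dist_sq p q; rw [hpq] at this; simp at this ⊢; linarith
      have : dot (q - p) (e * Complex.I + (r/2) • (q - p)) = r/2 := by
        unfold dot at h0 ⊢
        simp only [Complex.add_re, Complex.add_im, Complex.smul_re, Complex.smul_im, smul_eq_mul]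
        linear_combination h0 + (r/2) * hqp
      rw [this]; exact (half_pos hr).ne'
    · exact ⟨_, t1, t2, h0⟩
  obtain ⟨σ₁, hσ₁, hstr⟩ := straddle_line q (arc q e τ) (arc q e (-τ)) d (dist_arc he _) (dist_arc he _) hd1 hd2
  obtain ⟨ρ, hρ, hTρ⟩ := C.exists_T_ball q
  obtain ⟨σ, hσ, hσle, hσρ⟩ : ∃ σ, 0 < σ ∧ σ ≤ σ₁ ∧ σ * ‖d‖ < ρ := by
    refine ⟨min σ₁ (ρ / (‖d‖ + 1)), lt_min hσ₁ (by positivity), min_le_left _ _, ?_⟩
    calc min σ₁ (ρ / (‖d‖ + 1)) * ‖d‖ ≤ ρ / (‖d‖ + 1) * ‖d‖ :=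
          mul_le_mul_of_nonneg_right (min_le_right _ _) (norm_nonneg _)
      _ < ρ := by rw [div_mul_eq_mul_div, div_lt_iff₀ (by positivity)]; nlinarith [norm_nonneg d]
  have honly : ∀ s : ℝ, s ≠ 0 → |s| ≤ σ → ∀ i ∈ C.T (q + s • d), i ∈ C.T q ∧ i ≠ a ∧ i ≠ b := by
    intro s hs hsσ i hi
    have hnear : dist (q + s • d) q < ρ := by
      rw [dist_eq_norm, add_sub_cancel_left, norm_smul, Real.norm_eq_abs]
      exact (mul_le_mul_of_nonneg_right hsσ (norm_nonneg _)).trans_lt hσρ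
    have hst := hstr s hs (hsσ.trans hσle)
    refine ⟨hTρ _ hnear hi, ?_, ?_⟩ <;> rintro rfl
    · exact C.crossing_prod hK (fun z hz => (hKF hz).1) ⟨τ, ⟨by linarith, le_rfl⟩, rfl⟩
        ⟨-τ, ⟨le_rfl, by linarith⟩, rfl⟩ hst (C.mem_T.1 hi)
    · exact C.crossing_prod hK (fun z hz => (hKF hz).2) ⟨τ, ⟨by linarith, le_rfl⟩, rfl⟩
        ⟨-τ, ⟨le_rfl, by linarith⟩, rfl⟩ hst (C.mem_T.1 hi)
  obtain ⟨c, hc⟩ := C.T_nonempty (q + σ • d)
  obtain ⟨hcq, hca, hcb⟩ := honly σ hσ.ne' (abs_of_pos hσ).le c hc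
  refine ⟨c, hcq, hca, hcb, ?_⟩
  have huniq : ∀ i ∈ C.T q, i ≠ a → i ≠ b → i = c := by
    intro i hi hia hib
    by_contra hic
    have hsub : ({a, b, c, i} : Finset (Fin 5)) ⊆ C.T q := by
      simp [Finset.insert_subset_iff, ha, hb, hcq, hi]
    have : ({a, b, c, i} : Finset (Fin 5)).card = 4 := by
      rw [Finset.card_insert_of_notMem (by simp [hab, Ne.symm hca, Ne.symm hia]),
        Finset.card_insert_of_notMem (by simp [Ne.symm hcb, Ne.symm hib]),
        Finset.card_insert_of_notMem (by simp [Ne.symm hic]), Finset.card_singleton]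
    have := (Finset.card_le_card hsub).trans (C.card_T q)
    omega
  set L := (fun s : ℝ => q + s • d) '' Icc (-σ) σ
  have hL : IsPreconnected L := isPreconnected_Icc.image _ (by fun_prop)
  have hLF : L ⊆ C.F c := by
    rintro _ ⟨s, hs, rfl⟩
    by_cases h0 : s = 0
    · simpa [h0] using C.mem_T.1 hcq
    obtain ⟨i, hi⟩ := C.T_nonempty (q + s • d)
    obtain ⟨h1, h2, h3⟩ := honly s h0 (abs_le.2 hs) i hi
    exact huniq i h1 h2 h3 ▸ C.mem_T.1 hi
  set A := dot (q - p) d with hA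
  set N := d.re^2 + d.im^2
  have hN : 0 ≤ N := by positivity
  have kk : ∀ s : ℝ, (dist p (q + s • d))^2 = 1 + s * (2 * A + s * N) := by
    intro s
    have := dist_sq p q; rw [hpq] at this
    rw [dist_sq]; simp [hA, dot, N]
    linear_combination -this
  obtain ⟨s, hs0, hsσ, hsN⟩ : ∃ s, 0 < s ∧ s ≤ σ ∧ s * N < 2 * |A| := by
    refine ⟨min σ (|A| / (N + 1)), lt_min hσ (div_pos (abs_pos.2 hd3) (by linarith)), min_le_left _ _, ?_⟩
    have : min σ (|A| / (N+1)) * N ≤ |A| / (N+1) * N := mul_le_mul_of_nonneg_right (min_le_right _ _) hN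
    have h2 : |A| / (N+1) * N ≤ |A| := by
      rw [div_mul_eq_mul_div, div_le_iff₀ (by linarith)]; nlinarith [abs_nonneg A]
    linarith [abs_pos.2 hd3]
  refine C.crossing_prod hL hLF ⟨s, ⟨by linarith, hsσ⟩, rfl⟩ ⟨-s, ⟨by linarith, by linarith⟩, rfl⟩ ?_
  have hsN0 : 0 ≤ s * N := mul_nonneg hs0.le hN
  rcases lt_or_gt_of_ne hd3 with h | h
  · rw [abs_of_neg h] at hsN
    refine mul_neg_of_neg_of_pos (sub_neg.2 ?_) (sub_pos.2 ?_)
    · rw [lt_one_iff_sq dist_nonneg, kk]
      nlinarith [mul_pos hs0 (show 0 < -(2 * A + s * N) by linarith)]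
    · rw [one_lt_iff_sq dist_nonneg, kk]
      nlinarith [mul_pos hs0 (show 0 < -(2 * A - s * N) by linarith)]
  · rw [abs_of_pos h] at hsN
    refine mul_neg_of_pos_of_neg (sub_pos.2 ?_) (sub_neg.2 ?_)
    · rw [one_lt_iff_sq dist_nonneg, kk]
      nlinarith [mul_pos hs0 (show 0 < 2 * A + s * N by linarith)]
    · rw [lt_one_iff_sq dist_nonneg, kk]
      nlinarith [mul_pos hs0 (show 0 < 2 * A - s * N by linarith)]

/-- Every point in three closures has a filled pair. -/
lemma exists_bad {p : ℂ} (hp : (C.T p).card = 3) : ∃ a b, C.Bad p a b := by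
  by_contra hno
  push Not at hno
  have small : ∀ z, dist p z = 1 → C.T z ⊆ C.T p → C.T z = C.T p := by
    intro z hz hsub
    refine Finset.eq_of_subset_of_card_le hsub ?_
    by_contra hlt
    push Not at hlt
    rcases lt_or_eq_of_le (show (C.T z).card ≤ 2 by omega) with h1 | h2
    · have : (C.T z).card = 1 := by have := (C.T_nonempty z).card_pos; omega
      obtain ⟨i, hi⟩ := Finset.card_eq_one.1 this
      exact C.dist_ne_one (C.interior_of_single hi.subset) (C.mem_T.1 (hsub (by simp [hi])))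
        (by rw [dist_comm]; exact hz)
    · obtain ⟨i, j, hij, hT⟩ := Finset.card_eq_two.1 h2
      exact hno i j (C.bad_of_pair hij (hsub (by simp [hT])) (hsub (by simp [hT])) hz hT.subset)
  have hout : ∀ z, dist p z = 1 → ¬ C.T z ⊆ C.T p := by
    intro z hz hsub
    obtain ⟨ε, hε, hball⟩ := C.exists_T_ball z
    set e := z - p with he_def
    have he : ‖e‖ = 1 := by rw [he_def, ← dist_eq_norm, dist_comm]; exact hz
    obtain ⟨η, hη, hηw⟩ := Metric.eventually_nhds_iff.1
      (((continuous_arc p e).dist continuous_const).continuousAt.eventually_lt continuousAt_const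
        (show dist (arc p e 0) z < ε by simp [arc_zero, he_def, hε]))
    set τ := η/2 with hτ
    have hτ0 : 0 < τ := half_pos hη
    set K := arc p e '' Icc (-τ) τ
    have hK : IsPreconnected K := isPreconnected_Icc.image _ (continuous_arc p e).continuousOn
    have hKF : ∀ i ∈ C.T p, K ⊆ C.F i := by
      rintro i hi _ ⟨t, ht, rfl⟩
      have h1 := (hball _ (hηw (by rw [dist_zero_right, Real.norm_eq_abs]; exact (abs_le.2 ht).trans_lt (by linarith)))).trans hsub
      exact C.mem_T.1 ((small _ (dist_arc he t) h1).symm ▸ hi)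
    obtain ⟨t1, t2⟩ := arc_tangent p e he hτ0
    obtain ⟨σ, hσ, hstr⟩ := straddle_line p (arc p e τ) (arc p e (-τ)) (e * Complex.I)
      (dist_arc he _) (dist_arc he _) t1 t2
    obtain ⟨ρ, hρ, hTρ⟩ := C.exists_T_ball p
    let W : Set ℂ := {y | (dist y (arc p e τ) - 1) * (dist y (arc p e (-τ)) - 1) < 0} ∩ ball p ρ
    have hWo : IsOpen W := (isOpen_lt (by fun_prop) continuous_const).inter isOpen_ball
    have hWne : W.Nonempty := by
      have hm : 0 < min σ (ρ/2) := lt_min hσ (by linarith)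
      refine ⟨p + (min σ (ρ/2)) • (e * Complex.I), hstr _ hm.ne' (by rw [abs_of_pos hm]; exact min_le_left _ _), ?_⟩
      rw [mem_ball, dist_eq_norm, add_sub_cancel_left, norm_smul, Real.norm_of_nonneg hm.le]
      simp [he]; right; linarith
    obtain ⟨y, hy, hyU⟩ := C.dense.exists_mem_open hWo hWne |>.imp fun y h => And.intro h.2 h.1
    obtain ⟨i, hi⟩ := mem_iUnion.1 hyU
    have hyF : y ∈ C.F i := subset_closure hi
    exact C.crossing_prod hK (hKF i (hTρ y hy.2 (C.mem_T.2 hyF)))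
      ⟨τ, ⟨by linarith, le_rfl⟩, rfl⟩ ⟨-τ, ⟨le_rfl, by linarith⟩, rfl⟩ hy.1 hyF
  -- the two remaining colours
  have hc2 : (C.T p)ᶜ.card = 2 := by rw [Finset.card_compl, hp]; rfl
  obtain ⟨d, e, hde, hcompl⟩ := Finset.card_eq_two.1 hc2
  have hA : ∀ i, i ∈ C.T p ↔ i ≠ d ∧ i ≠ e := by
    intro i
    have : i ∈ (C.T p)ᶜ ↔ i = d ∨ i = e := by simp [hcompl]
    rw [Finset.mem_compl] at this
    tauto
  have hde' : ∀ z, dist p z = 1 → z ∈ C.F d ∨ z ∈ C.F e := by
    intro z hz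
    obtain ⟨i, hi, hip⟩ := Finset.not_subset.1 (hout z hz)
    have hie : i = d ∨ i = e := by
      by_contra hc
      push Not at hc
      exact hip ((hA i).2 hc)
    rcases hie with rfl | rfl
    · exact Or.inl (C.mem_T.1 hi)
    · exact Or.inr (C.mem_T.1 hi)
  -- a point of the circle outside one closure forces its unit neighbours out of the other
  have flip : ∀ f g : Fin 5, (∀ z, dist p z = 1 → z ∈ C.F f ∨ z ∈ C.F g) →
      ∀ z z', dist p z = 1 → dist p z' = 1 → dist z z' = 1 → z ∉ C.F g → z' ∉ C.F f := by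
    intro f g hfg z z' hz hz' hzz hzg
    obtain ⟨ε, hε, hball⟩ := Metric.isOpen_iff.1 (C.isClosed_F g).isOpen_compl z hzg
    set v := z - p with hv_def
    have hv : ‖v‖ = 1 := by rw [hv_def, ← dist_eq_norm, dist_comm]; exact hz
    obtain ⟨η, hη, hηw⟩ := Metric.eventually_nhds_iff.1
      (((continuous_arc p v).dist continuous_const).continuousAt.eventually_lt continuousAt_const
        (show dist (arc p v 0) z < ε by simp [arc_zero, hv_def, hε]))
    set τ := min (η/2) 1 with hτ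
    have hτ0 : 0 < τ := lt_min (half_pos hη) one_pos
    obtain ⟨s₁, hs₁, s₂, hs₂, l1, l2⟩ := triangle_cross z' p z (by rw [dist_comm]; exact hz')
      hz (by rw [dist_comm]; exact hzz) hτ0 (min_le_right _ _)
    refine C.crossing (isPreconnected_Icc.image _ (continuous_arc p v).continuousOn) ?_
      ⟨s₁, hs₁, rfl⟩ ⟨s₂, hs₂, rfl⟩ l1 l2
    rintro _ ⟨t, ht, rfl⟩
    refine (hfg _ (dist_arc hv t)).resolve_right (hball (hηw ?_))
    rw [dist_zero_right, Real.norm_eq_abs]
    exact (abs_le.2 ht).trans_lt ((min_le_left _ _).trans_lt (by linarith))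
  have hde'' : ∀ z, dist p z = 1 → z ∈ C.F e ∨ z ∈ C.F d := fun z hz => (hde' z hz).symm
  -- a point of the circle in both
  obtain ⟨b0, hb0, hb0d, hb0e⟩ : ∃ b, dist p b = 1 ∧ b ∈ C.F d ∧ b ∈ C.F e := by
    have hS : IsPreconnected (sphere p 1) := isPreconnected_sphere (by simp) p 1
    have hs : sphere p 1 ⊆ C.F d ∪ C.F e := fun z hz => hde' z (by rw [dist_comm]; exact hz)
    obtain ⟨z, hz⟩ : (sphere p 1).Nonempty := NormedSpace.sphere_nonempty.2 zero_le_one
    have hz1 : dist p z = 1 := by rw [dist_comm]; exact hz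
    obtain ⟨z', hz', hzz'⟩ := exists_triangle p z hz1
    have hz's : z' ∈ sphere p 1 := by rw [mem_sphere, dist_comm]; exact hz'
    have hboth : (sphere p 1 ∩ C.F d).Nonempty ∧ (sphere p 1 ∩ C.F e).Nonempty := by
      by_cases h1 : z ∈ C.F d <;> by_cases h2 : z ∈ C.F e
      · exact ⟨⟨z, hz, h1⟩, ⟨z, hz, h2⟩⟩
      · exact ⟨⟨z, hz, h1⟩, ⟨z', hz's, (hde' z' hz').resolve_left (flip d e hde' z z' hz1 hz' hzz' h2)⟩⟩
      · exact ⟨⟨z', hz's, (hde' z' hz').resolve_right (flip e d hde'' z z' hz1 hz' hzz' h1)⟩, ⟨z, hz, h2⟩⟩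
      · exact absurd (hde' z hz1) (by tauto)
    obtain ⟨b, hb, hbd, hbe⟩ := isPreconnected_closed_iff.1 hS _ _ (C.isClosed_F d) (C.isClosed_F e)
      hs hboth.1 hboth.2
    exact ⟨b, by rw [dist_comm]; exact hb, hbd, hbe⟩
  obtain ⟨b1, hb1, hb01⟩ := exists_triangle p b0 hb0
  have hb10 : dist b1 b0 = 1 := by rw [dist_comm]; exact hb01
  have hb1d : b1 ∈ C.F d := by
    by_contra h; exact flip e d hde'' b1 b0 hb1 hb0 hb10 h hb0e
  have hb1e : b1 ∈ C.F e := by
    by_contra h; exact flip d e hde' b1 b0 hb1 hb0 hb10 h hb0d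
  -- no filled pair of the two outside colours at b0
  have hnb : ¬ C.Bad b0 d e := by
    intro hbad
    obtain ⟨c, -, hcd, hce, hcp⟩ := C.bad_third hbad hb0
    exact hcp (C.mem_T.1 ((hA c).2 ⟨hcd, hce⟩))
  obtain ⟨ε, hε, hball⟩ := C.exists_T_ball b1
  set v := b1 - b0 with hv_def
  have hv : ‖v‖ = 1 := by rw [hv_def, ← dist_eq_norm]; exact hb10
  obtain ⟨η, hη, hηw⟩ := Metric.eventually_nhds_iff.1
    (((continuous_arc b0 v).dist continuous_const).continuousAt.eventually_lt continuousAt_const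
      (show dist (arc b0 v 0) b1 < ε by simp [arc_zero, hv_def, hε]))
  set τ := min (η/2) 1 with hτ
  have hτ0 : 0 < τ := lt_min (half_pos hη) one_pos
  -- every point of the short arc carries a colour other than d and e
  have hJ : ∀ t ∈ Icc (-τ) τ, ∃ n, n ∈ C.T (arc b0 v t) ∧ n ∈ C.T b1 ∧ n ≠ d ∧ n ≠ e := by
    intro t ht
    set z := arc b0 v t
    have hz : dist z b1 < ε := hηw (by
      rw [dist_zero_right, Real.norm_eq_abs]
      exact (abs_le.2 ht).trans_lt ((min_le_left _ _).trans_lt (by linarith)))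
    by_contra hn
    push Not at hn
    have hsub : C.T z ⊆ {d, e} := by
      intro i hi
      simp only [Finset.mem_insert, Finset.mem_singleton]
      by_contra hne
      push Not at hne
      exact hne.2 (hn i hi (hball z hz hi) hne.1)
    exact hnb (C.bad_of_pair hde (C.mem_T.2 hb0d) (C.mem_T.2 hb0e) (dist_arc hv t) hsub)
  obtain ⟨n, -, hn1, hnd, hne⟩ := hJ 0 ⟨by linarith, hτ0.le⟩
  have huniq : ∀ i ∈ C.T b1, i ≠ d → i ≠ e → i = n := by
    intro i hi hid hie
    by_contra hin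
    have hsub : ({d, e, n, i} : Finset (Fin 5)) ⊆ C.T b1 := by
      simp [Finset.insert_subset_iff, C.mem_T.2 hb1d, C.mem_T.2 hb1e, hn1, hi]
    have : ({d, e, n, i} : Finset (Fin 5)).card = 4 := by
      rw [Finset.card_insert_of_notMem (by simp [hde, Ne.symm hnd, Ne.symm hid]),
        Finset.card_insert_of_notMem (by simp [Ne.symm hne, Ne.symm hie]),
        Finset.card_insert_of_notMem (by simp [Ne.symm hin]), Finset.card_singleton]
    have := (Finset.card_le_card hsub).trans (C.card_T b1)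
    omega
  obtain ⟨s₁, hs₁, s₂, hs₂, l1, l2⟩ :=
    triangle_cross p b0 b1 hb0 hb01 hb1 hτ0 (min_le_right _ _)
  refine C.crossing (isPreconnected_Icc.image _ (continuous_arc b0 v).continuousOn) ?_
    ⟨s₁, hs₁, rfl⟩ ⟨s₂, hs₂, rfl⟩ l1 l2 (C.mem_T.1 ((hA n).2 ⟨hnd, hne⟩))
  rintro _ ⟨t, ht, rfl⟩
  obtain ⟨i, hi, hi1, hid, hie⟩ := hJ t ht
  exact huniq i hi1 hid hie ▸ C.mem_T.1 hi

end Config

end Vale.Agent.P032Baire
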