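import Vale.Agent.P032Baire.Finite

/-! Certificates for the finite checker, found by a search outside Lean and checked by the kernel. -/

namespace Vale.Agent.P032Baire.Finite

def pool : List Item :=
  [
    .split 1 false,
    .forced 0 0 4 2 [(0, 0), (0, 5), (2, 5), (1, 5)],
    .split 2 true,
    .forced 0 1 4 5 [(0, 1), (0, 2), (1, 2), (6, 2)],
    .split 3 true,
    .forced 0 0 4 2 [(0, 0), (3, 0), (4, 0)],
    .split 4 true,
    .forced 0 1 4 3 [(0, 1), (5, 1), (6, 1)],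
    .search [(2, 3), (0, 3), (1, 3), (6, 3), (5, 3), (0, 4), (5, 4), (6, 4), (2, 2)],
    .forced 0 1 4 3 [(0, 1), (0, 2), (5, 2)],
    .search [(4, 5), (0, 5), (3, 5), (2, 5), (5, 5), (0, 3)],
    .search [(2, 3), (0, 3), (1, 3), (3, 3), (4, 3), (2, 4), (3, 4), (0, 4), (4, 4), (2, 2), (3, 2), (4, 2)],
    .forced 0 0 4 2 [(0, 0), (0, 1), (4, 1)],
    .search [(3, 4), (2, 4), (0, 4), (1, 4), (0, 5), (0, 0), (3, 0), (4, 0)],
    .search [(1, 2), (0, 2), (2, 2), (3, 2), (1, 3), (2, 3), (0, 3), (3, 3)],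
    .forced 0 1 4 3 [(0, 1), (0, 0), (0, 5), (2, 5), (3, 5)],
    .forced 0 1 4 5 [(0, 1), (0, 2)],
    .search [(0, 2), (0, 1), (6, 1), (6, 2), (0, 0), (0, 5), (2, 5), (3, 5), (0, 3)],
    .search [(2, 5), (0, 5), (1, 5), (6, 5), (1, 4), (2, 4), (0, 4), (6, 4), (1, 3), (0, 3)],
    .forced 0 0 4 2 [(0, 0), (0, 1), (6, 1), (6, 0), (1, 0), (1, 1)],
    .forced 0 0 4 2 [(0, 0), (0, 5)],
    .search [(0, 5), (2, 5), (1, 5), (0, 0), (1, 0), (6, 0)],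
    .search [(6, 2), (1, 2), (0, 2), (2, 2), (0, 1), (6, 1), (1, 1), (2, 1), (1, 3), (1, 4), (1, 0), (1, 5), (2, 5)],
    .search [(6, 1), (0, 1), (1, 1), (2, 1), (1, 2), (6, 2), (0, 2), (2, 2), (1, 3), (0, 3), (0, 4)],
    .search [(0, 0), (0, 1), (6, 1), (1, 1), (1, 0), (6, 0), (1, 2), (6, 2), (0, 2), (1, 3), (0, 3), (6, 3), (1, 5)],
    .search [(0, 0), (0, 5), (2, 5), (1, 5), (1, 0), (6, 5), (1, 4), (2, 4), (0, 4), (6, 4)],
    .search [(6, 1), (6, 2), (0, 1), (0, 2), (1, 2), (1, 1)],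
    .search [(6, 2), (1, 2), (0, 2), (2, 2), (0, 1), (1, 1), (2, 1)],
    .search [(0, 5), (0, 0), (2, 5), (1, 5), (1, 0), (6, 0), (1, 4), (2, 4), (0, 4), (1, 3), (0, 3), (6, 3), (1, 1)],
    .search [(0, 5), (0, 0), (2, 5), (1, 5), (6, 5), (6, 0), (1, 0)],
    .forced 0 0 4 2 [(0, 0), (2, 0), (1, 0), (2, 5), (0, 5), (1, 5)],
    .forced 0 0 0 2 [(0, 0), (0, 1), (2, 0), (2, 1), (1, 1), (1, 2), (2, 2), (0, 2), (1, 3), (2, 3), (0, 3)],
    .forced 0 1 4 5 [(0, 1), (1, 1), (2, 1), (1, 2), (0, 2), (2, 2)],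
    .search [(2, 4), (1, 4), (0, 4), (1, 5), (2, 5), (0, 5)],
    .forced 0 1 4 5 [(0, 1), (2, 1), (1, 1), (1, 2), (1, 3), (2, 3)],
    .forced 0 0 4 2 [(0, 0), (0, 5), (2, 5), (1, 5), (2, 4), (1, 4), (0, 4)],
    .forced 0 0 4 2 [(0, 0), (1, 0), (2, 0), (2, 5), (2, 4), (1, 4)],
    .search [(0, 0), (0, 1), (1, 1), (2, 0)],
    .search [(0, 5), (1, 5), (2, 5)],
    .search [(0, 1), (1, 1), (6, 1)],
    .search [(0, 1), (2, 1), (3, 1), (4, 1)],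
    .search [(0, 4), (0, 5), (5, 5), (6, 4), (0, 2), (1, 1)],
    .search [(0, 3), (2, 3), (3, 3), (4, 3), (3, 4), (2, 4), (4, 2), (0, 2), (3, 2), (6, 2)],
    .search [(0, 3), (2, 3), (3, 3), (4, 3), (4, 2), (4, 1)],
    .search [(0, 1), (0, 2), (3, 1), (6, 2)],
    .search [(0, 1), (2, 1), (1, 1), (6, 1), (6, 2), (6, 3), (6, 4), (1, 4), (0, 4), (2, 4), (0, 3), (1, 5)],
    .search [(0, 1), (2, 1), (1, 1), (6, 1)],
    .search [(0, 0), (2, 0), (3, 0)],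
    .search [(0, 2), (1, 2), (6, 2), (5, 2)],
    .search [(2, 5), (3, 5), (0, 5), (4, 5), (5, 5), (3, 0), (4, 0), (5, 0), (6, 2)],
    .search [(0, 2), (0, 3), (3, 3), (4, 2), (0, 1), (0, 5)],
    .search [(0, 0), (1, 0), (2, 0), (3, 0), (2, 5), (1, 5), (0, 5), (3, 5)],
    .search [(0, 2), (1, 2), (6, 2), (6, 1)],
    .search [(0, 0), (0, 5), (1, 5), (6, 0)]]

/-- All colour sets of three or more colours; at three, also the colour missing around the point. -/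
def optsFour : List ℕ := [
   15, 23, 27, 29, 30, 31, 7, 11, 13, 14, 19, 21, 22, 25, 26, 28, 39, 71, 103, 43, 75, 139, 45, 109,
   141, 78, 110, 142, 51, 83, 179, 53, 117, 181, 86, 118, 182, 57, 153, 185, 90, 154, 186, 124, 156, 188]

def optsFive : List ℕ := [
   31, 7, 11, 13, 14, 19, 21, 22, 25, 26, 28, 39, 71, 103, 43, 75, 139, 45, 109, 141, 78, 110, 142, 51,
   83, 179, 53, 117, 181, 86, 118, 182, 57, 153, 185, 90, 154, 186, 124, 156, 188]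

/-- Six neighbours with one set of four colours, not the middle one. -/
def finalFour (T : List ℕ) : Bool :=
  look T 0 == 15 && [23, 27, 29, 30].contains (look T 1) &&
    (List.range 6).all fun k => look T (k + 1) == look T 1

/-- Neighbours alternately in five closures and in one triple. -/
def finalFive (T : List ℕ) : Bool :=
  look T 0 == 31 && [true, false].any fun o =>
    let t := look T (if o then 2 else 1)
    decide (t < 32) && card t == 3 &&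
      (List.range 6).all fun k => look T (k + 1) == if (k % 2 == 0) == o then 31 else t

def checkRoots (opts : List ℕ) (final : List ℕ → Bool) (m : ℕ) (rs : List (ℕ × ℕ)) (code : List ℕ) :
    Bool :=
  (rs.foldlM (fun acc r => walk pool opts final 6 [m, r.1, r.2, 0, 0, 0, 0] acc) code).isSome

/-- The colour set `m` after renaming the colours by `p`. -/
def permMask (p : List ℕ) (m : ℕ) : ℕ :=
  (if m.testBit 0 then 2 ^ p.getD 0 0 else 0) + (if m.testBit 1 then 2 ^ p.getD 1 0 else 0) +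
  (if m.testBit 2 then 2 ^ p.getD 2 0 else 0) + (if m.testBit 3 then 2 ^ p.getD 3 0 else 0) +
  (if m.testBit 4 then 2 ^ p.getD 4 0 else 0)

/-- A state entry after renaming the colours by `p`. -/
def permCode (p : List ℕ) (v : ℕ) : ℕ :=
  permMask p (mask v) + if flag v == 0 then 0 else 32 * (p.getD (flag v - 1) 0 + 1)

def codeFour : List ℕ := [
   0, 1, 2, 3, 4, 5, 6, 7, 8, 8, 8, 7, 9, 10, 10, 10, 11, 11, 11, 5, 12, 13, 13, 13,
   14, 14, 14, 15, 16, 17, 17, 17, 18, 18, 18, 19, 20, 21, 21, 21, 0, 22, 23, 24, 25, 25, 26, 27,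
   28, 28, 29, 30, 31, 32, 33, 34, 35, 36, 37]

def codeFive : List ℕ := [
   38, 0, 39, 2, 4, 40, 6, 41, 41, 41, 42, 42, 42, 42, 42, 42, 43, 43, 43, 44, 44, 44, 45, 45,
   45, 45, 45, 45, 46, 46, 46, 0, 2, 47, 4, 6, 48, 49, 49, 49, 49, 49, 49, 48, 48, 48, 50, 50,
   50, 51, 51, 51, 51, 51, 51, 52, 52, 52, 53, 53, 53, 37]

def repsFour : List (ℕ × ℕ) := [(23, 23), (23, 27), (23, 31), (23, 25), (31, 23), (31, 31), (31, 19), (19, 29), (19, 31), (19, 28)]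

def repsFive : List (ℕ × ℕ) := [(31, 31), (31, 7), (7, 31), (7, 25)]

/-- The renamings of five colours. -/
def perms : List (List ℕ) := [
   [0, 1, 2, 3, 4], [0, 1, 2, 4, 3], [0, 1, 3, 2, 4], [0, 1, 3, 4, 2], [0, 1, 4, 2, 3], [0, 1, 4, 3, 2],
   [0, 2, 1, 3, 4], [0, 2, 1, 4, 3], [0, 2, 3, 1, 4], [0, 2, 3, 4, 1], [0, 2, 4, 1, 3], [0, 2, 4, 3, 1],
   [0, 3, 1, 2, 4], [0, 3, 1, 4, 2], [0, 3, 2, 1, 4], [0, 3, 2, 4, 1], [0, 3, 4, 1, 2], [0, 3, 4, 2, 1],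
   [0, 4, 1, 2, 3], [0, 4, 1, 3, 2], [0, 4, 2, 1, 3], [0, 4, 2, 3, 1], [0, 4, 3, 1, 2], [0, 4, 3, 2, 1],
   [1, 0, 2, 3, 4], [1, 0, 2, 4, 3], [1, 0, 3, 2, 4], [1, 0, 3, 4, 2], [1, 0, 4, 2, 3], [1, 0, 4, 3, 2],
   [1, 2, 0, 3, 4], [1, 2, 0, 4, 3], [1, 2, 3, 0, 4], [1, 2, 3, 4, 0], [1, 2, 4, 0, 3], [1, 2, 4, 3, 0],
   [1, 3, 0, 2, 4], [1, 3, 0, 4, 2], [1, 3, 2, 0, 4], [1, 3, 2, 4, 0], [1, 3, 4, 0, 2], [1, 3, 4, 2, 0],
   [1, 4, 0, 2, 3], [1, 4, 0, 3, 2], [1, 4, 2, 0, 3], [1, 4, 2, 3, 0], [1, 4, 3, 0, 2], [1, 4, 3, 2, 0],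
   [2, 0, 1, 3, 4], [2, 0, 1, 4, 3], [2, 0, 3, 1, 4], [2, 0, 3, 4, 1], [2, 0, 4, 1, 3], [2, 0, 4, 3, 1],
   [2, 1, 0, 3, 4], [2, 1, 0, 4, 3], [2, 1, 3, 0, 4], [2, 1, 3, 4, 0], [2, 1, 4, 0, 3], [2, 1, 4, 3, 0],
   [2, 3, 0, 1, 4], [2, 3, 0, 4, 1], [2, 3, 1, 0, 4], [2, 3, 1, 4, 0], [2, 3, 4, 0, 1], [2, 3, 4, 1, 0],
   [2, 4, 0, 1, 3], [2, 4, 0, 3, 1], [2, 4, 1, 0, 3], [2, 4, 1, 3, 0], [2, 4, 3, 0, 1], [2, 4, 3, 1, 0],
   [3, 0, 1, 2, 4], [3, 0, 1, 4, 2], [3, 0, 2, 1, 4], [3, 0, 2, 4, 1], [3, 0, 4, 1, 2], [3, 0, 4, 2, 1],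
   [3, 1, 0, 2, 4], [3, 1, 0, 4, 2], [3, 1, 2, 0, 4], [3, 1, 2, 4, 0], [3, 1, 4, 0, 2], [3, 1, 4, 2, 0],
   [3, 2, 0, 1, 4], [3, 2, 0, 4, 1], [3, 2, 1, 0, 4], [3, 2, 1, 4, 0], [3, 2, 4, 0, 1], [3, 2, 4, 1, 0],
   [3, 4, 0, 1, 2], [3, 4, 0, 2, 1], [3, 4, 1, 0, 2], [3, 4, 1, 2, 0], [3, 4, 2, 0, 1], [3, 4, 2, 1, 0],
   [4, 0, 1, 2, 3], [4, 0, 1, 3, 2], [4, 0, 2, 1, 3], [4, 0, 2, 3, 1], [4, 0, 3, 1, 2], [4, 0, 3, 2, 1],
   [4, 1, 0, 2, 3], [4, 1, 0, 3, 2], [4, 1, 2, 0, 3], [4, 1, 2, 3, 0], [4, 1, 3, 0, 2], [4, 1, 3, 2, 0],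
   [4, 2, 0, 1, 3], [4, 2, 0, 3, 1], [4, 2, 1, 0, 3], [4, 2, 1, 3, 0], [4, 2, 3, 0, 1], [4, 2, 3, 1, 0],
   [4, 3, 0, 1, 2], [4, 3, 0, 2, 1], [4, 3, 1, 0, 2], [4, 3, 1, 2, 0], [4, 3, 2, 0, 1], [4, 3, 2, 1, 0]]

lemma perms_inj : ∀ p ∈ perms, (∀ i : Fin 5, p.getD i 0 < 5) ∧
    ∀ i j : Fin 5, p.getD i 0 = p.getD j 0 → i = j := by decide +kernel

/-- Up to renaming, only the representatives are live next to a middle in four closures. -/
theorem liveFour : (optsFour.all fun a => optsFour.all fun b => !(a.testBit 4 && b.testBit 4) ||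
    badHit [15, a, b, 0, 0, 0, 0] || flipHit [15, a, b, 0, 0, 0, 0] ||
    perms.any fun p => p.getD 4 0 == 4 && repsFour.contains (permCode p a, permCode p b)) = true := by decide +kernel

theorem liveFive : (optsFive.all fun a => optsFive.all fun b =>
    badHit [31, a, b, 0, 0, 0, 0] || flipHit [31, a, b, 0, 0, 0, 0] ||
    perms.any fun p => repsFive.contains (permCode p a, permCode p b)) = true := by decide +kernel

theorem checkFour : checkRoots optsFour finalFour 15 repsFour codeFour = true := by decide +kernel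

theorem checkFive : checkRoots optsFive finalFive 31 repsFive codeFive = true := by decide +kernel

/-- In the final four state the colour missing at the neighbours is forced towards the middle. -/
theorem forcedFinal : ∀ x ∈ [(23, 3), (27, 2), (29, 1), (30, 0)],
    refute [15, x.1, x.1, x.1, x.1, x.1, x.1] (some (1, 3, x.2)) [(1, 3), (6, 3), (0, 3)] = true := by decide +kernel

end Vale.Agent.P032Baire.Finite
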