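import Vale.Agent.P032Baire.Tools2
import Vale.Agent.P032Baire.Finite

/-!
A unit triangle with five, five and three closures at its vertices is impossible: one rotation of
24 points about the three vertices would give a colouring that a finite search excludes.
-/

open Set Metric Filter Topology

namespace Vale.Agent.P032Baire

namespace Five

open Vale.Agent.P032Baire.Finite

abbrev Node := Fin 3 × Fin 4 × Fin 6

/-- The pairs of shapes, with their turn, at distance one. -/
def classes : List (Fin 4 × Fin 4 × Fin 6) :=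
  [(0, 0, 1), (0, 2, 1), (0, 3, 5), (1, 1, 1), (1, 2, 4), (1, 3, 1), (2, 2, 2), (3, 2, 3), (3, 2, 2)]

def unitB (u v : Fin 4 × Fin 6) : Bool :=
  classes.any fun c => c.1 == u.1 && c.2.1 == v.1 && u.2 + c.2.2 == v.2

def adjB (u v : Node) : Bool :=
  (u.1 == v.1 && (unitB u.2 v.2 || unitB v.2 u.2)) || (u.1 != v.1 && u.2 == v.2)

def rowsB : List Node → List (List Bool)
  | [] => []
  | u :: l => l.map (adjB u) :: rowsB l

/-- The colour sets that can occur at a node. -/
def valB (v : Node) (s : ℕ) : Bool :=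
  if v.2.1 == 0 || v.2.1 == 1 then (if v.1 == 1 then s == 8 || s == 16 else card s == 2) else card s == 1

def domB (v : Node) : ℕ := pack (valB v) sets

def order : List Node :=
  [(1, 0, 3), (1, 0, 5), (1, 0, 0), (1, 0, 1), (1, 1, 3), (1, 1, 2), (1, 1, 1), (1, 1, 4), (1, 1, 0), (0, 0, 4), (2, 0, 4), (2, 0, 5), (0, 0, 0), (2, 0, 1), (0, 0, 3), (2, 1, 1), (0, 1, 2), (2, 1, 3), (0, 1, 4), (0, 1, 0), (0, 2, 0), (0, 2, 2), (0, 3, 2), (2, 0, 3), (1, 2, 1), (1, 2, 3), (2, 1, 2), (2, 3, 4), (0, 2, 3), (1, 2, 5), (0, 3, 5), (2, 1, 4), (2, 2, 1), (0, 2, 1), (1, 2, 0), (2, 3, 2), (1, 2, 4), (1, 3, 4), (2, 3, 5), (0, 1, 1), (2, 3, 1), (0, 3, 3), (1, 3, 3), (2, 3, 3), (0, 3, 0), (1, 3, 0), (2, 3, 0), (2, 0, 0), (2, 2, 0), (0, 1, 5), (2, 1, 5), (2, 2, 3), (2, 2, 2), (2, 2, 4), (0, 2, 5), (1, 0, 4), (1, 3, 1), (2, 2, 5), (1, 1, 5), (0, 3, 1), (1, 2, 2), (1, 3, 5), (0, 0, 2), (1, 0, 2), (2, 0, 2), (0, 0, 5), (0, 3, 4), (0, 2, 4), (2, 1, 0), (0, 0, 1), (1, 3, 2),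 (0, 1, 3)]

lemma check : force (order.map domB) (noSol compTable (rowsB order)) = true := by decide +kernel

lemma fits {σ : Node → ℕ} (h1 : ∀ v, σ v < 32) (h2 : ∀ v, valB v (σ v) = true)
    (h3 : ∀ u v, adjB u v = true → σ u &&& σ v = 0) :
    ∀ o : List Node, Fits (rowsB o) (o.map domB) (o.map σ) := by
  intro o
  induction o with
  | nil => trivial
  | cons u o ih =>
    refine ⟨h1 u, (testBit_pack _ _ _).2 ⟨List.mem_range.2 (h1 u), h2 u⟩, by simp, ?_, ih⟩
    intro i hi w hw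
    simp only [List.getElem?_map, Option.map_eq_some_iff] at hi hw
    obtain ⟨v, hv, hadj⟩ := hi
    obtain ⟨v', hv', rfl⟩ := hw
    rw [hv] at hv'
    cases hv'
    exact h3 u v hadj

lemma no_colouring {σ : Node → ℕ} (h1 : ∀ v, σ v < 32) (h2 : ∀ v, valB v (σ v) = true)
    (h3 : ∀ u v, adjB u v = true → σ u &&& σ v = 0) : False := by
  have h := check
  rw [force_eq] at h
  exact noSol_sound compTable_spec _ _ _ h (fits h1 h2 h3 order)

/-- A colour set as a number. -/
def code (s : Finset (Fin 5)) : ℕ :=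
  (if 0 ∈ s then 1 else 0) + (if 1 ∈ s then 2 else 0) + (if 2 ∈ s then 4 else 0) +
    (if 3 ∈ s then 8 else 0) + (if 4 ∈ s then 16 else 0)

lemma code_spec : ∀ s : Finset (Fin 5), code s < 32 ∧ card (code s) = s.card := by decide +kernel

lemma code_disjoint : ∀ s t : Finset (Fin 5), Disjoint s t → code s &&& code t = 0 := by decide +kernel

noncomputable def s33 : ℝ := Real.sqrt 33

noncomputable def s3 : ℝ := Real.sqrt 3

noncomputable def base : Fin 4 → ℂ :=
  ![⟨s33/6, s3/6⟩, ⟨s33/6, -(s3/6)⟩, ⟨1/2, s3/6⟩, ⟨(s33 - 3)/6, 0⟩]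

noncomputable def om : ℂ := ⟨1/2, s3/2⟩

noncomputable def pt (v : Fin 4 × Fin 6) : ℂ := base v.1 * om ^ (v.2 : ℕ)

lemma s3_sq : s3 * s3 = 3 := Real.mul_self_sqrt (by norm_num)

lemma s33_sq : s33 * s33 = 33 := Real.mul_self_sqrt (by norm_num)

lemma s3_pos : 0 < s3 := Real.sqrt_pos.2 (by norm_num)

lemma s33_gt : 5 < s33 := (Real.lt_sqrt (by norm_num)).2 (by norm_num)

lemma s33_lt : s33 < 6 := (Real.sqrt_lt' (by norm_num)).2 (by norm_num)

lemma normSq_om : Complex.normSq om = 1 := by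
  rw [Complex.normSq_apply]; simp only [om]; nlinarith [s3_sq]

lemma norm_of_normSq {z : ℂ} (h : Complex.normSq z = 1) : ‖z‖ = 1 := by
  rw [Complex.norm_def, h, Real.sqrt_one]

lemma norm_om : ‖om‖ = 1 := norm_of_normSq normSq_om

lemma om_sq : om ^ 2 = ⟨-1/2, s3/2⟩ := by
  apply Complex.ext <;> simp [pow_two, om] <;> nlinarith [s3_sq]

lemma om_three : om ^ 3 = -1 := by
  rw [pow_succ, om_sq]; apply Complex.ext <;> simp [om] <;> nlinarith [s3_sq]

lemma om_four : om ^ 4 = -om := by rw [pow_succ, om_three]; ring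

lemma om_five : om ^ 5 = -(om ^ 2) := by rw [show om ^ 5 = om ^ 3 * om ^ 2 by ring, om_three]; ring

lemma om_add (a b : Fin 6) : om ^ ((a + b : Fin 6) : ℕ) = om ^ (a : ℕ) * om ^ (b : ℕ) := by
  have h6 : om ^ 6 = 1 := by rw [show om ^ 6 = (om ^ 3) ^ 2 by ring, om_three]; ring
  rw [← pow_add, Fin.val_add, ← pow_mod_natCast_eq_aux h6]
where
  pow_mod_natCast_eq_aux {x : ℂ} {n : ℕ} (h : x ^ 6 = 1) : x ^ n = x ^ (n % 6) := by
    conv_lhs => rw [← Nat.div_add_mod n 6, pow_add, pow_mul, h, one_pow, one_mul]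

lemma norm_pt (v : Fin 4 × Fin 6) (h : v.1 = 0 ∨ v.1 = 1) : ‖pt v‖ = 1 := by
  rw [pt, norm_mul, norm_pow, norm_om, one_pow, mul_one]
  apply norm_of_normSq
  rcases h with h | h <;> rw [h] <;> simp [base, Complex.normSq_apply] <;> nlinarith [s3_sq, s33_sq]

lemma pt_ne_zero (v : Fin 4 × Fin 6) : pt v ≠ 0 := by
  refine mul_ne_zero ?_ (pow_ne_zero _ fun h => by simpa [norm_om] using congrArg norm h)
  obtain ⟨t, -⟩ := v
  intro h
  have hr := congrArg Complex.re h
  fin_cases t <;> simp [base] at hr <;> linarith [s33_gt]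

lemma class_spec : ∀ c ∈ classes,
    Complex.normSq (base c.2.1 * om ^ (c.2.2 : ℕ) - base c.1) = 1 ∧
      ((starRingEnd ℂ) (base c.1) * (base c.2.1 * om ^ (c.2.2 : ℕ))).im ≠ 0 := by
  intro c hc
  have := s3_pos
  have := s33_gt
  have := s33_lt
  have h3 := s3_sq
  have h33 := s33_sq
  simp only [classes, List.mem_cons, List.not_mem_nil, or_false] at hc
  rcases hc with rfl | rfl | rfl | rfl | rfl | rfl | rfl | rfl | rfl <;>
    refine ⟨?_, ?_⟩ <;>
    simp [base, om_sq, om_three, om_four, om_five, Complex.normSq_apply] <;>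
    (try simp [om]) <;>
    (first | nlinarith | exact ⟨by intro h; linarith, by intro h; nlinarith⟩)

lemma unitB_spec {u v : Fin 4 × Fin 6} (h : unitB u v = true) :
    ‖pt v - pt u‖ = 1 ∧ ((starRingEnd ℂ) (pt u) * pt v).im ≠ 0 := by
  simp only [unitB, List.any_eq_true, Bool.and_eq_true, beq_iff_eq] at h
  obtain ⟨c, hc, ⟨h1, h2⟩, h3⟩ := h
  obtain ⟨hn, hi⟩ := class_spec c hc
  rw [h1, h2] at hn hi
  set o := om ^ (u.2 : ℕ) with ho
  have hon : Complex.normSq o = 1 := by rw [ho, map_pow, normSq_om, one_pow]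
  have hv : pt v = base v.1 * om ^ (c.2.2 : ℕ) * o := by
    rw [pt, ← h3, om_add]; ring
  have hu : pt u = base u.1 * o := rfl
  refine ⟨?_, ?_⟩
  · apply norm_of_normSq
    rw [hv, hu, ← sub_mul, map_mul, hn, hon, one_mul]
  · rw [hv, hu, map_mul,
      show (starRingEnd ℂ) (base u.1) * (starRingEnd ℂ) o * (base v.1 * om ^ (c.2.2 : ℕ) * o) =
        (starRingEnd ℂ) (base u.1) * (base v.1 * om ^ (c.2.2 : ℕ)) * ((starRingEnd ℂ) o * o) by ring,
      ← Complex.normSq_eq_conj_mul_self, hon, Complex.ofReal_one, mul_one]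
    exact hi

end Five

namespace Cfg

open Five

variable (C : Cfg)

/-- The point with offset `p` from `c`, turned by `θ`. -/
noncomputable def rotPt (c p : ℂ) (θ : ℝ) : ℂ := c + p * Complex.exp (θ * Complex.I)

lemma continuous_rotPt (c p : ℂ) : Continuous (rotPt c p) := by unfold rotPt; fun_prop

/-- Angles near which the closures at a turning point stay the same. -/
def Steady (c p : ℂ) : Set ℝ :=
  {θ | ∃ η > 0, ∀ φ, dist φ θ < η → C.T (rotPt c p φ) = C.T (rotPt c p θ)}

lemma isOpen_steady (c p : ℂ) : IsOpen (C.Steady c p) := by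
  rw [Metric.isOpen_iff]
  rintro θ ⟨η, hη, hT⟩
  refine ⟨η/2, half_pos hη, fun φ hφ => ⟨η/2, half_pos hη, fun ψ hψ => ?_⟩⟩
  have hφ' := mem_ball.1 hφ
  rw [hT φ (by linarith), hT ψ (by linarith [dist_triangle ψ φ θ])]

lemma dense_steady (c p : ℂ) : Dense (C.Steady c p) := by
  classical
  rw [Metric.dense_iff]
  intro θ₀ r hr
  have hex : ∃ k, ∃ θ ∈ ball θ₀ r, (C.T (rotPt c p θ)).card = k := ⟨_, θ₀, mem_ball_self hr, rfl⟩
  obtain ⟨θ, hθ, hk⟩ := Nat.find_spec hex
  obtain ⟨η, hη, hsub⟩ := Metric.eventually_nhds_iff.1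
    (((continuous_rotPt c p).tendsto θ).eventually (C.eventually_T_subset (rotPt c p θ)))
  refine ⟨θ, hθ, min η (r - dist θ θ₀), lt_min hη (sub_pos.2 (mem_ball.1 hθ)), fun φ hφ => ?_⟩
  obtain ⟨h1, h2⟩ := lt_min_iff.1 hφ
  refine Finset.eq_of_subset_of_card_le (hsub h1) (hk.le.trans (Nat.find_min' hex ⟨φ, ?_, rfl⟩))
  exact mem_ball.2 (by linarith [dist_triangle φ θ θ₀])

/-- A colour of a steady turning point is missing at the points it moves through unit distance of. -/
lemma steady_avoid {c p z' : ℂ} {θ : ℝ} (h : θ ∈ C.Steady c p) {i : Fin 5}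
    (hi : i ∈ C.T (rotPt c p θ)) (hd : dist z' (rotPt c p θ) = 1)
    (hX : ((starRingEnd ℂ) (rotPt c p θ - c) * (z' - rotPt c p θ)).im ≠ 0) : i ∉ C.T z' := by
  obtain ⟨η, hη, hT⟩ := h
  intro hi'
  set u := rotPt c p θ - c with hu
  set A := ((starRingEnd ℂ) (z' - c) * u).re with hA
  set B := ((starRingEnd ℂ) (z' - c) * u).im with hB
  have hB0 : B ≠ 0 := by
    intro h0
    apply hX
    rw [show z' - rotPt c p θ = (z' - c) - u by rw [hu]; ring]
    simp [hB] at h0 ⊢
    linarith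
  have key : ∀ δ : ℝ, dist z' (rotPt c p (θ + δ)) ^ 2 =
      1 + 2 * (A * (1 - Real.cos δ) + B * Real.sin δ) := by
    intro δ
    have e : rotPt c p (θ + δ) = c + u * Complex.exp (δ * Complex.I) := by
      rw [hu, rotPt, rotPt, Complex.ofReal_add, add_mul, Complex.exp_add]; ring
    have h1 : dist z' (c + u) ^ 2 = 1 := by
      rw [show c + u = rotPt c p θ by rw [hu]; ring, hd, one_pow]
    rw [dist_sq] at h1
    rw [e, dist_sq, hA, hB]
    simp [Complex.exp_ofReal_mul_I_re, Complex.exp_ofReal_mul_I_im] at h1 ⊢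
    linear_combination h1 + (u.re ^ 2 + u.im ^ 2) * Real.sin_sq_add_cos_sq δ
  set δ := min (η / 2) (min 1 (|B| / (|A| + 1))) with hδ
  have hδ0 : 0 < δ := by positivity
  have hδ1 : δ ≤ 1 := (min_le_right _ _).trans (min_le_left _ _)
  have hδA : |A| * δ ≤ |B| := by
    have hle : δ ≤ |B| / (|A| + 1) := (min_le_right _ _).trans (min_le_right _ _)
    rw [le_div_iff₀ (by positivity)] at hle
    nlinarith
  set X := A * (1 - Real.cos δ)
  set Y := B * Real.sin δ
  have hXY : |X| < |Y| := by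
    have hcos : 1 - Real.cos δ ≤ δ ^ 2 / 2 := by linarith [Real.one_sub_sq_div_two_le_cos (x := δ)]
    have hsin := Real.sin_gt_sub_cube hδ0
    have hs : 3 / 4 * δ ≤ Real.sin δ := by nlinarith
    have hs0 : 0 < Real.sin δ := by linarith
    rw [abs_mul, abs_mul, abs_of_nonneg (sub_nonneg.2 (Real.cos_le_one δ)), abs_of_pos hs0]
    calc |A| * (1 - Real.cos δ) ≤ |A| * (δ ^ 2 / 2) := mul_le_mul_of_nonneg_left hcos (abs_nonneg A)
      _ ≤ |B| * (δ / 2) := by nlinarith
      _ < |B| * Real.sin δ := by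
          apply mul_lt_mul_of_pos_left _ (abs_pos.2 hB0)
          linarith
  have k1 : dist z' (rotPt c p (θ + δ)) ^ 2 = 1 + 2 * (X + Y) := key δ
  have k2 : dist z' (rotPt c p (θ + -δ)) ^ 2 = 1 + 2 * (X - Y) := by
    rw [key, Real.cos_neg, Real.sin_neg]; ring
  have hmem : ∀ s : ℝ, |s| ≤ δ → θ + s ∈ Icc (θ - δ) (θ + δ) := fun s hs => by
    obtain ⟨h1, h2⟩ := abs_le.1 hs; constructor <;> linarith
  refine C.crossing_prod ((isPreconnected_Icc (a := θ - δ) (b := θ + δ)).image _ (continuous_rotPt c p).continuousOn)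
    ?_ ⟨_, hmem δ (abs_of_pos hδ0).le, rfl⟩ ⟨_, hmem (-δ) (by rw [abs_neg, abs_of_pos hδ0]), rfl⟩ ?_
    (C.mem_T.1 hi')
  · rintro _ ⟨φ, hφ, rfl⟩
    refine C.mem_T.1 ((hT φ ?_).symm ▸ hi)
    rw [Real.dist_eq]
    exact lt_of_le_of_lt (abs_le.2 ⟨by linarith [hφ.1], by linarith [hφ.2]⟩)
      ((min_le_left _ _).trans_lt (by linarith))
  · have h1 := dist_nonneg (x := z') (y := rotPt c p (θ + δ))
    have h2 := dist_nonneg (x := z') (y := rotPt c p (θ + -δ))
    rcases le_or_gt 0 Y with hY | hY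
    · rw [abs_of_nonneg hY] at hXY
      obtain ⟨hl, hr⟩ := abs_lt.1 hXY
      exact mul_neg_of_pos_of_neg (by nlinarith) (by nlinarith)
    · rw [abs_of_neg hY] at hXY
      obtain ⟨hl, hr⟩ := abs_lt.1 hXY
      exact mul_neg_of_neg_of_pos (by nlinarith) (by nlinarith)

lemma dense_cross {p d : ℂ} (hp : p ≠ 0) (hd : d ≠ 0) :
    Dense {θ : ℝ | ((starRingEnd ℂ) (p * Complex.exp (θ * Complex.I)) * d).im ≠ 0} := by
  rw [Metric.dense_iff]
  intro θ₀ r hr
  set u := (starRingEnd ℂ) (p * Complex.exp (θ₀ * Complex.I)) * d with hu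
  have hu0 : u ≠ 0 := by simp [hu, hp, hd, Complex.exp_ne_zero]
  by_cases h0 : u.im = 0
  · set δ := min (r / 2) 1
    have hδ0 : 0 < δ := lt_min (half_pos hr) one_pos
    refine ⟨θ₀ + δ, by
      rw [mem_ball, Real.dist_eq, add_sub_cancel_left, abs_of_pos hδ0]
      exact (min_le_left _ _).trans_lt (by linarith), ?_⟩
    have hre : u.re ≠ 0 := fun h => hu0 (Complex.ext h h0)
    have e : (starRingEnd ℂ) (p * Complex.exp ((θ₀ + δ : ℝ) * Complex.I)) * d =
        u * (starRingEnd ℂ) (Complex.exp (δ * Complex.I)) := by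
      rw [hu, Complex.ofReal_add, add_mul, Complex.exp_add, map_mul, map_mul, map_mul]; ring
    show ((starRingEnd ℂ) (p * Complex.exp ((θ₀ + δ : ℝ) * Complex.I)) * d).im ≠ 0
    rw [e, Complex.mul_im, h0, Complex.conj_im, Complex.exp_ofReal_mul_I_im]
    have hs := Real.sin_pos_of_pos_of_lt_pi hδ0 ((min_le_right _ _).trans_lt (by linarith [Real.pi_gt_three]))
    simp [hre, hs.ne']
  · exact ⟨θ₀, mem_ball_self hr, h0⟩

/-- Two points in five closures and one in three never form a unit triangle. -/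
theorem no_five_triangle {q y h : ℂ} (hqy : dist q y = 1) (hqh : dist q h = 1) (hyh : dist y h = 1)
    (hq : (C.T q).card = 5) (hh : (C.T h).card = 5) (hy : (C.T y).card = 3) : False := by
  classical
  have hallq : ∀ i, i ∈ C.T q := fun i => by
    rw [Finset.eq_univ_of_card _ (hq.trans (by simp))]; exact Finset.mem_univ i
  have hallh : ∀ i, i ∈ C.T h := fun i => by
    rw [Finset.eq_univ_of_card _ (hh.trans (by simp))]; exact Finset.mem_univ i
  have hno : ∀ a b, ¬ C.Bad y a b := fun a b hab => by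
    obtain ⟨c, -, -, -, hc⟩ := C.bad_absent hy.le hab hqy
    exact hc (C.mem_T.1 (hallq c))
  have hout := C.circle_outside hy hno
  obtain ⟨u, v, huv, hcompl⟩ := Finset.card_eq_two.1
    (show (C.T y)ᶜ.card = 2 by rw [Finset.card_compl, hy]; rfl)
  obtain ⟨π, hπu, hπv⟩ : ∃ π : Equiv.Perm (Fin 5), π u = 3 ∧ π v = 4 := by
    set π₁ := Equiv.swap u (3 : Fin 5)
    have hne : π₁ v ≠ 3 := fun e => huv (π₁.injective (e.trans (Equiv.swap_apply_left u 3).symm)).symm
    refine ⟨π₁.trans (Equiv.swap (π₁ v) 4), ?_, ?_⟩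
    · rw [Equiv.trans_apply, Equiv.swap_apply_left]
      exact Equiv.swap_apply_of_ne_of_ne hne.symm (by decide)
    · rw [Equiv.trans_apply, Equiv.swap_apply_left]
  set ctr : Fin 3 → ℂ := ![q, y, h] with hctr
  have hdist : ∀ a b : Fin 3, a ≠ b → ‖ctr b - ctr a‖ = 1 := by
    intro a b hab
    rw [← dist_eq_norm]
    fin_cases a <;> fin_cases b <;>
      first | exact absurd rfl hab | simp [hctr, hqy, hqh, hyh, dist_comm y q, dist_comm h q, dist_comm h y]
  set good : Node → Set ℝ := fun w => (C.Steady (ctr w.1) (pt w.2) ∩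
      ⋂ b : Fin 3, {θ : ℝ | b ≠ w.1 →
        ((starRingEnd ℂ) (pt w.2 * Complex.exp (θ * Complex.I)) * (ctr b - ctr w.1)).im ≠ 0}) ∩
      {θ : ℝ | w.2.1 = 0 ∨ w.2.1 = 1 → C.Slot (ctr w.1) (rotPt (ctr w.1) (pt w.2) θ)} with hgood
  have hgo : ∀ w, IsOpen (good w) ∧ Dense (good w) := by
    intro w
    have hI : IsOpen {θ : ℝ | w.2.1 = 0 ∨ w.2.1 = 1 → C.Slot (ctr w.1) (rotPt (ctr w.1) (pt w.2) θ)} ∧
        Dense {θ : ℝ | w.2.1 = 0 ∨ w.2.1 = 1 → C.Slot (ctr w.1) (rotPt (ctr w.1) (pt w.2) θ)} := by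
      by_cases hw : w.2.1 = 0 ∨ w.2.1 = 1
      · simp only [hw, true_implies]
        exact ⟨C.isOpen_setOf_slot (norm_pt _ hw), C.dense_setOf_slot (norm_pt _ hw)⟩
      · simp [hw]
    have hX : ∀ b : Fin 3, IsOpen {θ : ℝ | b ≠ w.1 →
          ((starRingEnd ℂ) (pt w.2 * Complex.exp (θ * Complex.I)) * (ctr b - ctr w.1)).im ≠ 0} ∧
        Dense {θ : ℝ | b ≠ w.1 →
          ((starRingEnd ℂ) (pt w.2 * Complex.exp (θ * Complex.I)) * (ctr b - ctr w.1)).im ≠ 0} := by
      intro b
      by_cases hb : b ≠ w.1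
      · simp only [hb, true_implies, ne_eq, not_false_iff]
        refine ⟨isOpen_ne_fun (by fun_prop) continuous_const, dense_cross (pt_ne_zero _) ?_⟩
        intro e
        have := hdist _ _ (Ne.symm hb)
        rw [e, norm_zero] at this
        norm_num at this
      · simp [hb]
    have hIn : IsOpen (⋂ b : Fin 3, {θ : ℝ | b ≠ w.1 →
          ((starRingEnd ℂ) (pt w.2 * Complex.exp (θ * Complex.I)) * (ctr b - ctr w.1)).im ≠ 0}) :=
      isOpen_iInter_of_finite fun b => (hX b).1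
    refine ⟨((C.isOpen_steady _ _).inter hIn).inter hI.1, ?_⟩
    exact ((C.dense_steady _ _).inter_of_isOpen_left (dense_iInter_of_isOpen (fun b => (hX b).1) fun b => (hX b).2)
      (C.isOpen_steady _ _)).inter_of_isOpen_left hI.2 ((C.isOpen_steady _ _).inter hIn)
  obtain ⟨θ, hθ⟩ := (dense_iInter_of_isOpen (fun w => (hgo w).1) fun w => (hgo w).2).nonempty
  rw [mem_iInter] at hθ
  set pos : Node → ℂ := fun w => rotPt (ctr w.1) (pt w.2) θ with hpos
  set rot := Complex.exp (θ * Complex.I) with hrot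
  have hrn : Complex.normSq rot = 1 := by
    rw [Complex.normSq_eq_norm_sq, hrot, Complex.norm_exp_ofReal_mul_I, one_pow]
  have hdisj : ∀ w w' : Node, adjB w w' = true → Disjoint (C.T (pos w)) (C.T (pos w')) := by
    have same : ∀ (a : Fin 3) (x x' : Fin 4 × Fin 6), unitB x x' = true →
        Disjoint (C.T (pos (a, x))) (C.T (pos (a, x'))) := by
      intro a x x' hx
      obtain ⟨h1, h2⟩ := unitB_spec hx
      refine Finset.disjoint_left.2 fun i hi => C.steady_avoid (hθ (a, x)).1.1 hi ?_ ?_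
      · show dist (ctr a + pt x' * rot) (ctr a + pt x * rot) = 1
        rw [dist_eq_norm, add_sub_add_left_eq_sub, ← sub_mul, norm_mul, h1, one_mul,
          hrot, Complex.norm_exp_ofReal_mul_I]
      · show ((starRingEnd ℂ) (ctr a + pt x * rot - ctr a) *
          ((ctr a + pt x' * rot) - (ctr a + pt x * rot))).im ≠ 0
        rw [add_sub_cancel_left, add_sub_add_left_eq_sub, map_mul,
          show (starRingEnd ℂ) (pt x) * (starRingEnd ℂ) rot * (pt x' * rot - pt x * rot) =
            ((starRingEnd ℂ) (pt x) * pt x' - (starRingEnd ℂ) (pt x) * pt x) * ((starRingEnd ℂ) rot * rot) by ring,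
          ← Complex.normSq_eq_conj_mul_self, ← Complex.normSq_eq_conj_mul_self, hrn, Complex.ofReal_one,
          mul_one, Complex.sub_im, Complex.ofReal_im, sub_zero]
        exact h2
    intro w w' hadj
    simp only [adjB, Bool.or_eq_true, Bool.and_eq_true, beq_iff_eq, bne_iff_ne] at hadj
    obtain ⟨a, x⟩ := w
    obtain ⟨b, x'⟩ := w'
    rcases hadj with ⟨hab, h | h⟩ | ⟨hab, hxx⟩
    · obtain rfl : a = b := hab
      exact same a x x' h
    · obtain rfl : a = b := hab
      exact (same a x' x h).symm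
    · obtain rfl : x = x' := hxx
      refine Finset.disjoint_left.2 fun i hi => C.steady_avoid (hθ (a, x)).1.1 hi ?_ ?_
      · show dist (ctr b + pt x * rot) (ctr a + pt x * rot) = 1
        rw [dist_add_right, dist_eq_norm]; exact hdist a b hab
      · show ((starRingEnd ℂ) (ctr a + pt x * rot - ctr a) *
          ((ctr b + pt x * rot) - (ctr a + pt x * rot))).im ≠ 0
        rw [add_sub_cancel_left, add_sub_add_right_eq_sub]
        exact mem_iInter.1 (hθ (a, x)).1.2 b (Ne.symm hab)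
  have hcirc : ∀ w : Node, w.2.1 = 0 ∨ w.2.1 = 1 → C.Slot (ctr w.1) (pos w) := fun w hw => (hθ w).2 hw
  have htwo : ∀ w : Node, w.2.1 = 0 ∨ w.2.1 = 1 → w.1 ≠ 1 → (C.T (pos w)).card = 2 := by
    intro w hw hw1
    have hs := hcirc w hw
    have hfull : ∀ i, i ∈ C.T (ctr w.1) := by
      obtain ⟨a, x⟩ := w
      fin_cases a
      · exact hallq
      · exact absurd rfl hw1
      · exact hallh
    have h1 := hs.2.1
    have h2 := (C.T_nonempty (pos w)).card_pos
    by_contra hne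
    obtain ⟨i, hi⟩ := Finset.card_eq_one.1 (show (C.T (pos w)).card = 1 by omega)
    exact C.slot_single hs hi (hfull i)
  have hone : ∀ x : Fin 4 × Fin 6, x.1 = 0 ∨ x.1 = 1 →
      C.T (pos (1, x)) = {u} ∨ C.T (pos (1, x)) = {v} := by
    intro x hx
    have d01 := hdisj (0, x) (1, x) (by simp [adjB])
    have d02 := hdisj (0, x) (2, x) (by simp [adjB])
    have d12 := hdisj (1, x) (2, x) (by simp [adjB])
    have c0 := htwo (0, x) hx (by simp)
    have c2 := htwo (2, x) hx (by simp)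
    have hsum : (C.T (pos (0, x)) ∪ C.T (pos (2, x)) ∪ C.T (pos (1, x))).card ≤ 5 :=
      (Finset.card_le_univ _).trans (by simp)
    rw [Finset.card_union_of_disjoint (Finset.disjoint_union_left.2 ⟨d01, d12.symm⟩),
      Finset.card_union_of_disjoint d02, c0, c2] at hsum
    obtain ⟨i, hi⟩ := Finset.card_eq_one.1 (show (C.T (pos (1, x))).card = 1 by
      have := (C.T_nonempty (pos (1, x))).card_pos; omega)
    have hiy : i ∉ C.T y := fun hiy => hout (pos (1, x)) (hcirc (1, x) hx).1 (by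
      rw [hi]; exact Finset.singleton_subset_iff.2 hiy)
    have := hcompl ▸ Finset.mem_compl.2 hiy
    simp only [Finset.mem_insert, Finset.mem_singleton] at this
    rcases this with rfl | rfl
    · exact Or.inl hi
    · exact Or.inr hi
  set pick : Node → Finset (Fin 5) := fun w =>
    if w.2.1 = 0 ∨ w.2.1 = 1 then C.T (pos w) else {(C.T_nonempty (pos w)).choose} with hpick
  have hsub : ∀ w, pick w ⊆ C.T (pos w) := by
    intro w
    simp only [hpick]
    split_ifs
    · exact subset_rfl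
    · exact Finset.singleton_subset_iff.2 (C.T_nonempty (pos w)).choose_spec
  refine no_colouring (σ := fun w => code ((pick w).map π.toEmbedding)) (fun w => (code_spec _).1) ?_ ?_
  · intro w
    by_cases hw : w.2.1 = 0 ∨ w.2.1 = 1
    · by_cases hw1 : w.1 = 1
      · obtain ⟨a, x⟩ := w
        obtain rfl : a = 1 := hw1
        have hx : x.1 = 0 ∨ x.1 = 1 := hw
        simp only [valB, hpick, if_pos hx]
        rcases hone x hx with e | e <;> rw [e] <;> simp [hx, hπu, hπv, code]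
      · simp [valB, hpick, hw, hw1, (code_spec _).2, htwo w hw hw1]
    · simp [valB, hpick, hw, (code_spec _).2]
  · intro w w' hadj
    refine code_disjoint _ _ ((Finset.disjoint_map _).2 ?_)
    exact (hdisj w w' hadj).mono (hsub w) (hsub w')

end Cfg

end Vale.Agent.P032Baire
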