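import Vale.Agent.P032Baire.Tools2

open Set Metric Filter Topology

namespace Vale.Agent.P032Baire

/-- A sixth root of unity. -/
noncomputable def hexRot : ℂ := Complex.exp ((Real.pi / 3 : ℝ) * Complex.I)

lemma hexRot_eq : hexRot = ⟨1/2, Real.sqrt 3 / 2⟩ := by
  apply Complex.ext
  · rw [hexRot, Complex.exp_ofReal_mul_I_re, Real.cos_pi_div_three]
  · rw [hexRot, Complex.exp_ofReal_mul_I_im, Real.sin_pi_div_three]

lemma norm_hexRot : ‖hexRot‖ = 1 := Complex.norm_exp_ofReal_mul_I _

lemma norm_hexRot_sub_one : ‖hexRot - 1‖ = 1 := by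
  have h3 := Real.sq_sqrt (show (0:ℝ) ≤ 3 by norm_num)
  rw [hexRot_eq, Complex.norm_def, Complex.normSq_apply, Real.sqrt_eq_one]
  simp
  linear_combination (1/4 : ℝ) * h3

lemma hexRot_pow_three : hexRot ^ 3 = -1 := by
  rw [hexRot, ← Complex.exp_nat_mul, ← Complex.exp_pi_mul_I]
  congr 1; push_cast; ring

lemma hexRot_pow_six : hexRot ^ 6 = 1 := by
  rw [show 6 = 3 * 2 by rfl, pow_mul, hexRot_pow_three]; norm_num

lemma hexRot_pow_add (k j : Fin 6) : hexRot ^ ((k + j : Fin 6) : ℕ) = hexRot ^ (k : ℕ) * hexRot ^ (j : ℕ) := by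
  rw [← pow_add, Fin.val_add]
  exact (pow_eq_pow_mod _ hexRot_pow_six).symm

/-- Vertex `k` of the hexagon inscribed in the circle about `q` at angle `θ`. -/
noncomputable def hexPt (q : ℂ) (θ : ℝ) (k : Fin 6) : ℂ :=
  q + hexRot ^ (k : ℕ) * Complex.exp (θ * Complex.I)

lemma dist_hexPt (q : ℂ) (θ : ℝ) (k : Fin 6) : dist q (hexPt q θ k) = 1 := by
  simp [hexPt, dist_eq_norm, norm_hexRot, Complex.norm_exp_ofReal_mul_I]

lemma dist_hexPt_succ (q : ℂ) (θ : ℝ) (k : Fin 6) :
    dist (hexPt q θ k) (hexPt q θ (k + 1)) = 1 := by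
  rw [dist_comm, dist_eq_norm, hexPt, hexPt, hexRot_pow_add, add_sub_add_left_eq_sub]
  simp only [Fin.val_one, pow_one]
  rw [show hexRot ^ (k : ℕ) * hexRot * Complex.exp (θ * Complex.I) -
    hexRot ^ (k : ℕ) * Complex.exp (θ * Complex.I) =
    hexRot ^ (k : ℕ) * Complex.exp (θ * Complex.I) * (hexRot - 1) by ring]
  simp [norm_hexRot, norm_hexRot_sub_one, Complex.norm_exp_ofReal_mul_I]

lemma hexPt_opp (q : ℂ) (θ : ℝ) (k : Fin 6) : hexPt q θ (k + 3) = 2 * q - hexPt q θ k := by
  rw [hexPt, hexPt, hexRot_pow_add]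
  simp only [show ((3 : Fin 6) : ℕ) = 3 from rfl, hexRot_pow_three]
  ring

lemma hexPt_shift (q : ℂ) (θ : ℝ) (k : Fin 6) :
    hexPt q (θ + Real.pi / 3) k = hexPt q θ (k + 1) := by
  rw [hexPt, hexPt, hexRot_pow_add, Complex.ofReal_add, add_mul, Complex.exp_add,
    show Complex.exp (((Real.pi / 3 : ℝ) : ℂ) * Complex.I) = hexRot from rfl]
  simp only [Fin.val_one, pow_one]
  ring

lemma continuous_hexPt (q : ℂ) (k : Fin 6) : Continuous fun θ : ℝ => hexPt q θ k := by
  unfold hexPt; fun_prop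

/-- The parity class of an admissible marking of the hexagon. -/
def hexClass (s : Fin 6 → Bool) : Fin 5 :=
  if s 0 && s 3 then 0 else if s 1 && s 4 then 1 else if s 2 && s 5 then 2
  else if s 0 || s 2 || s 4 then 3 else 4

/-- No two adjacent marks, no four consecutive blanks. -/
def hexValid (s : Fin 6 → Bool) : Bool :=
  decide (∀ k, (s k && s (k + 1)) = false) && decide (∀ k, (s k || s (k + 1) || s (k + 2) || s (k + 3)) = true)

lemma hexClass_mono : ∀ s t : Fin 6 → Bool, hexValid s = true → hexValid t = true →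
    (∀ k, s k = true → t k = true) → hexClass s = hexClass t := by
  decide +kernel

lemma hexClass_shift : ∀ s : Fin 6 → Bool, hexValid s = true →
    hexClass (fun k => s (k + 1)) ≠ hexClass s := by
  decide +kernel

namespace Cfg

variable (C : Cfg)

/-- Of four consecutive vertices of a generic hexagon about a four-point one has the fifth colour. -/
lemma four_consecutive {q : ℂ} {e : Fin 5} (he : e ∉ C.T q) (h4 : (C.T q).card = 4) (θ : ℝ)
    (hs : ∀ k, C.Slot q (hexPt q θ k)) (k : Fin 6) :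
    e ∈ C.T (hexPt q θ k) ∨ e ∈ C.T (hexPt q θ (k + 1)) ∨ e ∈ C.T (hexPt q θ (k + 2)) ∨
      e ∈ C.T (hexPt q θ (k + 3)) := by
  by_contra h
  push Not at h
  obtain ⟨h0, h1, h2, h3⟩ := h
  have hTq : C.T q = Finset.univ.erase e := erase_of_four_le h4.ge he
  have hpair : ∀ j, e ∉ C.T (hexPt q θ j) → C.T (hexPt q θ j) ⊆ C.T q ∧ (C.T (hexPt q θ j)).card = 2 := by
    intro j hj
    have hsub : C.T (hexPt q θ j) ⊆ C.T q := fun i hi => by
      rw [hTq]; exact Finset.mem_erase.2 ⟨fun h => hj (h ▸ hi), Finset.mem_univ i⟩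
    refine ⟨hsub, ?_⟩
    have h1 : (C.T (hexPt q θ j)).card ≠ 1 := fun h => by
      obtain ⟨i, hi⟩ := Finset.card_eq_one.1 h
      exact C.slot_single (hs j) hi (hsub (by simp [hi]))
    have := (hs j).2.1
    have := (C.T_nonempty (hexPt q θ j)).card_pos
    omega
  have hnext : ∀ j, e ∉ C.T (hexPt q θ j) → e ∉ C.T (hexPt q θ (j + 1)) →
      C.T (hexPt q θ (j + 1)) = C.T q \ C.T (hexPt q θ j) := by
    intro j hj hj'
    obtain ⟨a1, a2⟩ := hpair j hj
    obtain ⟨b1, b2⟩ := hpair _ hj'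
    refine Finset.eq_of_subset_of_card_le (fun i hi => Finset.mem_sdiff.2 ⟨b1 hi,
      Finset.disjoint_right.1 (C.slot_disjoint (hs j) (dist_hexPt q θ (j + 1))
        (by rw [dist_comm]; exact dist_hexPt_succ q θ j)) hi⟩) ?_
    rw [Finset.card_sdiff_of_subset a1, h4, a2, b2]
  have e1 := hnext k h0 h1
  have e2 := hnext (k + 1) h1 (by rw [add_assoc]; exact h2)
  have e3 := hnext (k + 2) h2 (by rw [add_assoc]; exact h3)
  rw [add_assoc] at e2 e3
  rw [show (1 + 1 : Fin 6) = 2 from rfl] at e2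
  rw [show (2 + 1 : Fin 6) = 3 from rfl] at e3
  refine C.slot_opp (hs k) (by rw [← hexPt_opp]; exact hs _) ?_
  rw [← hexPt_opp, e3, e2, e1]
  intro i hi
  by_cases hik : i ∈ C.T (hexPt q θ k)
  · exact Finset.mem_union_left _ hik
  · refine Finset.mem_union_right _ ?_
    simp [hi, hik]

/-- A four-point has two adjacent circle points both in the fifth closure and in three closures. -/
theorem exists_adjacent_missing {q : ℂ} (h4 : (C.T q).card = 4) {e : Fin 5} (he : e ∉ C.T q) :
    ∃ y z, dist q y = 1 ∧ dist q z = 1 ∧ dist y z = 1 ∧ e ∈ C.T y ∧ e ∈ C.T z ∧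
      3 ≤ (C.T y).card ∧ 3 ≤ (C.T z).card := by
  classical
  have key : ∀ y z, dist q y = 1 → dist q z = 1 → dist y z = 1 → e ∈ C.T y → e ∈ C.T z →
      3 ≤ (C.T y).card := by
    intro y z hy hz hyz hey hez
    by_contra hlt
    obtain ⟨j, hT⟩ : ∃ j, C.T y ⊆ {e, j} := by
      rcases Nat.lt_or_ge (C.T y).card 2 with h | h
      · obtain ⟨i, hi⟩ := Finset.card_eq_one.1
          (show (C.T y).card = 1 by have := (C.T_nonempty y).card_pos; omega)
        rw [hi, Finset.mem_singleton] at hey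
        exact ⟨e, by simp [hi, hey]⟩
      · obtain ⟨i, j, -, hij⟩ := Finset.card_eq_two.1 (show (C.T y).card = 2 by omega)
        rw [hij, Finset.mem_insert, Finset.mem_singleton] at hey
        rcases hey with rfl | rfl
        · exact ⟨j, hij.subset⟩
        · exact ⟨i, by rw [hij, Finset.pair_comm]⟩
    by_cases hje : j = e
    · exact C.dist_ne_one (C.interior_of_single (a := e) (by simpa [hje] using hT))
        (C.mem_T.1 hez) hyz
    · have hj : j ∈ C.T q := by rw [erase_of_four_le h4.ge he]; simp [hje]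
      obtain ⟨τ, hτ, hτ1, harc⟩ := C.arc_of_pair hy hT hj
      obtain ⟨s₁, hs₁, s₂, hs₂, l1, l2⟩ := triangle_cross z q y (by rw [dist_comm]; exact hz) hy
        (by rw [dist_comm]; exact hyz) hτ hτ1
      refine C.crossing (isPreconnected_Icc.image _ (continuous_arc q (y - q)).continuousOn) ?_
        ⟨s₁, hs₁, rfl⟩ ⟨s₂, hs₂, rfl⟩ l1 l2 (C.mem_T.1 hez)
      rintro _ ⟨t, ht, rfl⟩
      exact C.mem_T.1 (harc t ht)
  by_contra hno
  push Not at hno
  let s : ℝ → Fin 6 → Bool := fun θ k => decide (e ∈ C.T (hexPt q θ k))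
  have hlow : ∀ θ₀, ∀ᶠ θ in 𝓝 θ₀, ∀ k, s θ k = true → s θ₀ k = true := by
    intro θ₀
    refine eventually_all.2 fun k => ?_
    by_cases h : e ∈ C.T (hexPt q θ₀ k)
    · exact Eventually.of_forall fun θ _ => by simpa [s] using h
    · filter_upwards [((continuous_hexPt q k).tendsto θ₀).eventually (C.eventually_T_subset _)] with θ hθ hs
      exact absurd (hθ (by simpa [s] using hs)) h
  have hvalid : ∀ θ₀, hexValid (s θ₀) = true := by
    intro θ₀
    simp only [hexValid, Bool.and_eq_true, decide_eq_true_eq]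
    constructor
    · intro k
      by_contra hk
      simp [s] at hk
      obtain ⟨ha, hb⟩ := hk
      have d := dist_hexPt_succ q θ₀ k
      have := hno _ _ (dist_hexPt q θ₀ k) (dist_hexPt q θ₀ (k+1)) d ha hb
        (key _ _ (dist_hexPt q θ₀ k) (dist_hexPt q θ₀ (k+1)) d ha hb)
      have := key _ _ (dist_hexPt q θ₀ (k+1)) (dist_hexPt q θ₀ k) (by rw [dist_comm]; exact d) hb ha
      omega
    · intro k
      obtain ⟨η, hη, hη'⟩ := Metric.eventually_nhds_iff.1 (hlow θ₀)
      obtain ⟨θ, hθ, hgen⟩ := C.exists_generic (fun _ : Fin 6 => q) (fun k => hexRot ^ (k : ℕ))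
        (fun k => by simp [norm_hexRot]) θ₀ hη
      have up := hη' (y := θ) (by rwa [Real.dist_eq])
      have := C.four_consecutive he h4 θ hgen k
      simp only [Bool.or_eq_true]
      rcases this with h | h | h | h
      · exact Or.inl (Or.inl (Or.inl (up _ (by simpa [s] using h))))
      · exact Or.inl (Or.inl (Or.inr (up _ (by simpa [s] using h))))
      · exact Or.inl (Or.inr (up _ (by simpa [s] using h)))
      · exact Or.inr (up _ (by simpa [s] using h))
  have hlc : IsLocallyConstant fun θ => hexClass (s θ) := by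
    rw [IsLocallyConstant.iff_eventually_eq]
    intro θ₀
    filter_upwards [hlow θ₀] with θ hθ
    exact hexClass_mono _ _ (hvalid θ) (hvalid θ₀) hθ
  have heq := hlc.apply_eq_of_preconnectedSpace (Real.pi / 3) 0
  refine hexClass_shift _ (hvalid 0) ?_
  rw [← heq]
  congr 1
  funext k
  show decide (e ∈ C.T (hexPt q 0 (k + 1))) = decide (e ∈ C.T (hexPt q (Real.pi / 3) k))
  rw [show hexPt q (Real.pi / 3) k = hexPt q 0 (k + 1) by rw [← hexPt_shift, zero_add]]

/-- The circle about a five-point meets three closures somewhere. -/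
theorem exists_three_on_circle {q : ℂ} (hq : (C.T q).card = 5) :
    ∃ z, dist q z = 1 ∧ 3 ≤ (C.T z).card := by
  by_contra hno
  push Not at hno
  have hall : ∀ i, i ∈ C.T q := fun i => by
    rw [Finset.eq_univ_of_card _ (hq.trans (by simp))]; exact Finset.mem_univ i
  have htwo : ∀ z, dist q z = 1 → (C.T z).card = 2 := by
    intro z hz
    have h1 := hno z hz
    have h2 : (C.T z).card ≠ 1 := fun h => by
      obtain ⟨i, hi⟩ := Finset.card_eq_one.1 h
      exact C.dist_ne_one (C.interior_of_single hi.subset) (C.mem_T.1 (hall i))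
        (by rw [dist_comm]; exact hz)
    have := (C.T_nonempty z).card_pos
    omega
  have : PreconnectedSpace (sphere q 1) :=
    isPreconnected_iff_preconnectedSpace.1 (isPreconnected_sphere (by simp) q 1)
  have hlc : IsLocallyConstant fun z : sphere q 1 => C.T z := by
    rw [IsLocallyConstant.iff_eventually_eq]
    intro z
    have hd : ∀ w : sphere q 1, dist q w = 1 := fun w => by rw [dist_comm]; exact w.2
    filter_upwards [continuous_subtype_val.continuousAt.eventually (C.eventually_T_subset z)] with w hw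
    exact Finset.eq_of_subset_of_card_le hw (by rw [htwo _ (hd z), htwo _ (hd w)])
  have mem : ∀ z, dist q z = 1 → z ∈ sphere q 1 := fun z hz => by rw [mem_sphere, dist_comm]; exact hz
  have h01 := dist_hexPt_succ q 0 0
  have h0 := dist_hexPt q 0 0
  have h1 := dist_hexPt q 0 (0 + 1)
  have hslot : C.Slot q (hexPt q 0 0) := ⟨h0, (htwo _ h0).le, 1, one_pos, fun y hy _ =>
    hlc.apply_eq_of_preconnectedSpace ⟨y, mem y hy⟩ ⟨_, mem _ h0⟩⟩
  have hdis := C.slot_disjoint hslot h1 (by rw [dist_comm]; exact h01)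
  rw [show C.T (hexPt q 0 (0 + 1)) = C.T (hexPt q 0 0) from
    hlc.apply_eq_of_preconnectedSpace ⟨_, mem _ h1⟩ ⟨_, mem _ h0⟩, disjoint_self] at hdis
  obtain ⟨i, hi⟩ := C.T_nonempty (hexPt q 0 0)
  rw [hdis] at hi
  exact Finset.notMem_empty i hi

end Cfg

end Vale.Agent.P032Baire
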