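import Vale.Agent.P032Baire.Frame
import Vale.Agent.P032Baire.Parity

/-! No point lies in exactly four of the closures. -/

open Set Metric Filter Topology

namespace Vale.Agent.P032Baire

lemma final_cases : ∀ x : ℕ, [23, 27, 29, 30].contains x = true →
    ∃ c : Fin 5, (c : ℕ) < 4 ∧ (x, (c : ℕ)) ∈ [(23, 3), (27, 2), (29, 1), (30, 0)] ∧
      x.testBit c = false ∧ x < 32 ∧ Finite.card x = 4 := by
  intro x hx
  simp only [List.contains_eq_mem, List.mem_cons, List.not_mem_nil, or_false, decide_eq_true_eq] at hx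
  rcases hx with rfl | rfl | rfl | rfl
  · exact ⟨3, by decide⟩
  · exact ⟨2, by decide⟩
  · exact ⟨1, by decide⟩
  · exact ⟨0, by decide⟩

lemma eq_or_neg {u w : ℂ} (hu : ‖u‖ = 1) (hw : ‖w‖ = 1) (h : u.re * w.im - u.im * w.re = 0) :
    w = u ∨ w = -u := by
  have e1 := Complex.sq_norm u; rw [hu, Complex.normSq_apply] at e1
  have e2 := Complex.sq_norm w; rw [hw, Complex.normSq_apply] at e2
  have hd : (u.re * w.re + u.im * w.im - 1) * (u.re * w.re + u.im * w.im + 1) = 0 := by
    linear_combination -(w.re * w.re + w.im * w.im) * e1 - e2 - (u.re * w.im - u.im * w.re) * h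
  rcases mul_eq_zero.1 hd with hd | hd
  · left
    apply Complex.ext
    · linear_combination w.re * e1 + u.re * hd - u.im * h
    · linear_combination w.im * e1 + u.im * hd + u.re * h
  · right
    apply Complex.ext
    · simp; linear_combination w.re * e1 + u.re * hd - u.im * h
    · simp; linear_combination w.im * e1 + u.im * hd + u.re * h

namespace Cfg

variable (C : Cfg)

/-- What the final state of the four-closure certificate says. -/
theorem of_final_four {q u : ℂ} (hu : ‖u‖ = 1) {T : List ℕ} (hV : C.Valid q u T)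
    (hf : Finite.finalFour T = true) :
    ∃ c ∈ C.T q, (∀ p, dist q p = 1 → c ∉ C.T p) ∧
      ∃ h h', dist q h = 1 ∧ dist q h' = 1 ∧ dist h h' = 1 ∧ C.T h = C.T h' ∧ (C.T h).card = 4 := by
  simp only [Finite.finalFour, Bool.and_eq_true, beq_iff_eq, List.all_eq_true, List.mem_range] at hf
  obtain ⟨⟨h0, hx⟩, hall⟩ := hf
  set x := Finite.look T 1 with hx'
  obtain ⟨c, hc4, hmem, hxc, hx32, hxcard⟩ := final_cases x hx
  have hxne : x ≠ 0 := by rintro h; rw [h] at hxcard; exact absurd hxcard (by decide)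
  have hD : ∀ k < 6, C.Desc x (pos q u (k + 1)) := fun k hk => hall k hk ▸ hV.2 (k + 1) (by omega)
  have hT : ∀ k < 6, enc (C.T (pos q u (k + 1))) = x := fun k hk =>
    (hD k hk hxne).1.symm.trans (Nat.mod_eq_of_lt hx32)
  have hnot : ∀ k < 6, c ∉ C.T (pos q u (k + 1)) := fun k hk h => by
    have := testBit_enc (C.T (pos q u (k + 1))) c
    rw [hT k hk, hxc, decide_eq_true h] at this
    exact Bool.false_ne_true this
  have hcq : c ∈ C.T q := by
    have h15 := (h0 ▸ hV.2 0 (by norm_num) : C.Desc 15 (pos q u 0)) (by norm_num)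
    rw [pos_zero] at h15
    have := testBit_enc (C.T q) c
    rw [← h15.1] at this
    refine of_decide_eq_true (this.symm.trans ?_)
    clear this hxc hmem hnot
    revert hc4 c
    decide
  have hV' : C.Valid q u [15, x, x, x, x, x, x] := by
    refine ⟨rfl, fun a ha => ?_⟩
    interval_cases a
    · exact h0 ▸ hV.2 0 (by norm_num)
    all_goals first
      | exact hD 0 (by norm_num) | exact hD 1 (by norm_num) | exact hD 2 (by norm_num)
      | exact hD 3 (by norm_num) | exact hD 4 (by norm_num) | exact hD 5 (by norm_num)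
  have hall' : ∀ σ, Finite.Ok [15, x, x, x, x, x, x] σ → (σ 1 3).testBit c = true := by
    intro σ hσ
    by_contra h
    refine Finite.refute_sound (Finite.forcedFinal _ hmem) hσ fun a k => ?_
    by_cases he : a = 1 ∧ k = 3
    · obtain ⟨rfl, rfl⟩ := he
      simp only [Finite.extraOk]
      simpa using h
    · simp only [Finite.extraOk, Bool.not_eq_true', Bool.and_eq_false_iff, beq_eq_false_iff_ne]
      tauto
  have hd3 : dir u 3 = -u := by
    rw [dir, show lat (dx 3) (dy 3) = -1 from by apply Complex.ext <;> simp [lat, dx, dy, cx, cy]]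
    ring
  have hq : pos q u 1 + dir u 3 = q := by rw [hd3, pos_one]; ring
  refine ⟨c, hcq, fun p hp => ?_, pos q u (0 + 1), pos q u (1 + 1), dist_q_pos q hu (by norm_num),
    dist_q_pos q hu (by norm_num), dist_pos q hu (by decide),
    enc_inj' _ _ ((hT 0 (by norm_num)).trans (hT 1 (by norm_num)).symm),
    by rw [← card_enc, hT 0 (by norm_num), hxcard]⟩
  by_cases hX : (dir u 3).re * (p - q).im - (dir u 3).im * (p - q).re = 0
  · rw [hd3] at hX
    simp only [Complex.neg_re, Complex.neg_im] at hX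
    rcases eq_or_neg hu (w := p - q) (by rw [← dist_eq_norm, dist_comm]; exact hp) (by linarith) with h | h
    · rw [show p = pos q u (0 + 1) by rw [pos_one, ← h]; ring]; exact hnot 0 (by norm_num)
    · rw [show p = pos q u (3 + 1) by
        rw [pos, show lat (cx (3 + 1)) (cy (3 + 1)) = -1 from by
          apply Complex.ext <;> simp [lat, cx, cy], mul_neg_one, ← h]; ring]
      exact hnot 3 (by norm_num)
  · refine C.absent_of_forced hu hV' (a := 1) (k := 3) (by norm_num) hall' (p := p) ?_ ?_
    · rw [hq]; exact hp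
    · rw [hq]; exact hX

theorem four_local {q : ℂ} (hq : (C.T q).card = 4) :
    ∃ c ∈ C.T q, (∀ p, dist q p = 1 → c ∉ C.T p) ∧
      ∃ h h', dist q h = 1 ∧ dist q h' = 1 ∧ dist h h' = 1 ∧ C.T h = C.T h' ∧ (C.T h).card = 4 := by
  suffices key : ∀ (D : Cfg), (D.T q).card = 4 → (4 : Fin 5) ∉ D.T q →
      ∃ c ∈ D.T q, (∀ p, dist q p = 1 → c ∉ D.T p) ∧
        ∃ h h', dist q h = 1 ∧ dist q h' = 1 ∧ dist h h' = 1 ∧ D.T h = D.T h' ∧ (D.T h).card = 4 by
    obtain ⟨e, he⟩ : ∃ e, e ∉ C.T q := by
      by_contra h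
      push Not at h
      rw [Finset.eq_univ_of_forall h] at hq; simp at hq
    obtain ⟨c, hc, habs, h, h', d1, d2, d3, hh, hc4⟩ := key (C.relabel (Equiv.swap e 4)) (by simpa using hq)
      (by simpa using he)
    refine ⟨Equiv.swap e 4 c, by simpa using hc, fun p hp => by simpa using habs p hp, h, h', d1, d2, d3,
      ?_, by simpa using hc4⟩
    simpa [C.relabel_T] using hh
  intro D hq he
  obtain ⟨y, z, dy, dz, dyz, hey, hez, hy, hz⟩ := D.exists_adjacent_missing hq he
  obtain ⟨y, z, dy, dz, hey, hez, hy, hz, hzy⟩ : ∃ y z, dist q y = 1 ∧ dist q z = 1 ∧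
      (4 : Fin 5) ∈ D.T y ∧ (4 : Fin 5) ∈ D.T z ∧ 3 ≤ (D.T y).card ∧ 3 ≤ (D.T z).card ∧
      z = q + (y - q) * lat 0 1 := by
    rcases orient dy dz dyz with h | h
    · exact ⟨y, z, dy, dz, hey, hez, hy, hz, h⟩
    · exact ⟨z, y, dz, dy, hez, hey, hz, hy, h⟩
  set u := y - q with hu'
  have hu : ‖u‖ = 1 := by rw [hu', ← dist_eq_norm, dist_comm]; exact dy
  obtain ⟨a, hao, hda⟩ := D.covers_four y hy
  obtain ⟨b, hbo, hdb⟩ := D.covers_four z hz
  have h15 : D.Desc 15 q := by
    obtain ⟨v, hv, -, rfl | ⟨h3, -⟩⟩ := D.exists_desc (w := q) (by omega)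
    · rwa [show enc (D.T q) = 15 by
        rw [erase_of_four_le hq.ge he]; decide] at hv
    · omega
  have hV : D.Valid q u [15, a, b, 0, 0, 0, 0] :=
    D.valid_root h15 (by rwa [hu', add_sub_cancel]) (by rwa [← hzy])
  have bit : ∀ v w, v ∈ Finite.optsFour → D.Desc v w → (4 : Fin 5) ∈ D.T w → v.testBit 4 = true := by
    intro v w hv hd hw
    have hne : v ≠ 0 := by rintro rfl; revert hv; decide
    have : (Finite.mask v).testBit 4 = true := by
      rw [(hd hne).1]; exact (testBit_enc _ 4).trans (decide_eq_true hw)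
    rw [Finite.mask, show 32 = 2 ^ 5 from rfl, Nat.testBit_mod_two_pow] at this
    simpa using this
  have hlive := Finite.liveFour
  simp only [List.all_eq_true] at hlive
  have := hlive a hao b hbo
  rw [bit a y hao hda hey, bit b z hbo hdb hez, D.valid_bad hu hV, D.valid_flip hu hV] at this
  simp only [Bool.and_self, Bool.not_true, Bool.false_or, List.any_eq_true, Bool.and_eq_true,
    beq_iff_eq, List.contains_eq_mem, decide_eq_true_eq] at this
  obtain ⟨p, hp, hp4, hrep⟩ := this
  obtain ⟨s, hs⟩ := exists_perm hp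
  have hs4 : s.symm 4 = 4 := Fin.ext ((hs 4).symm.trans hp4)
  have h15' : (D.relabel s).Desc 15 q := by
    obtain ⟨v, hv, -, rfl | ⟨h3, -⟩⟩ := (D.relabel s).exists_desc (w := q) (by simp; omega)
    · rwa [show enc ((D.relabel s).T q) = 15 by
        rw [erase_of_four_le (A := (D.relabel s).T q) (i := 4) (by simpa using hq.ge)
          (by rw [Cfg.mem_relabel_T, show s 4 = 4 by rw [← hs4, Equiv.apply_symm_apply]; exact hs4.symm]
              exact he)]
        decide] at hv
    · simp at h3; omega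
  have hV' : (D.relabel s).Valid q u [15, Finite.permCode p a, Finite.permCode p b, 0, 0, 0, 0] :=
    (D.relabel s).valid_root h15' (D.desc_relabel hs (by rwa [hu', add_sub_cancel]))
      (D.desc_relabel hs (by rwa [← hzy]))
  obtain ⟨T, hT, hfin⟩ := (D.relabel s).run Finite.checkFour (D.relabel s).covers_four hu hrep hV'
  obtain ⟨c, hc, habs, h, h', d1, d2, d3, hh, hc4⟩ := (D.relabel s).of_final_four hu hT hfin
  exact ⟨s c, by simpa using hc, fun r hr => by simpa using habs r hr, h, h', d1, d2, d3,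
    by simpa [D.relabel_T] using hh, by simpa using hc4⟩

theorem card_T_ne_four (q : ℂ) : (C.T q).card ≠ 4 := by
  intro hq
  obtain ⟨-, -, -, h, h', -, -, hhh, heq, h4⟩ := C.four_local hq
  obtain ⟨c, hc, habs, -⟩ := C.four_local h4
  exact habs h' hhh (heq ▸ hc)

end Cfg

end Vale.Agent.P032Baire
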