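import Vale.Agent.P032Baire.Frame
import Vale.Agent.P032Baire.Four
import Vale.Agent.P032Baire.FiveTriangle

/-! No point lies in all five closures; so none lies in more than three. -/

open Set Metric Filter Topology

namespace Vale.Agent.P032Baire

namespace Cfg

variable (C : Cfg)

theorem false_of_final_five {q u : ℂ} (hu : ‖u‖ = 1) {T : List ℕ} (hV : C.Valid q u T)
    (hf : Finite.finalFive T = true) : False := by
  simp only [Finite.finalFive, Bool.and_eq_true, beq_iff_eq, List.any_eq_true, List.all_eq_true,
    List.mem_range, decide_eq_true_eq] at hf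
  obtain ⟨h0, o, -, ⟨ht, hc⟩, hall⟩ := hf
  have card_of : ∀ a < 7, ∀ t < 32, t ≠ 0 → Finite.look T a = t →
      (C.T (pos q u a)).card = Finite.card t := by
    intro a ha t ht hne e
    rw [← card_enc, ← ((e ▸ hV.2 a ha : C.Desc t (pos q u a)) hne).1, Finite.mask, Nat.mod_eq_of_lt ht]
  have hq := card_of 0 (by norm_num) 31 (by norm_num) (by norm_num) h0
  rw [pos_zero] at hq
  set t := Finite.look T (if o then 2 else 1)
  have htne : t ≠ 0 := by rintro h; rw [h] at hc; exact absurd hc (by decide)
  have e1 := hall 0 (by norm_num)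
  have e2 := hall 1 (by norm_num)
  have d1 := dist_q_pos q hu (show 0 < 6 by norm_num)
  have d2 := dist_q_pos q hu (show 1 < 6 by norm_num)
  have d12 : dist (pos q u (0 + 1)) (pos q u (1 + 1)) = 1 := dist_pos q hu (by decide)
  cases o
  · simp at e1 e2
    exact C.no_five_triangle d1 d2 d12 hq
      (card_of _ (by norm_num) 31 (by norm_num) (by norm_num) e2)
      ((card_of _ (by norm_num) t ht htne e1).trans hc)
  · simp at e1 e2
    exact C.no_five_triangle d2 d1 (by rw [dist_comm]; exact d12) hq
      (card_of _ (by norm_num) 31 (by norm_num) (by norm_num) e1)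
      ((card_of _ (by norm_num) t ht htne e2).trans hc)

theorem card_T_ne_five (q : ℂ) : (C.T q).card ≠ 5 := by
  intro hq
  obtain ⟨y, dy, hy⟩ := C.exists_three_on_circle hq
  set u := y - q with hu'
  have hu : ‖u‖ = 1 := by rw [hu', ← dist_eq_norm, dist_comm]; exact dy
  have hy' : q + u = y := by rw [hu']; ring
  set z := q + u * lat 0 1 with hz'
  have dz : dist q z = 1 := by simp [hz', hu, norm_lat (x := 0) (y := 1) (by decide)]
  have dyz : dist y z = 1 := by
    have := dist_pos q hu (a := 1) (b := 2) (by decide)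
    rwa [pos_one, hy'] at this
  have hz : 3 ≤ (C.T z).card := by
    by_cases h3 : (C.T y).card = 3
    · exact C.five_neighbour dy dz dyz hq h3
    · by_contra hlt
      have := (C.rich_neighbour dy dz dyz (by omega) (by omega) (by omega)).2
      omega
  obtain ⟨a, hao, hda⟩ := C.covers_five C.card_T_ne_four y hy
  obtain ⟨b, hbo, hdb⟩ := C.covers_five C.card_T_ne_four z hz
  have h31 : ∀ D : Cfg, (D.T q).card = 5 → D.Desc 31 q := by
    intro D hD
    obtain ⟨v, hv, -, rfl | ⟨h3, -⟩⟩ := D.exists_desc (w := q) (by omega)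
    · rwa [show enc (D.T q) = 31 by rw [Finset.eq_univ_of_card _ (hD.trans (by simp))]; decide] at hv
    · omega
  have hV : C.Valid q u [31, a, b, 0, 0, 0, 0] := C.valid_root (h31 C hq) (by rwa [hy']) hdb
  have hlive := Finite.liveFive
  simp only [List.all_eq_true] at hlive
  have := hlive a hao b hbo
  rw [C.valid_bad hu hV, C.valid_flip hu hV] at this
  simp only [Bool.false_or, List.any_eq_true, List.contains_eq_mem, decide_eq_true_eq] at this
  obtain ⟨p, hp, hrep⟩ := this
  obtain ⟨s, hs⟩ := exists_perm hp
  obtain ⟨T, hT, hfin⟩ := (C.relabel s).run Finite.checkFive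
    ((C.relabel s).covers_five (C.relabel s).card_T_ne_four) hu hrep
    ((C.relabel s).valid_root (h31 _ (by simpa using hq)) (C.desc_relabel hs (by rwa [hy']))
      (C.desc_relabel hs hdb))
  exact (C.relabel s).false_of_final_five hu hT hfin

theorem card_T_le_three (q : ℂ) : (C.T q).card ≤ 3 := by
  have h1 := C.card_T_ne_four q
  have h2 := C.card_T_ne_five q
  have h3 : (C.T q).card ≤ 5 := (Finset.card_le_univ _).trans (by simp)
  omega

end Cfg

end Vale.Agent.P032Baire
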