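import Vale.Agent.P032Baire.Config

open Set Metric Filter Topology

namespace Vale.Agent.P032Baire

/-- In a totally disconnected compact set, a compact part has an open neighbourhood inside a given
one whose frontier misses the set. -/
lemma exists_frontier_avoiding (K W O : Set ℂ) (hK : IsCompact K) (hKd : IsTotallyDisconnected K)
    (hWK : W ⊆ K) (hW : IsCompact W) (hO : IsOpen O) (hWO : W ⊆ O) :
    ∃ V, IsOpen V ∧ W ⊆ V ∧ closure V ⊆ O ∧ ∀ z ∈ closure V, z ∈ K → z ∈ V := by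
  have : CompactSpace K := isCompact_iff_compactSpace.1 hK
  have : TotallyDisconnectedSpace K := totallyDisconnectedSpace_subtype_iff.2 hKd
  have hOK : IsOpen (Subtype.val ⁻¹' O : Set K) := hO.preimage continuous_subtype_val
  have step : ∀ x : K, (x : ℂ) ∈ W → ∃ S : Set K, IsClopen S ∧ x ∈ S ∧ S ⊆ Subtype.val ⁻¹' O :=
    fun x hx => compact_exists_isClopen_in_isOpen hOK (hWO hx)
  choose S hS hxS hSO using step
  have hWc : IsCompact (Subtype.val ⁻¹' W : Set K) :=
    hW.isClosed.preimage continuous_subtype_val |>.isCompact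
  obtain ⟨t, ht⟩ := hWc.elim_finite_subcover (fun x : {x : K // (x : ℂ) ∈ W} => S x.1 x.2)
    (fun x => (hS _ _).2) (fun x hx => mem_iUnion.2 ⟨⟨x, hx⟩, hxS _ _⟩)
  set S0 : Set K := ⋃ x ∈ t, S x.1 x.2
  have hS0 : IsClopen S0 := isClopen_biUnion_finset fun x _ => hS _ _
  set A : Set ℂ := Subtype.val '' S0
  set B : Set ℂ := Subtype.val '' S0ᶜ
  have hA : IsCompact A := hS0.1.isCompact.image continuous_subtype_val
  have hB : IsCompact B := hS0.compl.1.isCompact.image continuous_subtype_val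
  have hAB : Disjoint A B := (disjoint_image_iff Subtype.val_injective).2 disjoint_compl_right
  have hAO : A ⊆ O := by
    rintro _ ⟨x, hx, rfl⟩
    obtain ⟨y, hy, hxy⟩ := mem_iUnion₂.1 hx
    exact hSO _ _ hxy
  obtain ⟨r₁, hr₁, hd⟩ := hAB.exists_cthickenings hA hB.isClosed
  obtain ⟨r₂, hr₂, hsub⟩ := hA.exists_cthickening_subset_open hO hAO
  refine ⟨thickening (min r₁ r₂) A, isOpen_thickening, ?_, ?_, ?_⟩
  · intro x hx
    have hxS : (⟨x, hWK hx⟩ : K) ∈ S0 := by
      obtain ⟨y, hy, hxy⟩ := mem_iUnion₂.1 (ht (show (⟨x, hWK hx⟩ : K) ∈ (Subtype.val ⁻¹' W : Set K) from hx))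
      exact mem_iUnion₂.2 ⟨y, hy, hxy⟩
    have hxA : x ∈ A := ⟨_, hxS, rfl⟩
    exact self_subset_thickening (lt_min hr₁ hr₂) A hxA
  · exact (closure_thickening_subset_cthickening _ _).trans
      ((cthickening_mono (min_le_right _ _) _).trans hsub)
  · intro z hz hzK
    by_cases h : (⟨z, hzK⟩ : K) ∈ S0
    · exact self_subset_thickening (lt_min hr₁ hr₂) A (show z ∈ A from ⟨_, h, rfl⟩)
    · exact absurd (self_subset_cthickening B (show z ∈ B from ⟨⟨z, hzK⟩, h, rfl⟩)) (disjoint_left.1 hd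
        (cthickening_mono (min_le_left _ _) _ (closure_thickening_subset_cthickening _ _ hz)))

lemma exists_common_radius {ι : Type*} [Finite ι] (P : ι → Set ℂ) (hP : ∀ k, IsCompact (P k))
    (hd : ∀ k l, k ≠ l → Disjoint (P k) (P l)) :
    ∃ r > 0, ∀ k l, k ≠ l → Disjoint (cthickening r (P k)) (cthickening r (P l)) := by
  have : ∀ t : {t : ι × ι // t.1 ≠ t.2}, ∃ r > 0,
      Disjoint (cthickening r (P t.1.1)) (cthickening r (P t.1.2)) :=
    fun t => (hd _ _ t.2).exists_cthickenings (hP _) (hP _).isClosed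
  choose r hr hdr using this
  rcases isEmpty_or_nonempty {t : ι × ι // t.1 ≠ t.2} with h | h
  · exact ⟨1, one_pos, fun k l hkl => (h.false ⟨(k, l), hkl⟩).elim⟩
  obtain ⟨t0, ht0⟩ := Finite.exists_min r
  exact ⟨r t0, hr t0, fun k l hkl => (hdr ⟨(k, l), hkl⟩).mono
    (cthickening_mono (ht0 ⟨(k, l), hkl⟩) _) (cthickening_mono (ht0 ⟨(k, l), hkl⟩) _)⟩

theorem Config.false (C : Config) : False := by
  classical
  set D : Set ℂ := closedBall (0:ℂ) 8
  have hD : IsCompact D := isCompact_closedBall _ _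
  set Q : Set ℂ := D ∩ {x | 3 ≤ (C.T x).card}
  have hQ : IsCompact Q := by
    refine hD.inter_right ?_
    rw [← isOpen_compl_iff, isOpen_iff_mem_nhds]
    intro x hx
    simp only [mem_compl_iff, mem_ofPred_eq, not_le] at hx
    filter_upwards [C.eventually_T_subset x] with y hy
    simp only [mem_compl_iff, mem_ofPred_eq, not_le]
    exact (Finset.card_le_card hy).trans_lt hx
  -- local data at the points in three closures
  have data : ∀ q ∈ Q, ∃ (a b c : Fin 5) (δ : ℝ), 0 < δ ∧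
      IsTotallyDisconnected (C.F a ∩ C.F b ∩ closedBall q δ) ∧
      (∀ y ∈ closedBall q δ, C.T y ⊆ {a, b, c}) ∧
      (∀ y ∈ closedBall q δ, 3 ≤ (C.T y).card → y ∈ C.F a ∧ y ∈ C.F b ∧ y ∈ C.F c) := by
    intro q hq
    have hcard : (C.T q).card = 3 := le_antisymm (C.card_T q) hq.2
    obtain ⟨a, b, hbad⟩ := C.exists_bad hcard
    obtain ⟨δ₁, hδ₁, htd⟩ := C.bad_totally_disconnected hbad
    obtain ⟨δ₂, hδ₂, hT⟩ := C.exists_T_ball q
    obtain ⟨hab, ha, hb, -⟩ := hbad
    obtain ⟨c, hc⟩ : ((C.T q).erase a |>.erase b).Nonempty := by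
      rw [← Finset.card_pos, Finset.card_erase_of_mem (Finset.mem_erase.2 ⟨hab.symm, hb⟩),
        Finset.card_erase_of_mem ha, hcard]
      norm_num
    simp only [Finset.mem_erase] at hc
    have hTq : C.T q = {a, b, c} := by
      refine (Finset.eq_of_subset_of_card_le (by simp [Finset.insert_subset_iff, ha, hb, hc.2.2]) ?_).symm
      rw [hcard, Finset.card_insert_of_notMem (by simp [hab, Ne.symm hc.2.1]),
        Finset.card_insert_of_notMem (by simp [Ne.symm hc.1]), Finset.card_singleton]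
    have hsub : ∀ y ∈ closedBall q (min δ₁ (δ₂/2)), C.T y ⊆ C.T q := fun y hy =>
      hT y (lt_of_le_of_lt ((mem_closedBall.1 hy).trans (min_le_right _ _)) (by linarith))
    refine ⟨a, b, c, min δ₁ (δ₂/2), lt_min hδ₁ (by linarith), fun K hK => htd K (hK.trans
      (inter_subset_inter_right _ (closedBall_subset_closedBall (min_le_left _ _)))),
      fun y hy => hTq ▸ hsub y hy, fun y hy h3 => ?_⟩
    have : C.T y = C.T q := Finset.eq_of_subset_of_card_le (hsub y hy) (by omega)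
    exact ⟨C.mem_T.1 (this ▸ ha), C.mem_T.1 (this ▸ hb), C.mem_T.1 (this ▸ hc.2.2)⟩
  choose ca cb cc cδ hδ htd hTsub hin using data
  let Kf : ∀ q, q ∈ Q → Set ℂ := fun q hq => C.F (ca q hq) ∩ C.F (cb q hq) ∩ closedBall q (cδ q hq)
  have hKc : ∀ q hq, IsCompact (Kf q hq) := fun q hq =>
    (isCompact_closedBall q _).inter_left ((C.isClosed_F _).inter (C.isClosed_F _))
  have hQK : ∀ q hq, ∀ y ∈ Q, y ∈ closedBall q (cδ q hq) → y ∈ Kf q hq := fun q hq y hy hyb =>
    ⟨⟨(hin q hq y hyb hy.2).1, (hin q hq y hyb hy.2).2.1⟩, hyb⟩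
  have nb : ∀ q hq, ∃ V, IsOpen V ∧ q ∈ V ∧ closure V ⊆ ball q (cδ q hq) ∧
      ∀ z ∈ closure V, z ∈ Kf q hq → z ∈ V := by
    intro q hq
    obtain ⟨V, h1, h2, h3, h4⟩ := exists_frontier_avoiding _ {q} (ball q (cδ q hq)) (hKc q hq)
      (htd q hq) (singleton_subset_iff.2 (hQK q hq q hq (mem_closedBall_self (hδ q hq).le)))
      isCompact_singleton isOpen_ball (singleton_subset_iff.2 (mem_ball_self (hδ q hq)))
    exact ⟨V, h1, h2 rfl, h3, h4⟩
  choose N hNo hqN hNb hNK using nb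
  obtain ⟨t, ht⟩ := hQ.elim_finite_subcover (fun q : Q => N q.1 q.2) (fun q => hNo _ _)
    (fun q hq => mem_iUnion.2 ⟨⟨q, hq⟩, hqN q hq⟩)
  let e := t.equivFin
  let qk : Fin t.card → Q := fun k => (e.symm k).1
  let Nk : Fin t.card → Set ℂ := fun k => N (qk k).1 (qk k).2
  let W : Fin t.card → Set ℂ := fun k => (Q ∩ closure (Nk k)) ∩ ⋂ j, ⋂ (_ : j < k), (Nk j)ᶜ
  have hWc : ∀ k, IsCompact (W k) := fun k =>
    (hQ.inter_right isClosed_closure).inter_right
      (isClosed_biInter fun j _ => (hNo _ _).isClosed_compl)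
  have hWN : ∀ k, W k ⊆ Nk k := by
    rintro k z ⟨⟨hzQ, hzc⟩, -⟩
    exact hNK _ _ z hzc (hQK _ _ z hzQ (ball_subset_closedBall (hNb _ _ hzc)))
  have hWd : ∀ k l, k ≠ l → Disjoint (W k) (W l) := by
    intro k l hkl
    rw [disjoint_left]
    intro z hk hl
    rcases lt_or_gt_of_ne hkl with h | h
    · exact (mem_iInter₂.1 hl.2 k h) (hWN k hk)
    · exact (mem_iInter₂.1 hk.2 l h) (hWN l hl)
  have hWcov : ∀ z ∈ Q, ∃ k, z ∈ W k := by
    intro z hz
    obtain ⟨q, hqt, hzq⟩ := mem_iUnion₂.1 (ht hz)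
    have hne : (Finset.univ.filter fun k => z ∈ Nk k).Nonempty :=
      ⟨e ⟨q, hqt⟩, Finset.mem_filter.2 ⟨Finset.mem_univ _, by
        show z ∈ (fun x : t => N x.1.1 x.1.2) (e.symm (e ⟨q, hqt⟩))
        rw [Equiv.symm_apply_apply]; exact hzq⟩⟩
    refine ⟨Finset.min' _ hne, ⟨hz, subset_closure ?_⟩, ?_⟩
    · exact (Finset.mem_filter.1 (Finset.min'_mem _ hne)).2
    · simp only [mem_iInter, mem_compl_iff]
      intro j hj hzj
      exact absurd (Finset.min'_le _ j (Finset.mem_filter.2 ⟨Finset.mem_univ _, hzj⟩)) (not_le.2 hj)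
  -- pieces of the five closed sets
  have pcs : ∀ i : Fin 5, ∃ (n : ℕ) (P : Fin n → Set ℂ), (∀ k, IsCompact (P k)) ∧
      C.F i ∩ D = ⋃ k, P k ∧ (∀ k l, k ≠ l → Disjoint (P k) (P l)) ∧
      (∀ k, ∀ x ∈ P k, ∀ y ∈ P k, dist x y ≤ (1:ℝ) + 1) := fun i =>
    exists_pieces _ (hD.inter_left (C.isClosed_F i)) 1
      (fun S hS hc => C.diam_le hc (hS.trans inter_subset_left))
  choose n P hPc hPu hPd hPdiam using pcs
  obtain ⟨r₀, hr₀, hWr⟩ := exists_common_radius W hWc hWd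
  have hrP : ∀ i, ∃ r > 0, ∀ k l, k ≠ l → Disjoint (cthickening r (P i k)) (cthickening r (P i l)) :=
    fun i => exists_common_radius _ (hPc i) (hPd i)
  choose rP hrP0 hrPd using hrP
  obtain ⟨i0, hi0⟩ := Finite.exists_min rP
  obtain ⟨r, hr, hrr0, hrrP, hr1⟩ : ∃ r : ℝ, 0 < r ∧ r ≤ r₀ ∧ (∀ i, r ≤ rP i) ∧ r ≤ 1/2 :=
    ⟨min r₀ (min (rP i0) (1/2)), lt_min hr₀ (lt_min (hrP0 i0) (by norm_num)), min_le_left _ _,
      fun i => (min_le_right _ _).trans ((min_le_left _ _).trans (hi0 i)),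
      (min_le_right _ _).trans (min_le_right _ _)⟩
  let qa : Fin t.card → Fin 5 := fun k => ca (qk k).1 (qk k).2
  let qb : Fin t.card → Fin 5 := fun k => cb (qk k).1 (qk k).2
  let qc : Fin t.card → Fin 5 := fun k => cc (qk k).1 (qk k).2
  let qB : Fin t.card → Set ℂ := fun k => ball (qk k).1 (cδ (qk k).1 (qk k).2)
  have hWB : ∀ k, W k ⊆ qB k := fun k z hz => hNb _ _ hz.1.2
  have vs : ∀ k, ∃ V, IsOpen V ∧ W k ⊆ V ∧ closure V ⊆ thickening r (W k) ∩ qB k ∧
      ∀ z ∈ closure V, z ∈ Kf (qk k).1 (qk k).2 → z ∈ V := fun k =>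
    exists_frontier_avoiding _ _ _ (hKc _ _) (htd _ _)
      (fun z hz => hQK _ _ z hz.1.1 (ball_subset_closedBall (hWB k hz))) (hWc k)
      (isOpen_thickening.inter isOpen_ball)
      (fun z hz => ⟨self_subset_thickening hr _ hz, hWB k hz⟩)
  choose V hVo hWV hVb hVK using vs
  have hVone : ∀ k l z, z ∈ closure (V k) → z ∈ closure (V l) → k = l := by
    intro k l z hk hl
    by_contra hkl
    exact disjoint_left.1 (hWr k l hkl)
      (cthickening_mono hrr0 _ (thickening_subset_cthickening _ _ (hVb k hk).1))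
      (cthickening_mono hrr0 _ (thickening_subset_cthickening _ _ (hVb l hl).1))
  let ι := Σ i : Fin 5, Fin (n i)
  let P' : ι → Set ℂ := fun t => (P t.1 t.2 \ ⋃ k, V k) ∪
    ((cthickening r (P t.1 t.2)) ∩ ⋃ k ∈ (Finset.univ.filter fun k => qc k = t.1), closure (V k))
  have hP'near : ∀ t, P' t ⊆ cthickening r (P t.1 t.2) := by
    rintro t z (hz | hz)
    · exact self_subset_cthickening _ hz.1
    · exact hz.1
  have hP'c : ∀ t, IsCompact (P' t) := fun t =>
    ((hPc _ _).diff (isOpen_iUnion hVo)).union ((hPc _ _).cthickening.inter_right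
      (isClosed_biUnion_finset fun k _ => isClosed_closure))
  refine no_order_two_cover P' hP'c (D := 3) (R := 8) ?_ (by norm_num) (by norm_num) ?_ ?_
  · intro t x hx y hy
    have hx' := hP'near t hx
    have hy' := hP'near t hy
    rw [(hPc _ _).cthickening_eq_biUnion_closedBall hr.le] at hx' hy'
    obtain ⟨x₁, hx₁, dx⟩ := mem_iUnion₂.1 hx'
    obtain ⟨y₁, hy₁, dy⟩ := mem_iUnion₂.1 hy'
    rw [mem_closedBall] at dx dy
    rw [dist_comm] at dy
    linarith [dist_triangle4 x x₁ y₁ y, hPdiam _ _ x₁ hx₁ y₁ hy₁]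
  · intro z hz
    by_cases hV : ∃ k, z ∈ V k
    · obtain ⟨k, hk⟩ := hV
      obtain ⟨w, hw, hzw⟩ := mem_thickening_iff.1 (hVb k (subset_closure hk)).1
      have hwF : w ∈ C.F (qc k) ∩ D :=
        ⟨(hin _ _ w (ball_subset_closedBall (hWB k hw)) hw.1.1.2).2.2, hw.1.1.1⟩
      rw [hPu] at hwF
      obtain ⟨m, hm⟩ := mem_iUnion.1 hwF
      exact mem_iUnion.2 ⟨⟨qc k, m⟩, Or.inr ⟨mem_cthickening_of_dist_le z w r _ hm hzw.le,
        mem_iUnion₂.2 ⟨k, by simp, subset_closure hk⟩⟩⟩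
    · obtain ⟨i, hi⟩ := C.cover z
      have : z ∈ C.F i ∩ D := ⟨hi, hz⟩
      rw [hPu] at this
      obtain ⟨m, hm⟩ := mem_iUnion.1 this
      exact mem_iUnion.2 ⟨⟨i, m⟩, Or.inl ⟨hm, fun h => hV (mem_iUnion.1 h)⟩⟩
  · rintro ⟨i, u⟩ ⟨j, v⟩ ⟨l, w⟩ h1 h2 h3 z ⟨hu, hv, hw⟩
    have same : ∀ (i : Fin 5) (u v : Fin (n i)), z ∈ P' ⟨i, u⟩ → z ∈ P' ⟨i, v⟩ → u = v := by
      intro i u v hu hv
      by_contra huv
      exact disjoint_left.1 (hrPd i u v huv) (cthickening_mono (hrrP i) _ (hP'near ⟨i, u⟩ hu))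
        (cthickening_mono (hrrP i) _ (hP'near ⟨i, v⟩ hv))
    have hij : i ≠ j := by rintro rfl; exact h1 (by rw [same i u v hu hv])
    have hjl : j ≠ l := by rintro rfl; exact h2 (by rw [same j v w hv hw])
    have hil : i ≠ l := by rintro rfl; exact h3 (by rw [same i u w hu hw])
    have kind : ∀ t, z ∈ P' t → (z ∈ C.F t.1 ∧ z ∈ D ∧ ∀ k, z ∉ V k) ∨
        ∃ k, qc k = t.1 ∧ z ∈ closure (V k) := by
      rintro t (⟨hm, hn⟩ | ⟨-, hm⟩)
      · have : z ∈ C.F t.1 ∩ D := by rw [hPu]; exact mem_iUnion.2 ⟨_, hm⟩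
        exact Or.inl ⟨this.1, this.2, fun k hk => hn (mem_iUnion.2 ⟨k, hk⟩)⟩
      · obtain ⟨k, hk, hzk⟩ := mem_iUnion₂.1 hm
        exact Or.inr ⟨k, (Finset.mem_filter.1 hk).2, hzk⟩
    have h3card : ({i, j, l} : Finset (Fin 5)).card = 3 := by
      rw [Finset.card_insert_of_notMem (by simp [hij, hil]),
        Finset.card_insert_of_notMem (by simp [hjl]), Finset.card_singleton]
    by_cases hV : ∃ k, z ∈ closure (V k)
    · obtain ⟨k, hk⟩ := hV
      have hzb : z ∈ closedBall (qk k).1 (cδ (qk k).1 (qk k).2) := ball_subset_closedBall (hVb k hk).2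
      have colour : ∀ t, z ∈ P' t → (z ∈ C.F t.1 ∧ z ∉ V k) ∨ t.1 = qc k := by
        intro t ht
        rcases kind t ht with ⟨h, -, hn⟩ | ⟨k', hk', hzk'⟩
        · exact Or.inl ⟨h, hn k⟩
        · exact Or.inr (by rw [← hk', hVone k' k z hzk' hk])
      have hmem : ∀ m ∈ ({i, j, l} : Finset (Fin 5)),
          (z ∈ C.F m ∧ z ∉ V k) ∨ m = qc k := by
        intro m hm
        simp only [Finset.mem_insert, Finset.mem_singleton] at hm
        rcases hm with rfl | rfl | rfl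
        · exact colour _ hu
        · exact colour _ hv
        · exact colour _ hw
      have hsub : ({i, j, l} : Finset (Fin 5)) ⊆ {qa k, qb k, qc k} := by
        intro m hm
        rcases hmem m hm with h | rfl
        · exact hTsub _ _ z hzb (C.mem_T.2 h.1)
        · simp
      have heq := Finset.eq_of_subset_of_card_le hsub (h3card ▸ Finset.card_le_three)
      have hne : qa k ≠ qc k ∧ qb k ≠ qc k := by
        have h3' : ({qa k, qb k, qc k} : Finset (Fin 5)).card = 3 := heq ▸ h3card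
        constructor <;> intro e <;> rw [e] at h3' <;>
          simp at h3' <;>
          exact absurd h3' (Nat.ne_of_lt (Finset.card_le_two.trans_lt (by norm_num)))
      have ha := (hmem (qa k) (heq ▸ by simp)).resolve_right hne.1
      have hb := (hmem (qb k) (heq ▸ by simp)).resolve_right hne.2
      exact ha.2 (hVK k z hk ⟨⟨ha.1, hb.1⟩, hzb⟩)
    · have first : ∀ t, z ∈ P' t → z ∈ C.F t.1 ∧ z ∈ D := by
        intro t ht
        rcases kind t ht with ⟨h, hd, -⟩ | ⟨k, -, hk⟩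
        · exact ⟨h, hd⟩
        · exact absurd ⟨k, hk⟩ hV
      have hsub : ({i, j, l} : Finset (Fin 5)) ⊆ C.T z := by
        intro m hm
        simp only [Finset.mem_insert, Finset.mem_singleton] at hm
        rcases hm with rfl | rfl | rfl
        · exact C.mem_T.2 (first _ hu).1
        · exact C.mem_T.2 (first _ hv).1
        · exact C.mem_T.2 (first _ hw).1
      have hzQ : z ∈ Q := ⟨(first _ hu).2, h3card ▸ Finset.card_le_card hsub⟩
      obtain ⟨k, hk⟩ := hWcov z hzQ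
      exact hV ⟨k, subset_closure (hWV k hk)⟩

end Vale.Agent.P032Baire
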