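import Vale.Agent.P032Baire.Base
import Vale.Agent.P032Baire.Global

/-!
Relabelling of configurations, and the reduction of colourings with Baire-property classes.
-/

open Set Metric Filter Topology

namespace Vale.Agent.P032Baire

namespace Cfg

variable (C : Cfg)

/-- The configuration with the colours renamed by `s`. -/
def relabel (s : Equiv.Perm (Fin 5)) : Cfg where
  U i := C.U (s i)
  isOpen i := C.isOpen (s i)
  disj i j hij := C.disj _ _ (s.injective.ne hij)
  dense := by
    rw [show (⋃ i, C.U (s i)) = ⋃ i, C.U i from s.surjective.iUnion_comp C.U]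
    exact C.dense
  avoid i := C.avoid (s i)

@[simp] lemma mem_relabel_T {s : Equiv.Perm (Fin 5)} {x : ℂ} {i : Fin 5} :
    i ∈ (C.relabel s).T x ↔ s i ∈ C.T x := by
  rw [Cfg.mem_T, Cfg.mem_T]; rfl

@[simp] lemma card_relabel_T (s : Equiv.Perm (Fin 5)) (x : ℂ) :
    ((C.relabel s).T x).card = (C.T x).card := by
  rw [← Finset.card_map s.toEmbedding]
  congr 1
  ext i
  simp only [Finset.mem_map_equiv, mem_relabel_T, Equiv.apply_symm_apply]

end Cfg

private lemma translate_meagre {s : Set ℂ} (hs : IsMeagre s) (v : ℂ) : IsMeagre ((· + v) ⁻¹' s) :=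
  hs.preimage_of_isOpenMap (by fun_prop) (Homeomorph.addRight v).isOpenMap

private lemma five_classes (G : Set ℂ) (hG : G ∈ residual ℂ) (c : ℂ → Fin 5)
    (hproper : ∀ x ∈ G, ∀ y ∈ G, dist x y = 1 → c x ≠ c y)
    (hBaire : ∀ i, BaireMeasurableSet (c ⁻¹' {i}))
    (h : ∀ (C : Cfg) x, (C.T x).card ≤ 3) : False := by
  choose U hU heq using fun i => (hBaire i).residualEq_isOpen
  have hm : ∀ i, IsMeagre (U i \ c ⁻¹' {i}) ∧ IsMeagre (c ⁻¹' {i} \ U i) := by
    intro i
    have h := heq i
    constructor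
    · show _ ∈ residual ℂ
      filter_upwards [h.mem_iff] with x hx
      rintro ⟨h1, h2⟩; exact h2 (hx.2 h1)
    · show _ ∈ residual ℂ
      filter_upwards [h.mem_iff] with x hx
      rintro ⟨h1, h2⟩; exact h2 (hx.1 h1)
  have key : ∀ i (W : Set ℂ), IsOpen W → W.Nonempty → W ⊆ U i → ¬ IsMeagre (W ∩ c ⁻¹' {i}) := by
    intro i W hW hne hWU h
    apply not_isMeagre_of_isOpen hW hne
    refine (h.union (hm i).1).mono ?_
    intro x hx
    by_cases hc : x ∈ c ⁻¹' {i}
    · exact Or.inl ⟨hx, hc⟩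
    · exact Or.inr ⟨hWU hx, hc⟩
  have C : {C : Cfg // C.U = U} := by
    refine ⟨{ U := U, isOpen := hU, disj := ?_, dense := ?_, avoid := ?_ }, rfl⟩
    · intro i j hij
      rw [disjoint_left]
      intro x hxi hxj
      apply key i (U i ∩ U j) ((hU i).inter (hU j)) ⟨x, hxi, hxj⟩ inter_subset_left
      refine (hm j).1.mono ?_
      rintro y ⟨⟨-, hy⟩, hyi⟩
      exact ⟨hy, fun hyj => hij (hyi.symm.trans hyj)⟩
    · rw [dense_iff_inter_open]
      intro W hW hne
      by_contra h
      apply not_isMeagre_of_isOpen hW hne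
      refine (isMeagre_iUnion fun i => (hm i).2).mono ?_
      intro x hx
      refine mem_iUnion.2 ⟨c x, rfl, fun hxU => h ⟨x, hx, mem_iUnion.2 ⟨_, hxU⟩⟩⟩
    · intro i x hx y hy hxy
      set v := y - x
      set W := U i ∩ (· + v) ⁻¹' U i
      have hW : IsOpen W := (hU i).inter ((hU i).preimage (by fun_prop))
      have hxW : x ∈ W := ⟨hx, by simp [v, hy]⟩
      apply key i W hW ⟨x, hxW⟩ inter_subset_left
      have hGm : IsMeagre Gᶜ := by rw [IsMeagre, compl_compl]; exact hG
      refine ((translate_meagre (hm i).1 v).union (hGm.union (translate_meagre hGm v))).mono ?_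
      rintro z ⟨⟨-, hzv⟩, hzc⟩
      by_cases hz : z ∈ G
      · by_cases hz' : z + v ∈ G
        · refine Or.inl ⟨hzv, fun hzv' => hproper z hz (z + v) hz' ?_ (hzc.trans hzv'.symm)⟩
          rw [dist_eq_norm] at hxy ⊢
          rw [← hxy]; simp [v]
        · exact Or.inr (Or.inr hz')
      · exact Or.inr (Or.inl hz)
  obtain ⟨C, -⟩ := C
  exact Config.false
    { U := C.U, isOpen := C.isOpen, disj := C.disj, dense := C.dense, avoid := C.avoid,
      three := fun x s hs => (Finset.card_le_card fun i hi => C.mem_T.2 (hs i hi)).trans (h C x) }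

/-- If no configuration has a point in four closures, colourings of the plane with Baire-property
classes that are proper on a comeagre set need six colours. -/
theorem six_le_of_three (h : ∀ (C : Cfg) x, (C.T x).card ≤ 3) (k : ℕ) (G : Set ℂ)
    (hG : G ∈ residual ℂ) (c : ℂ → Fin k)
    (hproper : ∀ x ∈ G, ∀ y ∈ G, dist x y = 1 → c x ≠ c y)
    (hBaire : ∀ i, BaireMeasurableSet (c ⁻¹' {i})) : 6 ≤ k := by
  by_contra hk
  have hk5 : k ≤ 5 := by omega
  set f : Fin k → Fin 5 := Fin.castLE hk5
  have hf : Function.Injective f := Fin.castLE_injective hk5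
  refine five_classes G hG (f ∘ c) (fun x hx y hy h e => hproper x hx y hy h (hf e)) (fun i => ?_) h
  by_cases hi : ∃ j, f j = i
  · obtain ⟨j, rfl⟩ := hi
    rw [show (f ∘ c) ⁻¹' {f j} = c ⁻¹' {j} by ext x; simp [hf.eq_iff]]
    exact hBaire j
  · rw [show (f ∘ c) ⁻¹' {i} = ∅ from eq_empty_of_forall_notMem fun x hx => hi ⟨c x, hx⟩]
    exact BaireMeasurableSet.of_mem_residual (s := (∅ : Set ℂ)ᶜ) (by simp) |>.compl |> fun t => by simpa using t

end Vale.Agent.P032Baire
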