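import Vale.Agent.P032Baire.Bridge
import Vale.Agent.P032Baire.FiniteCert
import Vale.Agent.P032Baire.Reduce

/-! Hexagonal frames, renaming of colours, and running the certificates. -/

open Set Metric Filter Topology

namespace Vale.Agent.P032Baire

lemma lat_zero : lat 0 0 = 0 := by apply Complex.ext <;> simp [lat]

lemma lat_one : lat 1 0 = 1 := by apply Complex.ext <;> simp [lat]

lemma pos_zero (q u : ℂ) : pos q u 0 = q := by simp [pos, cx, cy, lat_zero]

lemma pos_one (q u : ℂ) : pos q u 1 = q + u := by simp [pos, cx, cy, lat_one]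

lemma pos_two (q u : ℂ) : pos q u 2 = q + u * lat 0 1 := rfl

lemma dist_q_pos (q : ℂ) {u : ℂ} (hu : ‖u‖ = 1) {k : ℕ} (hk : k < 6) :
    dist q (pos q u (k + 1)) = 1 := by
  have h := dist_pos q hu (a := 0) (b := k + 1) (by interval_cases k <;> decide)
  rwa [pos_zero] at h

/-- Two adjacent points of a unit circle are, in one of the two orders, one sixth of a turn apart. -/
lemma orient {q z z' : ℂ} (h1 : dist q z = 1) (h2 : dist q z' = 1) (h3 : dist z z' = 1) :
    z' = q + (z - q) * lat 0 1 ∨ z = q + (z' - q) * lat 0 1 := by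
  obtain ⟨a, rfl⟩ : ∃ a, z = q + a := ⟨z - q, by ring⟩
  obtain ⟨b, rfl⟩ : ∃ b, z' = q + b := ⟨z' - q, by ring⟩
  rw [dist_self_add_right] at h1 h2
  rw [dist_add_left, dist_eq_norm] at h3
  simp only [add_sub_cancel_left, add_right_inj]
  have ha : a ≠ 0 := norm_pos_iff.1 (by rw [h1]; exact one_pos)
  set r := b / a with hr
  have hb : b = a * r := by rw [hr]; field_simp
  have e1 : ‖r‖ = 1 := by rw [hr, norm_div, h1, h2, div_one]
  have e2 : ‖1 - r‖ = 1 := by
    rw [hb, ← mul_one_sub, norm_mul, h1, one_mul] at h3; exact h3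
  rw [Complex.norm_def, Real.sqrt_eq_one, Complex.normSq_apply] at e1 e2
  simp at e2
  have hre : r.re = 1/2 := by nlinarith
  have h3 := Real.sq_sqrt (show (0:ℝ) ≤ 3 by norm_num)
  have him : (r.im - Real.sqrt 3 / 2) * (r.im + Real.sqrt 3 / 2) = 0 := by
    rw [hre] at e1; linear_combination e1 - (1/4 : ℝ) * h3
  rcases mul_eq_zero.1 him with h | h
  · left
    rw [hb]; congr 1
    apply Complex.ext <;> simp [lat, hre] <;> linarith
  · right
    rw [hb, mul_assoc]
    conv_lhs => rw [← mul_one a]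
    congr 1
    apply Complex.ext <;> simp [lat, hre]
    · rw [show r.im = -(Real.sqrt 3 / 2) by linarith]; linear_combination -(1/4 : ℝ) * h3
    · linarith

lemma exists_perm {p : List ℕ} (hp : p ∈ Finite.perms) :
    ∃ s : Equiv.Perm (Fin 5), ∀ i : Fin 5, p.getD i 0 = (s.symm i : ℕ) := by
  obtain ⟨hlt, hinj⟩ := Finite.perms_inj p hp
  refine ⟨(Equiv.ofBijective (fun i : Fin 5 => (⟨p.getD i 0, hlt i⟩ : Fin 5))
    (Finite.injective_iff_bijective.1 fun i j h => hinj i j (Fin.ext_iff.1 h))).symm, fun i => ?_⟩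
  simp

lemma permMask_enc {p : List ℕ} {s : Equiv.Perm (Fin 5)} (hp : ∀ i : Fin 5, p.getD i 0 = (s.symm i : ℕ))
    (S : Finset (Fin 5)) : Finite.permMask p (enc S) = enc (S.map s.symm.toEmbedding) := by
  have e : enc (S.map s.symm.toEmbedding) = ∑ i, if i ∈ S then 2 ^ (p.getD i 0) else 0 := by
    rw [enc, Finset.sum_map, Finset.sum_ite_mem, Finset.univ_inter]
    exact Finset.sum_congr rfl fun i _ => by rw [hp]; rfl
  have t : ∀ (i : Fin 5) (n : ℕ), (i : ℕ) = n → (enc S).testBit n = decide (i ∈ S) := by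
    rintro i n rfl; exact testBit_enc S i
  rw [e, Fin.sum_univ_five, Finite.permMask, t 0 0 rfl, t 1 1 rfl, t 2 2 rfl, t 3 3 rfl, t 4 4 rfl]
  simp

lemma opts_mem : ∀ s : Finset (Fin 5), 3 ≤ s.card →
    enc s ∈ Finite.optsFour ∧ (s.card ≠ 4 → enc s ∈ Finite.optsFive) ∧
    (s.card = 3 → ∀ c ∈ s, enc s + 32 * ((c : ℕ) + 1) ∈ Finite.optsFour ∧
      enc s + 32 * ((c : ℕ) + 1) ∈ Finite.optsFive) := by decide +kernel

namespace Cfg

variable (C : Cfg)

lemma relabel_T (s : Equiv.Perm (Fin 5)) (w : ℂ) :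
    (C.relabel s).T w = (C.T w).map s.symm.toEmbedding := by
  ext i; simp [Finset.mem_map_equiv]

lemma desc_zero (w : ℂ) : C.Desc 0 w := fun h => absurd rfl h

theorem desc_relabel {p : List ℕ} {s : Equiv.Perm (Fin 5)}
    (hp : ∀ i : Fin 5, p.getD i 0 = (s.symm i : ℕ)) {v : ℕ} {w : ℂ} (hd : C.Desc v w) :
    (C.relabel s).Desc (Finite.permCode p v) w := by
  intro hne
  have hv : v ≠ 0 := by
    rintro rfl; simp [Finite.permCode, Finite.permMask, Finite.mask, Finite.flag] at hne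
  obtain ⟨hm, h3, hout, hbad⟩ := hd hv
  have hlt := enc_lt ((C.relabel s).T w)
  have e : Finite.permMask p (Finite.mask v) = enc ((C.relabel s).T w) := by
    rw [hm, permMask_enc hp, C.relabel_T]
  by_cases hf : Finite.flag v = 0
  · have ev : Finite.permCode p v = enc ((C.relabel s).T w) := by simp [Finite.permCode, hf, e]
    refine ⟨by rw [ev]; exact Nat.mod_eq_of_lt hlt, by simpa using h3, fun _ h z hz hsub => ?_,
      fun h => absurd ?_ h⟩
    · exact hout hf (by simpa using h) z hz (by simpa [C.relabel_T] using hsub)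
    · rw [ev]; exact Nat.div_eq_of_lt hlt
  · obtain ⟨c, hc, habs⟩ := hbad hf
    have ev : Finite.permCode p v = enc ((C.relabel s).T w) + 32 * ((s.symm c : ℕ) + 1) := by
      simp only [Finite.permCode, e, hc, Nat.add_sub_cancel, ← hp c]; simp
    refine ⟨?_, by simpa using h3, fun h => ?_, fun _ => ⟨s.symm c, ?_, fun z hz => ?_⟩⟩
    · simp only [ev, Finite.mask]; omega
    · simp only [ev, Finite.flag] at h; omega
    · simp only [ev, Finite.flag]; omega
    · simpa using habs z hz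

lemma valid_root {q u : ℂ} {m a b : ℕ} (h0 : C.Desc m q) (ha : C.Desc a (q + u))
    (hb : C.Desc b (q + u * lat 0 1)) : C.Valid q u [m, a, b, 0, 0, 0, 0] := by
  refine ⟨rfl, fun k hk => ?_⟩
  interval_cases k <;> try exact C.desc_zero _
  · rwa [pos_zero]
  · rwa [pos_one]
  · exact hb

/-- A certificate leads every root it covers to a final state. -/
theorem run {opts : List ℕ} {final : List ℕ → Bool} {m : ℕ} {reps : List (ℕ × ℕ)} {code : List ℕ}
    (hcheck : Finite.checkRoots opts final m reps code = true) (hopts : C.Covers opts) {q u : ℂ}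
    (hu : ‖u‖ = 1) {a b : ℕ} (hr : (a, b) ∈ reps) (hV : C.Valid q u [m, a, b, 0, 0, 0, 0]) :
    ∃ T, C.Valid q u T ∧ final T = true := by
  rw [Finite.checkRoots, Option.isSome_iff_exists] at hcheck
  obtain ⟨r, hr'⟩ := hcheck
  obtain ⟨c, c', hw⟩ := Finite.foldlM_some hr' (a, b) hr
  exact Finite.walk_sound (C.rules hu hopts) _ _ _ _ hw hV

theorem covers_four : C.Covers Finite.optsFour := by
  intro w hw
  obtain ⟨v, hd, -, rfl | ⟨h3, c, hc, rfl⟩⟩ := C.exists_desc hw
  · exact ⟨_, (opts_mem _ hw).1, hd⟩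
  · exact ⟨_, ((opts_mem _ hw).2.2 h3 c hc).1, hd⟩

theorem covers_five (h4 : ∀ x, (C.T x).card ≠ 4) : C.Covers Finite.optsFive := by
  intro w hw
  obtain ⟨v, hd, -, rfl | ⟨h3, c, hc, rfl⟩⟩ := C.exists_desc hw
  · exact ⟨_, (opts_mem _ hw).2.1 (h4 w), hd⟩
  · exact ⟨_, ((opts_mem _ hw).2.2 h3 c hc).2, hd⟩

end Cfg

end Vale.Agent.P032Baire
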