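import Vale.Agent.P032Baire.Base
import Vale.Agent.P032Baire.Pieces
import Vale.Agent.P032Baire.Degree

/-!
# The staged global argument

Near every point in at least three closures one colour `c` is chosen; small disjoint open sets
whose frontiers meet at most one further colour are given to `c`, which leaves a cover of a disc
by small closed sets without triple points.
-/

open Set Metric Filter Topology

namespace Vale.Agent.P032Baire

lemma exists_sep_radius {ι : Type*} [Finite ι] (P : ι → Set ℂ) (hP : ∀ k, IsCompact (P k))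
    (hd : ∀ k l, k ≠ l → Disjoint (P k) (P l)) :
    ∃ r > 0, ∀ k l, k ≠ l → Disjoint (cthickening r (P k)) (cthickening r (P l)) := by
  have : ∀ t : {t : ι × ι // t.1 ≠ t.2}, ∀ᶠ r in 𝓝[>] (0 : ℝ),
      Disjoint (cthickening r (P t.1.1)) (cthickening r (P t.1.2)) := fun t => by
    obtain ⟨r, hr, hdr⟩ := (hd _ _ t.2).exists_cthickenings (hP _) (hP _).isClosed
    filter_upwards [Ioc_mem_nhdsGT hr] with s hs
    exact hdr.mono (cthickening_mono hs.2 _) (cthickening_mono hs.2 _)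
  obtain ⟨r, hr, hr0⟩ := ((eventually_all.2 this).and self_mem_nhdsWithin).exists
  exact ⟨r, hr0, fun k l h => hr ⟨(k, l), h⟩⟩

/-- Two closed totally disconnected sets have a totally disconnected union. -/
lemma totallyDisconnected_union {A B : Set ℂ} (hA : IsClosed A) (hB : IsClosed B)
    (hAd : IsTotallyDisconnected A) (hBd : IsTotallyDisconnected B) :
    IsTotallyDisconnected (A ∪ B) := by
  intro L hL hLc x hx y hy
  by_contra hxy
  obtain ⟨z, hz, hzB⟩ : ∃ z ∈ L, z ∉ B := by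
    by_contra h
    push Not at h
    exact hxy (hBd L h hLc hx hy)
  obtain ⟨w, hw, hwz⟩ : ∃ w ∈ L, w ≠ z := by
    rcases eq_or_ne x z with rfl | h
    · exact ⟨y, hy, Ne.symm hxy⟩
    · exact ⟨x, hx, h⟩
  obtain ⟨ε, hε, hball⟩ := Metric.isOpen_iff.1 hB.isOpen_compl z hzB
  obtain ⟨δ, hδ, hδε, hδw⟩ : ∃ δ, 0 < δ ∧ δ < ε ∧ δ < dist w z := by
    refine ⟨min ε (dist w z) / 2, half_pos (lt_min hε (dist_pos.2 hwz)), ?_, ?_⟩ <;>
      linarith [min_le_left ε (dist w z), min_le_right ε (dist w z),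
        lt_min hε (dist_pos.2 hwz)]
  rcases bump (closure L) isClosed_closure (subset_closure hz) hδ with
    ⟨M, hM, hMc, -, hzM, u, hu, hud⟩ | ⟨V, hV, hzV, hVb, hfr⟩
  · have hMA : M ⊆ A := fun p hp => by
      have : p ∈ A ∪ B := (closure_minimal hL (hA.union hB)) (hM hp).1
      exact this.resolve_right (hball ((mem_closedBall.1 (hM hp).2).trans_lt hδε))
    have := hAd M hMA hMc.isPreconnected hu hzM
    rw [this, dist_self] at hud
    exact hδ.ne hud
  · have hsub : L ⊆ V := by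
      refine hLc.subset_left_of_subset_union hV isClosed_closure.isOpen_compl
        (disjoint_left.2 fun p hp hp' => hp' (subset_closure hp)) (fun p hp => ?_) ⟨z, hz, hzV⟩
      by_contra h
      simp only [mem_union, mem_compl_iff, not_or, not_not] at h
      exact disjoint_left.1 hfr (by rw [hV.frontier_eq]; exact ⟨h.2, h.1⟩) (subset_closure hp)
    exact absurd (mem_ball.1 (hVb (subset_closure (hsub hw)))) (by linarith)

lemma totallyDisconnected_biUnion {ι : Type*} (t : Finset ι) (f : ι → Set ℂ)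
    (hc : ∀ i ∈ t, IsClosed (f i)) (hd : ∀ i ∈ t, IsTotallyDisconnected (f i)) :
    IsTotallyDisconnected (⋃ i ∈ t, f i) := by
  classical
  induction t using Finset.induction_on with
  | empty => simpa using isTotallyDisconnected_empty
  | insert a t ha ih =>
    simp only [Finset.mem_insert, forall_eq_or_imp] at hc hd
    rw [Finset.set_biUnion_insert]
    exact totallyDisconnected_union hc.1 (isClosed_biUnion_finset hc.2) hd.1 (ih hc.2 hd.2)

namespace Cfg

variable (C : Cfg)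

/-- Where two colours other than `c` of `T q` meet, near `q`. -/
def badSet (q : ℂ) (c : Fin 5) (δ : ℝ) : Set ℂ :=
  ⋃ p ∈ ((C.T q).erase c).offDiag, C.F p.1 ∩ C.F p.2 ∩ closedBall q δ

lemma isCompact_badSet (q : ℂ) (c : Fin 5) (δ : ℝ) : IsCompact (C.badSet q c δ) :=
  Finset.isCompact_biUnion _ fun _ _ =>
    (isCompact_closedBall q δ).inter_left ((C.isClosed_F _).inter (C.isClosed_F _))

lemma mem_badSet {q z : ℂ} {c : Fin 5} {δ : ℝ} (hz : z ∈ closedBall q δ)
    (hT : C.T z ⊆ C.T q) (h : 2 ≤ ((C.T z).erase c).card) : z ∈ C.badSet q c δ := by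
  obtain ⟨a, ha, b, hb, hab⟩ := Finset.one_lt_card.1 h
  have hsub := Finset.erase_subset_erase c hT
  exact mem_iUnion₂.2 ⟨(a, b), Finset.mem_offDiag.2 ⟨hsub ha, hsub hb, hab⟩,
    ⟨C.mem_T.1 (Finset.mem_of_mem_erase ha), C.mem_T.1 (Finset.mem_of_mem_erase hb)⟩, hz⟩

/-- A centre at `q` for the points of `S`. -/
def Good (q : ℂ) (S : Set ℂ) : Prop :=
  ∃ (c : Fin 5) (δ : ℝ), 0 < δ ∧ (∀ y ∈ closedBall q δ, C.T y ⊆ C.T q) ∧
    ∀ y ∈ S ∩ closedBall q δ, connectedComponentIn (C.badSet q c δ) y ⊆ {y}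

lemma Good.mono {q : ℂ} {S S' : Set ℂ} (h : C.Good q S) (hS : S' ⊆ S) : C.Good q S' := by
  obtain ⟨c, δ, hδ, hT, hcomp⟩ := h
  exact ⟨c, δ, hδ, hT, fun y hy => hcomp y ⟨hS hy.1, hy.2⟩⟩

/-- The centre can be taken among the colours at the point. -/
lemma Good.exists_mem {q : ℂ} {S : Set ℂ} (h : C.Good q S) :
    ∃ c ∈ C.T q, ∃ δ : ℝ, 0 < δ ∧ (∀ y ∈ closedBall q δ, C.T y ⊆ C.T q) ∧
      ∀ y ∈ S ∩ closedBall q δ, connectedComponentIn (C.badSet q c δ) y ⊆ {y} := by
  obtain ⟨c, δ, hδ, hT, hcomp⟩ := h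
  by_cases hc : c ∈ C.T q
  · exact ⟨c, hc, δ, hδ, hT, hcomp⟩
  obtain ⟨c', hc'⟩ := C.T_nonempty q
  refine ⟨c', hc', δ, hδ, hT, fun y hy => (connectedComponentIn_mono y ?_).trans (hcomp y hy)⟩
  refine biUnion_subset_biUnion_left (fun p hp => ?_)
  simp only [Finset.mem_coe, Finset.mem_offDiag, Finset.mem_erase] at hp ⊢
  exact ⟨⟨fun e => hc (e ▸ hp.1.2), hp.1.2⟩, ⟨fun e => hc (e ▸ hp.2.1.2), hp.2.1.2⟩, hp.2.2⟩

lemma good_of_thin {q : ℂ} (c : Fin 5) (S : Set ℂ)
    (h : ∀ a ∈ (C.T q).erase c, ∀ b ∈ (C.T q).erase c, a ≠ b →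
      ∃ r > 0, IsTotallyDisconnected (C.F a ∩ C.F b ∩ closedBall q r)) : C.Good q S := by
  classical
  obtain ⟨ρ, hρ, hT⟩ := C.exists_T_ball q
  have hev : ∀ᶠ r in 𝓝[>] (0 : ℝ), r < ρ ∧ ∀ p ∈ ((C.T q).erase c).offDiag,
      IsTotallyDisconnected (C.F p.1 ∩ C.F p.2 ∩ closedBall q r) := by
    refine (eventually_nhdsWithin_of_eventually_nhds (gt_mem_nhds hρ)).and
      ((Finset.eventually_all _).2 fun p hp => ?_)
    obtain ⟨hpa, hpb, hab⟩ := Finset.mem_offDiag.1 hp
    obtain ⟨r, hr, hd⟩ := h _ hpa _ hpb hab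
    filter_upwards [Ioc_mem_nhdsGT hr] with s hs K hK
    exact hd K (hK.trans (inter_subset_inter_right _ (closedBall_subset_closedBall hs.2)))
  obtain ⟨δ, ⟨hδρ, hδd⟩, hδ⟩ := (hev.and self_mem_nhdsWithin).exists
  refine ⟨c, δ, hδ, fun y hy => hT y ((mem_closedBall.1 hy).trans_lt hδρ), fun y _ => ?_⟩
  have htd : IsTotallyDisconnected (C.badSet q c δ) :=
    totallyDisconnected_biUnion _ _ (fun p _ =>
      ((C.isClosed_F _).inter (C.isClosed_F _)).inter isClosed_closedBall) hδd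
  intro z hz
  by_cases hy : y ∈ C.badSet q c δ
  · exact htd _ (connectedComponentIn_subset _ _) isPreconnected_connectedComponentIn hz
      (mem_connectedComponentIn hy)
  · rw [connectedComponentIn_eq_empty hy] at hz
    exact hz.elim

/-- `V` is a small open set which can be given to the colour `c`. -/
structure Patch (r : ℝ) (D : Set ℂ) (V : Set ℂ) (c : Fin 5) : Prop where
  isOpen : IsOpen V
  near : ∀ z ∈ closure V, ∃ w ∈ C.F c ∩ D, dist z w ≤ r
  frontier : ∀ z ∈ closure V, z ∉ V → ((C.T z).erase c).card ≤ 1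

/-- Finitely many patches with disjoint closures inside `O`, covering `X`. -/
def Patched (r : ℝ) (D O X : Set ℂ) : Prop :=
  ∃ (n : ℕ) (V : Fin n → Set ℂ) (c : Fin n → Fin 5), (∀ k, C.Patch r D (V k) (c k)) ∧
    (∀ k, closure (V k) ⊆ O) ∧ (∀ k l, k ≠ l → Disjoint (closure (V k)) (closure (V l))) ∧
    X ⊆ ⋃ k, V k

lemma patched_append {r : ℝ} {D O X Y : Set ℂ} {n : ℕ} {V : Fin n → Set ℂ} {c : Fin n → Fin 5}
    (hp : ∀ k, C.Patch r D (V k) (c k)) (hO : ∀ k, closure (V k) ⊆ O)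
    (hd : ∀ k l, k ≠ l → Disjoint (closure (V k)) (closure (V l))) (hX : X ⊆ ⋃ k, V k)
    (hY : C.Patched r D (O \ ⋃ k, closure (V k)) Y) : C.Patched r D O (X ∪ Y) := by
  obtain ⟨m, W, e, hpW, hOW, hdW, hYW⟩ := hY
  have cross : ∀ i j, Disjoint (closure (V i)) (closure (W j)) := fun i j =>
    disjoint_left.2 fun z hz hz' => (hOW j hz').2 (mem_iUnion.2 ⟨i, hz⟩)
  refine ⟨n + m, Fin.append V W, Fin.append c e, fun k => ?_, fun k => ?_, fun k l h => ?_, ?_⟩
  · induction k using Fin.addCases with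
    | left i => simpa using hp i
    | right j => simpa using hpW j
  · induction k using Fin.addCases with
    | left i => simpa using hO i
    | right j => simpa using (hOW j).trans sdiff_subset
  · induction k using Fin.addCases with
    | left i =>
      induction l using Fin.addCases with
      | left i' => simpa using hd i i' fun e => h (by rw [e])
      | right j' => simpa using cross i j'
    | right j =>
      induction l using Fin.addCases with
      | left i' => simpa using (cross i' j).symm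
      | right j' => simpa using hdW j j' fun e => h (by rw [e])
  · rintro z (hz | hz)
    · obtain ⟨k, hk⟩ := mem_iUnion.1 (hX hz)
      exact mem_iUnion.2 ⟨Fin.castAdd m k, by simpa using hk⟩
    · obtain ⟨k, hk⟩ := mem_iUnion.1 (hYW hz)
      exact mem_iUnion.2 ⟨Fin.natAdd n k, by simpa using hk⟩

/-- Points with the same number `≥ 3` of closures are patched. -/
lemma patched_level {r : ℝ} (hr : 0 < r) {D W O : Set ℂ} (hW : IsCompact W) (hWD : W ⊆ D)
    (hO : IsOpen O) (hWO : W ⊆ O) {s : ℕ} (hs : 3 ≤ s) (hcard : ∀ x ∈ W, (C.T x).card = s)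
    (hgood : ∀ q ∈ W, C.Good q W) : C.Patched r D O W := by
  classical
  choose cc hcc δ hδ hsub hcomp using fun q : W => (hgood q.1 q.2).exists_mem C
  have hT : ∀ q : W, ∀ y ∈ W, y ∈ closedBall q.1 (δ q) → C.T y = C.T q.1 := fun q y hy hyb =>
    Finset.eq_of_subset_of_card_le (hsub q y hyb) (by rw [hcard y hy, hcard q.1 q.2])
  have hWK : ∀ q : W, ∀ y ∈ W, y ∈ closedBall q.1 (δ q) → y ∈ C.badSet q.1 (cc q) (δ q) :=
    fun q y hy hyb => C.mem_badSet hyb (hsub q y hyb) (by
      have := Finset.pred_card_le_card_erase (s := C.T y) (a := cc q)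
      have := hcard y hy
      omega)
  have nb : ∀ q : W, ∃ N, IsOpen N ∧ q.1 ∈ N ∧ closure N ⊆ ball q.1 (δ q) ∧
      ∀ z ∈ closure N, z ∈ C.badSet q.1 (cc q) (δ q) → z ∈ N := by
    intro q
    have hq : q.1 ∈ closedBall q.1 (δ q) := mem_closedBall_self (hδ q).le
    obtain ⟨N, h1, h2, h3, h4⟩ := exists_frontier_avoiding_of_components
      (C.badSet q.1 (cc q) (δ q)) {q.1} (ball q.1 (δ q)) (C.isCompact_badSet _ _ _)
      (singleton_subset_iff.2 (hWK q _ q.2 hq)) isCompact_singleton isOpen_ball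
      (fun x hx => by
        rw [mem_singleton_iff.1 hx]
        exact (hcomp q _ ⟨q.2, hq⟩).trans (singleton_subset_iff.2 (mem_ball_self (hδ q))))
    exact ⟨N, h1, h2 rfl, h3, h4⟩
  choose N hNo hqN hNb hNK using nb
  obtain ⟨t, ht⟩ := hW.elim_finite_subcover N hNo fun q hq => mem_iUnion.2 ⟨⟨q, hq⟩, hqN _⟩
  let qk : Fin t.card → W := fun k => (t.equivFin.symm k).1
  let P : Fin t.card → Set ℂ := fun k =>
    (W ∩ closure (N (qk k))) ∩ ⋂ j, ⋂ (_ : j < k), (N (qk j))ᶜ
  have hPc : ∀ k, IsCompact (P k) := fun k => (hW.inter_right isClosed_closure).inter_right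
    (isClosed_biInter fun j _ => (hNo _).isClosed_compl)
  have hPb : ∀ k, P k ⊆ ball (qk k).1 (δ (qk k)) := fun k z hz => hNb _ hz.1.2
  have hPN : ∀ k, P k ⊆ N (qk k) := fun k z hz =>
    hNK _ z hz.1.2 (hWK _ z hz.1.1 (ball_subset_closedBall (hPb k hz)))
  have hPd : ∀ k l, k ≠ l → Disjoint (P k) (P l) := fun k l hkl => disjoint_left.2 fun z hk hl => by
    rcases lt_or_gt_of_ne hkl with h | h
    · exact mem_iInter₂.1 hl.2 k h (hPN k hk)
    · exact mem_iInter₂.1 hk.2 l h (hPN l hl)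
  have hPcov : ∀ z ∈ W, ∃ k, z ∈ P k := by
    intro z hz
    obtain ⟨q, hqt, hzq⟩ := mem_iUnion₂.1 (ht hz)
    have hne : (Finset.univ.filter fun k => z ∈ N (qk k)).Nonempty :=
      ⟨t.equivFin ⟨q, hqt⟩, by simp [qk, hzq]⟩
    refine ⟨Finset.min' _ hne, ⟨hz, subset_closure ?_⟩, mem_iInter₂.2 fun j hj hzj => ?_⟩
    · exact (Finset.mem_filter.1 (Finset.min'_mem _ hne)).2
    · exact absurd (Finset.min'_le _ j (by simp [hzj])) (not_le.2 hj)
  obtain ⟨r₀, hr₀, hsep⟩ := exists_sep_radius P hPc hPd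
  have vs : ∀ k, ∃ V, IsOpen V ∧ P k ⊆ V ∧
      closure V ⊆ O ∩ thickening (min r r₀) (P k) ∩ ball (qk k).1 (δ (qk k)) ∧
      ∀ z ∈ closure V, z ∈ C.badSet (qk k).1 (cc (qk k)) (δ (qk k)) → z ∈ V := by
    intro k
    have hsubK : P k ⊆ C.badSet (qk k).1 (cc (qk k)) (δ (qk k)) := fun z hz =>
      hWK _ z hz.1.1 (ball_subset_closedBall (hPb k hz))
    refine exists_frontier_avoiding_of_components _ _ _ (C.isCompact_badSet _ _ _) hsubK (hPc k)
      ((hO.inter isOpen_thickening).inter isOpen_ball) fun x hx => ?_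
    refine (hcomp _ x ⟨hx.1.1, ball_subset_closedBall (hPb k hx)⟩).trans (singleton_subset_iff.2 ?_)
    exact ⟨⟨hWO hx.1.1, self_subset_thickening (lt_min hr hr₀) _ hx⟩, hPb k hx⟩
  choose V hVo hPV hVb hVK using vs
  refine ⟨t.card, V, fun k => cc (qk k), fun k => ⟨hVo k, fun z hz => ?_, fun z hz hzV => ?_⟩,
    fun k => (hVb k).trans (inter_subset_left.trans inter_subset_left), fun k l hkl => ?_,
    fun z hz => ?_⟩
  · obtain ⟨w, hw, hzw⟩ := mem_thickening_iff.1 (hVb k hz).1.2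
    refine ⟨w, ⟨C.mem_T.1 ?_, hWD hw.1.1⟩, hzw.le.trans (min_le_left _ _)⟩
    rw [hT _ w hw.1.1 (ball_subset_closedBall (hPb k hw))]
    exact hcc _
  · show ((C.T z).erase (cc (qk k))).card ≤ 1
    by_contra hlt
    have hzb := ball_subset_closedBall (hVb k hz).2
    exact hzV (hVK k z hz (C.mem_badSet hzb (hsub _ z hzb) (by omega)))
  · refine (hsep k l hkl).mono ?_ ?_ <;>
      exact fun z hz => cthickening_mono (min_le_right r r₀) _
        (thickening_subset_cthickening _ _ (hVb _ hz).1.2)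
  · obtain ⟨k, hk⟩ := hPcov z hz
    exact mem_iUnion.2 ⟨k, hPV k hk⟩

/-- The points in at least three closures. -/
def high : Set ℂ := {x | 3 ≤ (C.T x).card}

lemma isClosed_card_ge (s : ℕ) : IsClosed {x | s ≤ (C.T x).card} := by
  rw [← isOpen_compl_iff, isOpen_iff_mem_nhds]
  intro x hx
  simp only [mem_compl_iff, mem_ofPred_eq, not_le] at hx
  filter_upwards [C.eventually_T_subset x] with y hy
  simp only [mem_compl_iff, mem_ofPred_eq, not_le]
  exact (Finset.card_le_card hy).trans_lt hx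

/-- A compact set of points in at least three closures is patched, the higher levels first. -/
lemma patched_stage {r : ℝ} (hr : 0 < r) {D : Set ℂ} (j : ℕ) :
    ∀ {X O : Set ℂ}, IsCompact X → X ⊆ D → IsOpen O → X ⊆ O → X ⊆ C.high →
      (∀ x ∈ X, 6 ≤ (C.T x).card + j) → (∀ q ∈ X, C.Good q X) → C.Patched r D O X := by
  induction j with
  | zero =>
    intro X O _ _ _ _ _ h6 _
    refine ⟨0, Fin.elim0, Fin.elim0, fun k => k.elim0, fun k => k.elim0, fun k => k.elim0,
      fun x hx => ?_⟩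
    have := h6 x hx
    have : (C.T x).card ≤ 5 := card_finset_fin_le _
    omega
  | succ j ih =>
    intro X O hX hXD hO hXO hXQ h6 hg
    have hX' : IsCompact (X ∩ {x | 6 - j ≤ (C.T x).card}) :=
      hX.inter_right (C.isClosed_card_ge _)
    obtain ⟨n, V, c, hp, hVO, hd, hcov⟩ := ih hX' (inter_subset_left.trans hXD) hO
      (inter_subset_left.trans hXO) (inter_subset_left.trans hXQ)
      (fun x hx => by have := hx.2; simp only [mem_ofPred_eq] at this; omega)
      (fun q hq => (hg q hq.1).mono C inter_subset_left)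
    have hY : IsCompact (X \ ⋃ k, V k) := hX.diff (isOpen_iUnion fun k => (hp k).isOpen)
    have hYO : X \ ⋃ k, V k ⊆ O \ ⋃ k, closure (V k) := fun z hz => ⟨hXO hz.1, fun h => by
      obtain ⟨k, hk⟩ := mem_iUnion.1 h
      have := (hp k).frontier z hk fun h' => hz.2 (mem_iUnion.2 ⟨k, h'⟩)
      have := Finset.pred_card_le_card_erase (s := C.T z) (a := c k)
      have := hXQ hz.1
      simp only [high, mem_ofPred_eq] at this
      omega⟩
    have hOo : IsOpen (O \ ⋃ k, closure (V k)) :=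
      hO.sdiff (isClosed_iUnion_of_finite fun k => isClosed_closure)
    have hlev : C.Patched r D (O \ ⋃ k, closure (V k)) (X \ ⋃ k, V k) := by
      rcases (X \ ⋃ k, V k).eq_empty_or_nonempty with he | ⟨z, hz⟩
      · exact ⟨0, Fin.elim0, Fin.elim0, fun k => k.elim0, fun k => k.elim0, fun k => k.elim0,
          by rw [he]; exact empty_subset _⟩
      · have hlow : ∀ y ∈ X \ ⋃ k, V k, (C.T y).card + j + 1 = 6 := fun y hy => by
          have := h6 y hy.1
          by_contra hne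
          exact hy.2 (hcov ⟨hy.1, show 6 - j ≤ (C.T y).card by omega⟩)
        have h3 : ∀ y ∈ X \ ⋃ k, V k, 3 ≤ (C.T y).card := fun y hy => hXQ hy.1
        exact C.patched_level hr hY (sdiff_subset.trans hXD) hOo hYO (s := 5 - j)
          (by have := hlow z hz; have := h3 z hz; omega)
          (fun y hy => by have := hlow y hy; omega) fun q hq => (hg q hq.1).mono C sdiff_subset
    obtain ⟨m, W, e, hWp, hWO, hWd, hXW⟩ := C.patched_append hp hVO hd Subset.rfl hlev
    exact ⟨m, W, e, hWp, hWO, hWd, fun x hx => hXW (by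
      by_cases hxV : x ∈ ⋃ k, V k
      · exact Or.inl hxV
      · exact Or.inr ⟨hx, hxV⟩)⟩

/-- Patches at all scales over the high points of a large disc are contradictory. -/
theorem false_of_patches
    (h : ∀ r > 0, C.Patched r (closedBall 0 8) univ (closedBall 0 8 ∩ C.high)) : False := by
  classical
  have pcs : ∀ i : Fin 5, ∃ (n : ℕ) (P : Fin n → Set ℂ), (∀ k, IsCompact (P k)) ∧
      C.F i ∩ closedBall (0:ℂ) 8 = ⋃ k, P k ∧ (∀ k l, k ≠ l → Disjoint (P k) (P l)) ∧
      (∀ k, ∀ x ∈ P k, ∀ y ∈ P k, dist x y ≤ (1:ℝ) + 1) := fun i =>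
    exists_pieces _ ((isCompact_closedBall (0:ℂ) 8).inter_left (C.isClosed_F i)) 1
      (fun S hS hc => C.diam_le hc (hS.trans inter_subset_left))
  choose n P hPc hPu hPd hPdiam using pcs
  choose rP hrP0 hrPd using fun i => exists_sep_radius (P i) (hPc i) (hPd i)
  obtain ⟨i0, hi0⟩ := Finite.exists_min rP
  obtain ⟨r, hr, hrP, hr1⟩ : ∃ r : ℝ, 0 < r ∧ (∀ i, r ≤ rP i) ∧ r ≤ 1/2 :=
    ⟨min (rP i0) (1/2), lt_min (hrP0 i0) (by norm_num),
      fun i => (min_le_left _ _).trans (hi0 i), min_le_right _ _⟩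
  obtain ⟨m, V, c, hp, -, hVd, hcov⟩ := h r hr
  let P' : (Σ i : Fin 5, Fin (n i)) → Set ℂ := fun t => (P t.1 t.2 \ ⋃ k, V k) ∪
    (cthickening r (P t.1 t.2) ∩ ⋃ k ∈ (Finset.univ.filter fun k => c k = t.1), closure (V k))
  have hP'near : ∀ t, P' t ⊆ cthickening r (P t.1 t.2) := by
    rintro t z (hz | hz)
    · exact self_subset_cthickening _ hz.1
    · exact hz.1
  have hP'c : ∀ t, IsCompact (P' t) := fun t =>
    ((hPc _ _).diff (isOpen_iUnion fun k => (hp k).isOpen)).union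
      ((hPc _ _).cthickening.inter_right (isClosed_biUnion_finset fun k _ => isClosed_closure))
  refine no_order_two_cover P' hP'c (D := 3) (R := 8) ?_ (by norm_num) (by norm_num) ?_ ?_
  · intro t x hx y hy
    have hx' := hP'near t hx
    have hy' := hP'near t hy
    rw [(hPc _ _).cthickening_eq_biUnion_closedBall hr.le] at hx' hy'
    obtain ⟨x₁, hx₁, dx⟩ := mem_iUnion₂.1 hx'
    obtain ⟨y₁, hy₁, dy⟩ := mem_iUnion₂.1 hy'
    rw [mem_closedBall] at dx dy
    rw [dist_comm] at dy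
    linarith [dist_triangle4 x x₁ y₁ y, hPdiam _ _ x₁ hx₁ y₁ hy₁]
  · intro z hz
    by_cases hV : ∃ k, z ∈ V k
    · obtain ⟨k, hk⟩ := hV
      obtain ⟨w, hw, hzw⟩ := (hp k).near z (subset_closure hk)
      rw [hPu] at hw
      obtain ⟨l, hl⟩ := mem_iUnion.1 hw
      exact mem_iUnion.2 ⟨⟨c k, l⟩, Or.inr ⟨mem_cthickening_of_dist_le z w r _ hl hzw,
        mem_iUnion₂.2 ⟨k, by simp, subset_closure hk⟩⟩⟩
    · obtain ⟨i, hi⟩ := C.cover z
      have : z ∈ C.F i ∩ closedBall 0 8 := ⟨hi, hz⟩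
      rw [hPu] at this
      obtain ⟨l, hl⟩ := mem_iUnion.1 this
      exact mem_iUnion.2 ⟨⟨i, l⟩, Or.inl ⟨hl, fun h => hV (mem_iUnion.1 h)⟩⟩
  · rintro ⟨i, u⟩ ⟨j, v⟩ ⟨l, w⟩ h1 h2 h3 z ⟨hu, hv, hw⟩
    have same : ∀ (i : Fin 5) (u v : Fin (n i)), z ∈ P' ⟨i, u⟩ → z ∈ P' ⟨i, v⟩ → u = v := by
      intro i u v hu hv
      by_contra huv
      exact disjoint_left.1 (hrPd i u v huv) (cthickening_mono (hrP i) _ (hP'near ⟨i, u⟩ hu))
        (cthickening_mono (hrP i) _ (hP'near ⟨i, v⟩ hv))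
    have hij : i ≠ j := by rintro rfl; exact h1 (by rw [same i u v hu hv])
    have hjl : j ≠ l := by rintro rfl; exact h2 (by rw [same j v w hv hw])
    have hil : i ≠ l := by rintro rfl; exact h3 (by rw [same i u w hu hw])
    have kind : ∀ t, z ∈ P' t → (z ∈ C.F t.1 ∧ z ∈ closedBall (0:ℂ) 8 ∧ ∀ k, z ∉ V k) ∨
        ∃ k, c k = t.1 ∧ z ∈ closure (V k) := by
      rintro t (⟨hm, hn⟩ | ⟨-, hm⟩)
      · have : z ∈ C.F t.1 ∩ closedBall 0 8 := by rw [hPu]; exact mem_iUnion.2 ⟨_, hm⟩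
        exact Or.inl ⟨this.1, this.2, fun k hk => hn (mem_iUnion.2 ⟨k, hk⟩)⟩
      · obtain ⟨k, hk, hzk⟩ := mem_iUnion₂.1 hm
        exact Or.inr ⟨k, (Finset.mem_filter.1 hk).2, hzk⟩
    have h3card : ({i, j, l} : Finset (Fin 5)).card = 3 := by
      rw [Finset.card_insert_of_notMem (by simp [hij, hil]),
        Finset.card_insert_of_notMem (by simp [hjl]), Finset.card_singleton]
    have hall : ∀ p ∈ ({i, j, l} : Finset (Fin 5)), ∃ t, t.1 = p ∧ z ∈ P' t := fun p hp => by
      simp only [Finset.mem_insert, Finset.mem_singleton] at hp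
      rcases hp with rfl | rfl | rfl
      exacts [⟨_, rfl, hu⟩, ⟨_, rfl, hv⟩, ⟨_, rfl, hw⟩]
    by_cases hV : ∃ k, z ∈ closure (V k)
    · obtain ⟨k, hk⟩ := hV
      have hk' : ∀ k', z ∈ closure (V k') → k' = k := fun k' h' => by
        by_contra hne
        exact disjoint_left.1 (hVd k' k hne) h' hk
      have hsub : (({i, j, l} : Finset (Fin 5)).erase (c k)) ⊆ (C.T z).erase (c k) := by
        intro p hp
        obtain ⟨hpc, hp⟩ := Finset.mem_erase.1 hp
        obtain ⟨t, rfl, ht⟩ := hall p hp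
        rcases kind t ht with ⟨h, -, -⟩ | ⟨k', hk'', hzk'⟩
        · exact Finset.mem_erase.2 ⟨hpc, C.mem_T.2 h⟩
        · exact absurd (by rw [← hk'', hk' k' hzk']) hpc
      have hzV : z ∉ V k := fun hzV => by
        have : ({i, j, l} : Finset (Fin 5)) ⊆ {c k} := fun p hp => by
          obtain ⟨t, rfl, ht⟩ := hall p hp
          rcases kind t ht with ⟨-, -, hn⟩ | ⟨k', hk'', hzk'⟩
          · exact absurd hzV (hn k)
          · rw [Finset.mem_singleton, ← hk'', hk' k' hzk']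
        have := Finset.card_le_card this
        rw [h3card, Finset.card_singleton] at this
        omega
      have h1' := Finset.card_le_card hsub
      have h2' := (hp k).frontier z hk hzV
      have h3' := Finset.pred_card_le_card_erase (s := ({i, j, l} : Finset (Fin 5))) (a := c k)
      rw [h3card] at h3'
      omega
    · have first : ∀ t, z ∈ P' t → z ∈ C.F t.1 ∧ z ∈ closedBall (0:ℂ) 8 := fun t ht => by
        rcases kind t ht with ⟨h, hd, -⟩ | ⟨k, -, hk⟩
        · exact ⟨h, hd⟩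
        · exact absurd ⟨k, hk⟩ hV
      have hsub : ({i, j, l} : Finset (Fin 5)) ⊆ C.T z := fun p hp => by
        obtain ⟨t, rfl, ht⟩ := hall p hp
        exact C.mem_T.2 (first t ht).1
      obtain ⟨k, hk⟩ := mem_iUnion.1
        (hcov ⟨(first _ hu).2, show 3 ≤ (C.T z).card from h3card ▸ Finset.card_le_card hsub⟩)
      exact hV ⟨k, subset_closure hk⟩

/-- Two stages of centres give a contradiction. -/
theorem false_of_stages (S : Set ℂ) (hS : IsClosed S) (hSQ : S ⊆ C.high)
    (h₁ : ∀ q ∈ S, C.Good q S) (h₂ : ∀ q ∈ C.high \ S, C.Good q (C.high \ S)) : False := by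
  refine C.false_of_patches fun r hr => ?_
  set D := closedBall (0:ℂ) 8
  have hD : IsCompact D := isCompact_closedBall _ _
  have hQ : IsCompact (D ∩ C.high) := hD.inter_right (C.isClosed_card_ge 3)
  obtain ⟨n, V, c, hp, hVO, hd, hcov⟩ := C.patched_stage hr 6 (O := univ)
    (hD.inter_right hS) inter_subset_left isOpen_univ (subset_univ _)
    (inter_subset_right.trans hSQ) (fun x _ => by omega)
    (fun q hq => (h₁ q hq.2).mono C inter_subset_right)
  have hY : IsCompact ((D ∩ C.high) \ ⋃ k, V k) := hQ.diff (isOpen_iUnion fun k => (hp k).isOpen)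
  have hYQ : (D ∩ C.high) \ ⋃ k, V k ⊆ C.high \ S := fun z hz =>
    ⟨hz.1.2, fun h => hz.2 (hcov ⟨hz.1.1, h⟩)⟩
  have hrest := C.patched_stage hr 6 (O := univ \ ⋃ k, closure (V k)) hY
    (fun z hz => hz.1.1) (isOpen_univ.sdiff (isClosed_iUnion_of_finite fun k => isClosed_closure))
    (fun z hz => ⟨mem_univ z, fun h => by
      obtain ⟨k, hk⟩ := mem_iUnion.1 h
      have := (hp k).frontier z hk fun h' => hz.2 (mem_iUnion.2 ⟨k, h'⟩)
      have := Finset.pred_card_le_card_erase (s := C.T z) (a := c k)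
      have : 3 ≤ (C.T z).card := hz.1.2
      omega⟩)
    (fun z hz => hz.1.2) (fun x _ => by omega) (fun q hq => (h₂ q (hYQ hq)).mono C hYQ)
  obtain ⟨m, W, e, hWp, hWO, hWd, hXW⟩ := C.patched_append hp hVO hd Subset.rfl hrest
  exact ⟨m, W, e, hWp, hWO, hWd, fun x hx => hXW (by
    by_cases hxV : x ∈ ⋃ k, V k
    · exact Or.inl hxV
    · exact Or.inr ⟨hx, hxV⟩)⟩

/-- One stage. -/
theorem false_of_good (h : ∀ q ∈ C.high, C.Good q C.high) : False :=
  C.false_of_stages C.high (C.isClosed_card_ge 3) subset_rfl h (fun _ hq => absurd hq.1 hq.2)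

end Cfg

end Vale.Agent.P032Baire
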