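import Vale.Agent.P032Baire.Base

open Set Metric Filter Topology

namespace Vale.Agent.P032Baire

lemma re_sq_add_im_sq {u : ℂ} (hu : ‖u‖ = 1) : u.re ^ 2 + u.im ^ 2 = 1 := by
  have := Complex.sq_norm u; rw [hu, Complex.normSq_apply] at this; nlinarith

lemma abs_dot_le (u v : ℂ) : |dot u v| ≤ ‖u‖ * ‖v‖ := by
  have hu := Complex.sq_norm u
  have hv := Complex.sq_norm v
  rw [Complex.normSq_apply] at hu hv
  refine abs_le_of_sq_le_sq ?_ (by positivity)
  rw [mul_pow, hu, hv, dot]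
  nlinarith [sq_nonneg (u.re * v.im - u.im * v.re)]

/-- An infinite plane set has a nearly straight two-step path. -/
lemma exists_straight_path {S : Set ℂ} (hS : S.Infinite) {ε : ℝ} (hε : 0 < ε) :
    ∃ r ∈ S, ∃ p ∈ S, ∃ q ∈ S, r ≠ p ∧ q ≠ p ∧
      ‖(‖q - p‖⁻¹ : ℝ) • (q - p) + (‖r - p‖⁻¹ : ℝ) • (r - p)‖ < ε := by
  obtain ⟨t, -, htf, ht⟩ :=
    finite_cover_balls_of_compact (isCompact_sphere (0:ℂ) 1) (half_pos hε)
  let dir : ℂ → ℂ → ℂ := fun x y => (‖y - x‖⁻¹ : ℝ) • (y - x)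
  let label : ℂ → Set ℂ := fun p => {x ∈ t | ∃ r ∈ S, r ≠ p ∧ dir r p ∈ ball x (ε/2)}
  obtain ⟨p, hp, q, hq, hpq, hl⟩ := hS.exists_ne_map_eq_of_mapsTo (f := label) (t := 𝒫 t)
    (fun p _ => fun x hx => hx.1) htf.powerset
  have hmem : dir p q ∈ sphere (0:ℂ) 1 := by
    rw [mem_sphere_zero_iff_norm]
    exact norm_smul_inv_norm (sub_ne_zero.2 hpq.symm)
  obtain ⟨x, hx, hd⟩ := mem_iUnion₂.1 (ht hmem)
  have hxq : x ∈ label q := ⟨hx, p, hp, hpq, hd⟩
  rw [← hl] at hxq
  obtain ⟨-, r, hr, hrp, hd'⟩ := hxq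
  refine ⟨r, hr, p, hp, q, hq, hrp, hpq.symm, ?_⟩
  have : (‖r - p‖⁻¹ : ℝ) • (r - p) = -dir r p := by
    show _ = -((‖p - r‖⁻¹ : ℝ) • (p - r))
    rw [← smul_neg, neg_sub, norm_sub_rev]
  rw [this, ← sub_eq_add_neg, ← dist_eq_norm]
  linarith [dist_triangle_right (dir p q) (dir r p) x, mem_ball.1 hd, mem_ball.1 hd']

lemma infinite_inter_ball {K : Set ℂ} (hK : IsPreconnected K) {x y : ℂ} (hx : x ∈ K) (hy : y ∈ K)
    (hne : x ≠ y) {r : ℝ} (hr : 0 < r) : (K ∩ ball x r).Infinite := by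
  refine Set.Infinite.of_image (fun z => dist z x) ?_
  refine (Ioo_infinite (lt_min hr (dist_pos.2 hne.symm))).mono fun t ht => ?_
  obtain ⟨z, hz, hzt⟩ := hK.intermediate_value hx hy
    (by fun_prop : Continuous fun z => dist z x).continuousOn
    (show t ∈ Icc (dist x x) (dist y x) from
      ⟨by simpa using ht.1.le, (ht.2.trans_le (min_le_right _ _)).le⟩)
  refine ⟨z, ⟨hz, mem_ball.2 ?_⟩, hzt⟩
  rw [show dist z x = t from hzt]
  exact ht.2.trans_le (min_le_left _ _)

/-- Squared distance from a point of one unit arc to a point at distance one from its middle. -/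
lemma dist_mid_arc {u v : ℂ} (hu : ‖u‖ = 1) (hv : ‖v‖ = 1) (m : ℂ) (t : ℝ) :
    dist (m + v + u) (arc m v t) ^ 2 =
      1 + 4 * t * (t * (1 + dot u v) - dot u (v * Complex.I)) / (1 + t ^ 2) := by
  have u1 := re_sq_add_im_sq hu
  have v1 := re_sq_add_im_sq hv
  have ht := (one_add_sq_pos t).ne'
  rw [dist_sq]
  simp [arc, turn, dot]
  field_simp
  linear_combination (4 * t^2 * (1 + t^2)) * v1 + (1 + t^2)^2 * u1

lemma straddle_mid_arc {u v : ℂ} (hu : ‖u‖ = 1) (hv : ‖v‖ = 1) (m : ℂ) {τ : ℝ} (hτ : 0 < τ)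
    (h : τ * |1 + dot u v| < |dot u (v * Complex.I)|) :
    (dist (m + v + u) (arc m v τ) - 1) * (dist (m + v + u) (arc m v (-τ)) - 1) < 0 := by
  set P := dot u v
  set Q := dot u (v * Complex.I)
  set A := τ * (1 + P)
  have hA : |A| < |Q| := by simpa [A, abs_mul, abs_of_pos hτ] using h
  have hN := one_add_sq_pos τ
  have k1 : dist (m + v + u) (arc m v τ) ^ 2 - 1 = 4 * τ / (1 + τ^2) * (A - Q) := by
    rw [dist_mid_arc hu hv]; ring
  have k2 : dist (m + v + u) (arc m v (-τ)) ^ 2 - 1 = 4 * τ / (1 + τ^2) * (A + Q) := by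
    rw [dist_mid_arc hu hv, neg_sq]; ring
  have hk : 0 < 4 * τ / (1 + τ^2) := by positivity
  have := dist_nonneg (x := m + v + u) (y := arc m v τ)
  have := dist_nonneg (x := m + v + u) (y := arc m v (-τ))
  obtain ⟨hl, hu'⟩ := abs_lt.1 hA
  rcases le_or_gt 0 Q with hQ | hQ
  · rw [abs_of_nonneg hQ] at hl hu'
    refine mul_neg_of_neg_of_pos ?_ ?_ <;> nlinarith
  · rw [abs_of_neg hQ] at hl hu'
    refine mul_neg_of_pos_of_neg ?_ ?_ <;> nlinarith

lemma straddle_of_directions {u h k : ℂ} (m : ℂ) (hu : ‖u‖ = 1) (hh : h ≠ 0) (hk : k ≠ 0)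
    (hh' : ‖h‖ < 1/5) (hk' : ‖k‖ < 1/5)
    (hδ : ‖(‖k‖⁻¹ : ℝ) • k + (‖h‖⁻¹ : ℝ) • h‖ < 1/10)
    (hc : 2/5 < |dot u ((‖h‖⁻¹ : ℝ) • h)|) :
    (dist (m + u) (m + h) - 1) * (dist (m + u) (m + k) - 1) < 0 := by
  have hh0 := norm_pos_iff.2 hh
  have hk0 := norm_pos_iff.2 hk
  set P := dot u ((‖h‖⁻¹ : ℝ) • h) with hP
  set Q := dot u ((‖k‖⁻¹ : ℝ) • k) with hQ
  have hPQ : |Q + P| < 1/10 := by
    have := abs_dot_le u ((‖k‖⁻¹ : ℝ) • k + (‖h‖⁻¹ : ℝ) • h)
    rw [hu, one_mul] at this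
    refine lt_of_le_of_lt (le_of_eq ?_) (this.trans_lt hδ)
    simp [hP, hQ, dot]; congr 1; ring
  have key : ∀ x : ℂ, x ≠ 0 → dist (m + u) (m + x) ^ 2 - 1 =
      ‖x‖ * (‖x‖ - 2 * dot u ((‖x‖⁻¹ : ℝ) • x)) := by
    intro x hx
    have hx0 := (norm_pos_iff.2 hx).ne'
    have hx2 := Complex.sq_norm x
    rw [Complex.normSq_apply] at hx2
    rw [dist_sq]
    simp [dot]
    field_simp
    linear_combination re_sq_add_im_sq hu - hx2
  have k1 : dist (m + u) (m + h) ^ 2 - 1 = ‖h‖ * (‖h‖ - 2 * P) := key h hh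
  have k2 : dist (m + u) (m + k) ^ 2 - 1 = ‖k‖ * (‖k‖ - 2 * Q) := key k hk
  have := dist_nonneg (x := m + u) (y := m + h)
  have := dist_nonneg (x := m + u) (y := m + k)
  obtain ⟨hl, hr⟩ := abs_lt.1 hPQ
  rcases le_or_gt 0 P with hP0 | hP0
  · rw [abs_of_nonneg hP0] at hc
    refine mul_neg_of_neg_of_pos ?_ ?_ <;> nlinarith
  · rw [abs_of_neg hP0] at hc
    refine mul_neg_of_pos_of_neg ?_ ?_ <;> nlinarith

/-- A connected set covered by finitely many closed totally disconnected sets is a point. -/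
lemma subsingleton_of_finite_cover {ι : Type*} [Finite ι] (E : ι → Set ℂ)
    (hEc : ∀ i, IsClosed (E i)) (hEt : ∀ i, IsTotallyDisconnected (E i)) {K : Set ℂ}
    (hK : IsPreconnected K) (hKE : K ⊆ ⋃ i, E i) : K.Subsingleton := by
  classical
  have := Fintype.ofFinite ι
  suffices H : ∀ t : Finset ι, ∀ L : Set ℂ, IsPreconnected L → L ⊆ ⋃ i ∈ t, E i → L.Subsingleton by
    exact H Finset.univ K hK (by simpa using hKE)
  intro t
  induction t using Finset.induction_on with
  | empty => intro L _ hL; simp at hL; simp [hL]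
  | insert i t hi ih =>
    intro L hL hsub
    rw [Finset.set_biUnion_insert] at hsub
    set B := ⋃ j ∈ t, E j with hBdef
    have hB : IsClosed B := isClosed_biUnion_finset fun j _ => hEc j
    by_cases hLB : L ⊆ B
    · exact ih L hL hLB
    obtain ⟨x, hxL, hxB⟩ := not_subset.1 hLB
    intro p hp q hq
    suffices ∀ y ∈ L, y = x by rw [this p hp, this q hq]
    intro y hy
    by_contra hne
    obtain ⟨r, hr, hrB⟩ := Metric.nhds_basis_closedBall.mem_iff.1 (hB.isOpen_compl.mem_nhds hxB)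
    set δ := min r (dist y x / 2) with hδ
    have hδ0 : 0 < δ := lt_min hr (half_pos (dist_pos.2 hne))
    have hxA : x ∈ E i := (hsub hxL).resolve_right hxB
    obtain ⟨V, hV, hxV, hVb, hVK⟩ := exists_frontier_avoiding_of_components
      (E i ∩ closedBall x δ) {x} (ball x δ) ((isCompact_closedBall x δ).inter_left (hEc i))
      (singleton_subset_iff.2 ⟨hxA, mem_closedBall_self hδ0.le⟩) isCompact_singleton isOpen_ball
      (fun z hz w hw => by
        rw [mem_singleton_iff.1 hz] at hw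
        have hsub' := (connectedComponentIn_subset (E i ∩ closedBall x δ) x).trans inter_subset_left
        rw [hEt i _ hsub' isPreconnected_connectedComponentIn hw
          (mem_connectedComponentIn ⟨hxA, mem_closedBall_self hδ0.le⟩)]
        exact mem_ball_self hδ0)
    obtain ⟨w, hw, hw1, hw2⟩ := hL V (closure V)ᶜ hV isClosed_closure.isOpen_compl (fun w hw => by
      by_cases hc : w ∈ closure V
      · rcases hsub hw with h | h
        · exact Or.inl (hVK w hc ⟨h, ball_subset_closedBall (hVb hc)⟩)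
        · exact absurd h (hrB ((closedBall_subset_closedBall (min_le_left _ _))
            (ball_subset_closedBall (hVb hc))))
      · exact Or.inr hc) ⟨x, hxL, hxV rfl⟩ ⟨y, hy, fun hc => by
        have := mem_ball.1 (hVb hc)
        linarith [min_le_right r (dist y x / 2), dist_pos.2 hne]⟩
    exact hw2 (subset_closure hw1)

namespace Cfg

variable (C : Cfg)

/-- A point on the circle about `m` in two closures only forbids a continuum through `m` in the
intersection of the same two closures. -/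
lemma pair_no_continuum {a b : Fin 5} (hab : a ≠ b) {K : Set ℂ} (hK : IsPreconnected K)
    (hKF : K ⊆ C.F a ∩ C.F b) {x y w : ℂ} (hx : x ∈ K) (hy : y ∈ K) (hne : x ≠ y)
    (hw : dist x w = 1) (hTw : C.T w ⊆ {a, b}) : False := by
  obtain ⟨ε, hε, hball⟩ := C.exists_T_ball w
  have hT : ∀ z, dist z w < ε → C.T z ⊆ {a, b} := fun z hz => (hball z hz).trans hTw
  set e : ℂ := w - x with he_def
  have he : ‖e‖ = 1 := by rw [he_def, ← dist_eq_norm, dist_comm]; exact hw
  have hz0 : dist (arc x e 0) w < ε/2 := by simp [arc_zero, he_def, hε]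
  obtain ⟨η, hη, hηw⟩ := Metric.eventually_nhds_iff.1
    (((continuous_arc x e).dist continuous_const).continuousAt.eventually_lt continuousAt_const hz0)
  obtain ⟨t, ht, hty⟩ : ∃ t, dist (arc x e t) w < ε/2 ∧ dist y (arc x e t) ≠ 1 := by
    by_cases h0 : dist y (arc x e 0) = 1
    · by_cases h1 : dist y (arc x e (η/2)) = 1
      · refine ⟨-(η/2), hηw (by simp [abs_of_pos hη]; linarith), fun h2 => ?_⟩
        exact not_three_on_two_circles x y e he hne (by linarith : η/2 ≠ 0) h0 h1 h2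
      · exact ⟨η/2, hηw (by simp [abs_of_pos hη]; linarith), h1⟩
    · exact ⟨0, hz0, h0⟩
  set v := e * turn t with hv
  have hvn : ‖v‖ = 1 := by simp [hv, he, norm_turn]
  set σ : ℝ := if 1 < dist y (arc x e t) then -1 else 1 with hσ
  have hσ1 : |σ| = 1 := by rw [hσ]; split_ifs <;> simp
  obtain ⟨s, hs0, hsε, hs1, hsy⟩ : ∃ s : ℝ, 0 < s ∧ s < ε/2 ∧ s < 1 ∧ s < |dist y (arc x e t) - 1| := by
    obtain ⟨s, hs0, hs⟩ := exists_between (lt_min (lt_min (half_pos hε) one_pos)
      (abs_pos.2 (sub_ne_zero.2 hty)))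
    simp only [lt_min_iff] at hs
    exact ⟨s, hs0, hs.1.1, hs.1.2, hs.2⟩
  set z := arc x e t + (σ * s) • v with hz
  have hzd : dist z (arc x e t) = s := by
    simp [hz, dist_eq_norm, hvn, hσ1, abs_of_pos hs0]
  have hzx : dist x z = 1 + σ * s := by
    have : z - x = (1 + σ * s) • v := by simp [hz, arc, hv, add_smul]; ring
    rw [dist_comm, dist_eq_norm, this, norm_smul, hvn, mul_one, Real.norm_of_nonneg]
    nlinarith [abs_le.1 hσ1.le]
  have hzy : |dist y z - dist y (arc x e t)| ≤ s := by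
    rw [dist_comm y z, dist_comm y (arc x e t), ← hzd]; exact abs_dist_sub_le _ _ _
  have hstr : (dist x z - 1) * (dist y z - 1) < 0 := by
    rw [hzx, hσ]
    obtain ⟨l, u⟩ := abs_le.1 hzy
    split_ifs with hc
    · rw [abs_of_pos (by linarith)] at hsy
      nlinarith
    · have : dist y (arc x e t) < 1 := lt_of_le_of_ne (not_lt.1 hc) hty
      rw [abs_of_neg (by linarith)] at hsy
      nlinarith
  let W : Set ℂ := {z' | (dist x z' - 1) * (dist y z' - 1) < 0} ∩ ball w ε
  have hWo : IsOpen W := (isOpen_lt (by fun_prop) continuous_const).inter isOpen_ball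
  have hWsub : W ⊆ C.F a ∩ C.F b := by
    rintro z' ⟨hz', hb⟩
    have key : ∀ q r, q ∈ K → r ∈ K → dist q z' < 1 → 1 < dist r z' → z' ∈ C.F a ∩ C.F b := by
      intro q r hq hr h1 h2
      obtain ⟨m, hm, hm1⟩ := hK.intermediate_value hq hr
        (by fun_prop : Continuous fun m => dist m z').continuousOn ⟨h1.le, h2.le⟩
      exact C.pair_arc hT (hKF hm).1 (hKF hm).2 hb hm1
    rcases mul_neg_iff.1 (show (dist x z' - 1) * (dist y z' - 1) < 0 from hz') with ⟨h1, h2⟩ | ⟨h1, h2⟩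
    · exact key y x hy hx (by linarith) (by linarith)
    · exact key x y hx hy (by linarith) (by linarith)
  have hzW : z ∈ W := ⟨hstr, by
    rw [mem_ball]; exact (dist_triangle z (arc x e t) w).trans_lt (by linarith)⟩
  rw [C.no_open_in_two hab hWo hWsub] at hzW
  exact hzW

/-- If the circle about `m` sees only two colours outside a band narrower than one, some antipodal
pair in the band misses both. -/
lemma band_antipodal {m a : ℂ} (ha : ‖a‖ = 1) {c : ℝ} (hc : c < 1/2) {d e : Fin 5}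
    (H : ∀ u : ℂ, ‖u‖ = 1 → c < |dot u a| → C.T (m + u) ⊆ {d, e}) :
    ∃ v : ℂ, ‖v‖ = 1 ∧ |dot v a| ≤ c ∧ (d ∉ C.T (m + v) ∧ e ∉ C.T (m + v)) ∧
      (d ∉ C.T (m - v) ∧ e ∉ C.T (m - v)) := by
  have a1 := re_sq_add_im_sq ha
  set r3 := Real.sqrt 3 with hr3
  have r3sq : r3 ^ 2 = 3 := Real.sq_sqrt (by norm_num)
  have r3b : 17/10 < r3 ∧ r3 < 18/10 := by
    constructor <;> nlinarith [Real.sqrt_nonneg 3]
  have flip : ∀ {f g : Fin 5} {z z' : ℂ}, C.T z ⊆ {f, g} → dist z z' = 1 → z' ∈ C.F f →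
      z ∈ C.F g := by
    intro f g z z' hT hd hz'
    by_contra hg
    refine C.dist_ne_one (C.interior_of_single (a := f) fun i hi => ?_) hz' hd
    have := hT hi
    simp only [Finset.mem_insert, Finset.mem_singleton] at this ⊢
    exact this.resolve_right fun h => hg (C.mem_T.1 (h ▸ hi))
  set t0 := 2 - r3 with ht0
  have hdot : ∀ t : ℝ, dot (a * turn t) a = (1 - t^2) / (1 + t^2) := by
    intro t
    simp [dot, turn]
    linear_combination ((1 - t^2) / (1 + t^2)) * a1
  have hP : ∀ t ∈ Icc (-t0) t0, 1/2 ≤ dot (a * turn t) a := by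
    intro t ht
    rw [hdot, le_div_iff₀ (one_add_sq_pos t)]
    nlinarith [ht.1, ht.2]
  set L := (fun t => m + a * turn t) '' Icc (-t0) t0
  have hLT : ∀ z ∈ L, C.T z ⊆ {d, e} := by
    rintro _ ⟨t, ht, rfl⟩
    refine H _ (by simp [ha, norm_turn]) ?_
    rw [abs_of_nonneg (by linarith [hP t ht])]
    linarith [hP t ht]
  obtain ⟨w, hwL, hwd, hwe⟩ : ∃ w ∈ L, w ∈ C.F d ∧ w ∈ C.F e := by
    have hLpre : IsPreconnected L := isPreconnected_Icc.image _
      (continuous_const.add (continuous_const.mul continuous_turn)).continuousOn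
    have hcov : L ⊆ C.F d ∪ C.F e := by
      intro z hz
      obtain ⟨i, hi⟩ := C.cover z
      have := hLT z hz (C.mem_T.2 hi)
      simp only [Finset.mem_insert, Finset.mem_singleton] at this
      rcases this with rfl | rfl
      · exact Or.inl hi
      · exact Or.inr hi
    have h0 : m + a * turn (-t0) ∈ L := ⟨_, ⟨le_rfl, by linarith [r3b.2]⟩, rfl⟩
    have h1 : m + a * turn t0 ∈ L := ⟨_, ⟨by linarith [r3b.2], le_rfl⟩, rfl⟩
    have hd1 : dist (m + a * turn (-t0)) (m + a * turn t0) = 1 := by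
      rw [dist_eq_norm, show m + a * turn (-t0) - (m + a * turn t0) = a * (turn (-t0) - turn t0) by ring,
        norm_mul, ha, one_mul, ← dist_eq_norm, ← pow_left_inj₀ dist_nonneg zero_le_one two_ne_zero,
        dist_sq]
      have h4 : 1 + t0 ^ 2 = 4 * t0 := by rw [ht0]; linear_combination r3sq
      have : t0 ≠ 0 := by intro h; rw [h] at h4; norm_num at h4
      simp [turn, h4]
      field_simp
      norm_num
    have hboth : ∀ {f g : Fin 5}, (∀ z ∈ L, C.T z ⊆ {f, g}) → L ⊆ C.F f ∪ C.F g →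
        (L ∩ C.F g).Nonempty := fun {f g} hT hc =>
      (hc h1).elim (fun h => ⟨_, h0, flip (hT _ h0) hd1 h⟩) (fun h => ⟨_, h1, h⟩)
    obtain ⟨w, hw, hw'⟩ := isPreconnected_closed_iff.1 hLpre _ _ (C.isClosed_F d) (C.isClosed_F e)
      hcov (hboth (fun z hz => by rw [Finset.pair_comm]; exact hLT z hz)
        (by rw [union_comm]; exact hcov)) (hboth hLT hcov)
    exact ⟨w, hw, hw'⟩
  obtain ⟨t, ht, rfl⟩ := hwL
  set u := a * turn t with hu_def
  have hu : ‖u‖ = 1 := by simp [hu_def, ha, norm_turn]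
  have u1 := re_sq_add_im_sq hu
  set Q := dot u (a * Complex.I) with hQ
  set σ : ℝ := if 0 ≤ Q then -1 else 1 with hσ
  have hσ2 : σ ^ 2 = 1 := by rw [hσ]; split_ifs <;> norm_num
  set u' : ℂ := u * ⟨1/2, σ * r3 / 2⟩ with hu'_def
  have hu' : ‖u'‖ = 1 := by
    rw [hu'_def, norm_mul, hu, one_mul, Complex.norm_def, Complex.normSq_mk, Real.sqrt_eq_one]
    linear_combination (r3^2 / 4) * hσ2 + (1/4 : ℝ) * r3sq
  have huu : ‖u' - u‖ = 1 := by
    rw [hu'_def, show u * (⟨1/2, σ * r3 / 2⟩ : ℂ) - u = u * (⟨1/2, σ * r3 / 2⟩ - 1) by ring,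
      norm_mul, hu, one_mul, Complex.norm_def, Complex.normSq_apply, Real.sqrt_eq_one]
    simp
    linear_combination (r3^2 / 4) * hσ2 + (1/4 : ℝ) * r3sq
  have hd2 : dot u' a = dot u a / 2 + r3 / 2 * |Q| := by
    have : dot u' a = dot u a / 2 - σ * r3 / 2 * Q := by simp [hu'_def, hQ, dot]; ring
    rw [this, hσ]; split_ifs with h
    · rw [abs_of_nonneg h]; ring
    · rw [abs_of_neg (not_le.1 h)]; ring
  have hPu : 1/2 ≤ dot u a := hP t ht
  have hPQ : dot u a ^ 2 + Q ^ 2 = 1 := by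
    simp [hQ, dot]
    linear_combination (a.re^2 + a.im^2) * u1 + a1
  have hsum : 1 ≤ dot u a + r3 * |Q| := by
    have : |Q| ≤ 1 := abs_le.2 ⟨by nlinarith, by nlinarith⟩
    have : dot u a ≤ 1 := by nlinarith
    nlinarith [sq_abs Q, abs_nonneg Q, r3b.1]
  have hTu : C.T (m + u) ⊆ {d, e} := hLT _ ⟨t, ht, rfl⟩
  have hTu' : C.T (m + u') ⊆ {d, e} :=
    H u' hu' (lt_of_lt_of_le hc ((le_abs_self _).trans' (by rw [hd2]; linarith)))
  have hdist : dist (m + u') (m + u) = 1 := by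
    rw [dist_eq_norm, add_sub_add_left_eq_sub, huu]
  have hu'e : m + u' ∈ C.F e := flip hTu' hdist hwd
  have hu'd : m + u' ∈ C.F d := flip (by rw [Finset.pair_comm]; exact hTu') hdist hwe
  have excl : ∀ x y : ℂ, ‖x‖ = 1 → ‖y‖ = 1 → ‖y - x‖ = 1 → C.T (m + y) ⊆ {d, e} →
      m + x ∈ C.F d → m + x ∈ C.F e → d ∉ C.T (m + (y - x)) ∧ e ∉ C.T (m + (y - x)) := by
    intro x y hx hy hxy hT hxd hxe
    have hp : dist (m + (y - x)) (m + y) = 1 := by
      rw [dist_eq_norm, add_sub_add_left_eq_sub, sub_sub_cancel_left, norm_neg, hx]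
    have hr : dist (m + x) (m + y) = 1 := by
      rw [dist_eq_norm, add_sub_add_left_eq_sub, norm_sub_rev, hxy]
    have h3 : dist (m + (y - x)) (m + x) ^ 2 = 3 := by
      have x1 := re_sq_add_im_sq hx
      have y1 := re_sq_add_im_sq hy
      have z1 := re_sq_add_im_sq hxy
      simp at z1
      rw [dist_sq]; simp
      linear_combination 2 * x1 - y1 + 2 * z1
    have hne : m + (y - x) ≠ m + x := by
      intro h; rw [h, dist_self] at h3; norm_num at h3
    have hlt : dist (m + (y - x)) (m + x) < 2 := by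
      nlinarith [dist_nonneg (x := m + (y - x)) (y := m + x)]
    exact ⟨fun h => C.meet_excl hT (C.mem_T.1 h) hxe hp hr hne hlt,
      fun h => C.meet_excl (by rw [Finset.pair_comm]; exact hT) (C.mem_T.1 h) hxd hp hr hne hlt⟩
  have h1 := excl u u' hu hu' huu hTu' hwd hwe
  have h2 := excl u' u hu' hu (by rw [norm_sub_rev, huu]) hTu hu'd hu'e
  refine ⟨u' - u, huu, ?_, h1, ?_⟩
  · by_contra h
    obtain ⟨i, hi⟩ := C.cover (m + (u' - u))
    have := H _ huu (not_le.1 h) (C.mem_T.2 hi)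
    simp only [Finset.mem_insert, Finset.mem_singleton] at this
    rcases this with rfl | rfl
    · exact h1.1 (C.mem_T.2 hi)
    · exact h1.2 (C.mem_T.2 hi)
  · rw [show m - (u' - u) = m + (u - u') by ring]; exact h2

/-- The intersection of three of the closures contains no continuum. -/
theorem isTotallyDisconnected_three {a b c : Fin 5} (hab : a ≠ b) (hac : a ≠ c) (hbc : b ≠ c) :
    IsTotallyDisconnected (C.F a ∩ C.F b ∩ C.F c) := by
  intro K hKF hK x₀ hx₀ y₀ hy₀
  by_contra hne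
  have hcard : ({a, b, c} : Finset (Fin 5))ᶜ.card = 2 := by
    rw [Finset.card_compl, Finset.card_insert_of_notMem (by simp [hab, hac]),
      Finset.card_insert_of_notMem (by simp [hbc]), Finset.card_singleton]
    rfl
  obtain ⟨d, e, -, hde⟩ := Finset.card_eq_two.1 hcard
  have hsplit : ∀ i : Fin 5, i ∈ ({a, b, c} : Finset (Fin 5)) ↔ i ≠ d ∧ i ≠ e := by
    intro i
    have : i ∈ ({a, b, c} : Finset (Fin 5))ᶜ ↔ i = d ∨ i = e := by rw [hde]; simp
    rw [Finset.mem_compl] at this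
    tauto
  -- a point straddled by a continuum in the three closures has only the other two colours
  have straddled : ∀ L : Set ℂ, IsPreconnected L → L ⊆ C.F a ∩ C.F b ∩ C.F c →
      ∀ p q r, q ∈ L → r ∈ L → (dist p q - 1) * (dist p r - 1) < 0 → C.T p ⊆ {d, e} := by
    intro L hL hLF p q r hq hr hs i hi
    by_contra hn
    simp only [Finset.mem_insert, Finset.mem_singleton, not_or] at hn
    have := (hsplit i).2 hn
    simp only [Finset.mem_insert, Finset.mem_singleton] at this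
    rcases this with rfl | rfl | rfl
    · exact C.crossing_prod hL (fun z hz => (hLF hz).1.1) hq hr hs (C.mem_T.1 hi)
    · exact C.crossing_prod hL (fun z hz => (hLF hz).1.2) hq hr hs (C.mem_T.1 hi)
    · exact C.crossing_prod hL (fun z hz => (hLF hz).2) hq hr hs (C.mem_T.1 hi)
  have hempty : ∀ p, C.T p ⊆ {a, b, c} → C.T p ⊆ {d, e} → False := by
    intro p h1 h2
    obtain ⟨i, hi⟩ := C.T_nonempty p
    have := (hsplit i).1 (h1 hi)
    have := h2 hi
    simp only [Finset.mem_insert, Finset.mem_singleton] at this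
    tauto
  have hinf := infinite_inter_ball hK hx₀ hy₀ hne (show (0:ℝ) < 1/10 by norm_num)
  obtain ⟨r, hr, m, hm, q, hq, hrm, hqm, hdir⟩ :=
    exists_straight_path hinf (show (0:ℝ) < 1/10 by norm_num)
  have hsmall : ∀ x ∈ K ∩ ball x₀ (1/10 : ℝ), ‖x - m‖ < 1/5 := by
    intro x hx
    rw [← dist_eq_norm]
    linarith [dist_triangle_right x m x₀, mem_ball.1 hx.2, mem_ball.1 hm.2]
  -- first centre
  set ax : ℂ := (‖q - m‖⁻¹ : ℝ) • (q - m) with hax
  have hax1 : ‖ax‖ = 1 := norm_smul_inv_norm (sub_ne_zero.2 hqm)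
  obtain ⟨v, hv, -, hv1, -⟩ := C.band_antipodal hax1 (show (2/5 : ℝ) < 1/2 by norm_num)
    (m := m) (d := d) (e := e) (fun u hu hc => straddled K hK hKF (m + u) q r hq.1 hr.1 (by
      have := straddle_of_directions (h := q - m) (k := r - m) m hu (sub_ne_zero.2 hqm)
        (sub_ne_zero.2 hrm) (hsmall q hq) (hsmall r hr) (by rw [add_comm]; exact hdir) hc
      simpa using this))
  set z := m + v with hz
  have hTz : C.T z ⊆ {a, b, c} := fun i hi => (hsplit i).2 ⟨fun h => hv1.1 (h ▸ hi), fun h => hv1.2 (h ▸ hi)⟩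
  obtain ⟨ε, hε, hball⟩ := C.exists_T_ball z
  obtain ⟨η, hη, hηz⟩ := Metric.eventually_nhds_iff.1
    (((continuous_arc m v).dist continuous_const).continuousAt.eventually_lt continuousAt_const
      (show dist (arc m v 0) z < ε by simp [arc_zero, hz, hε]))
  obtain ⟨τ, hτ, hτη, hτ1⟩ : ∃ τ : ℝ, 0 < τ ∧ τ < η ∧ τ < 1/5 :=
    ⟨min η (1/5) / 2, by positivity,
      by linarith [min_le_left η (1/5 : ℝ)], by linarith [min_le_right η (1/5 : ℝ)]⟩
  set J := arc m v '' Icc (-τ) τ
  have hJ : IsPreconnected J := isPreconnected_Icc.image _ (continuous_arc m v).continuousOn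
  have hJF : J ⊆ C.F a ∩ C.F b ∩ C.F c := by
    rintro _ ⟨t, ht, rfl⟩
    have hT : C.T (arc m v t) ⊆ {a, b, c} := (hball _ (hηz (by
      rw [dist_zero_right, Real.norm_eq_abs]; exact (abs_le.2 ht).trans_lt hτη))).trans hTz
    obtain ⟨y, hy, hym⟩ : ∃ y ∈ K, y ≠ m := ⟨q, hq.1, hqm⟩
    refine ⟨⟨?_, ?_⟩, ?_⟩ <;> by_contra h
    · refine C.pair_no_continuum hbc hK (fun x hx => ⟨(hKF hx).1.2, (hKF hx).2⟩) hm.1 hy hym.symm
        (dist_arc hv t) fun i hi => ?_
      exact Finset.mem_of_mem_insert_of_ne (hT hi) (fun e => h (C.mem_T.1 (e ▸ hi)))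
    · refine C.pair_no_continuum hac hK (fun x hx => ⟨(hKF hx).1.1, (hKF hx).2⟩) hm.1 hy hym.symm
        (dist_arc hv t) fun i hi => ?_
      have := hT hi
      simp only [Finset.mem_insert, Finset.mem_singleton] at this ⊢
      rcases this with e | e | e
      · exact Or.inl e
      · exact absurd (C.mem_T.1 (e ▸ hi)) h
      · exact Or.inr e
    · refine C.pair_no_continuum hab hK (fun x hx => (hKF hx).1) hm.1 hy hym.symm
        (dist_arc hv t) fun i hi => ?_
      have := hT hi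
      simp only [Finset.mem_insert, Finset.mem_singleton] at this ⊢
      rcases this with e | e | e
      · exact Or.inl e
      · exact Or.inr e
      · exact absurd (C.mem_T.1 (e ▸ hi)) h
  have hJstr : ∀ u : ℂ, ‖u‖ = 1 → τ * |1 + dot u v| < |dot u (v * Complex.I)| →
      C.T (z + u) ⊆ {d, e} := fun u hu h => straddled J hJ hJF _ _ _
    ⟨τ, ⟨by linarith, le_rfl⟩, rfl⟩ ⟨-τ, ⟨le_rfl, by linarith⟩, rfl⟩ (straddle_mid_arc hu hv m hτ h)
  -- second centre
  obtain ⟨w, hw, hwQ, hw1, hw2⟩ := C.band_antipodal (show ‖v * Complex.I‖ = 1 by simp [hv])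
    (show 2 * τ < 1/2 by linarith) (m := z) (d := d) (e := e) (fun u hu hc => hJstr u hu (by
      have : |1 + dot u v| ≤ 2 := by
        refine (abs_add_le _ _).trans ?_
        have := abs_dot_le u v
        rw [hu, hv] at this; simp; linarith
      nlinarith))
  have v1 := re_sq_add_im_sq hv
  have orth : ∀ u : ℂ, ‖u‖ = 1 → dot u v ^ 2 + dot u (v * Complex.I) ^ 2 = 1 := by
    intro u hu
    simp [dot]
    linear_combination (v.re^2 + v.im^2) * re_sq_add_im_sq hu + v1
  obtain ⟨u, hu, huQ, huP, hu0⟩ : ∃ u : ℂ, ‖u‖ = 1 ∧ |dot u (v * Complex.I)| ≤ 2 * τ ∧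
      dot u v ≤ 0 ∧ C.T (z + u) ⊆ {a, b, c} := by
    rcases le_total (dot w v) 0 with h | h
    · exact ⟨w, hw, hwQ, h, fun i hi => (hsplit i).2 ⟨fun e => hw1.1 (e ▸ hi), fun e => hw1.2 (e ▸ hi)⟩⟩
    · refine ⟨-w, by simp [hw], ?_, ?_, fun i hi => ?_⟩
      · have : dot (-w) (v * Complex.I) = -dot w (v * Complex.I) := by simp [dot]; ring
        rw [this, abs_neg]; exact hwQ
      · have : dot (-w) v = -dot w v := by simp [dot]; ring
        linarith
      · rw [← sub_eq_add_neg] at hi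
        exact (hsplit i).2 ⟨fun e => hw2.1 (e ▸ hi), fun e => hw2.2 (e ▸ hi)⟩
  have hQ0 : dot u (v * Complex.I) = 0 := by
    by_contra h
    refine hempty _ hu0 (hJstr u hu ?_)
    have h1 := orth u hu
    have h2 : |1 + dot u v| = 1 + dot u v := abs_of_nonneg (by nlinarith)
    rw [h2]
    have hQ := abs_pos.2 h
    have : 1 + dot u v ≤ |dot u (v * Complex.I)| ^ 2 := by rw [sq_abs]; nlinarith
    nlinarith [mul_le_mul_of_nonneg_left this hτ.le]
  have hP1 : dot u v = -1 := by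
    have h1 := orth u hu; rw [hQ0] at h1; nlinarith
  have huv : u = -v := by
    unfold dot at hP1 hQ0
    simp at hQ0
    apply Complex.ext
    · simp; linear_combination v.re * hP1 - v.im * hQ0 - u.re * v1
    · simp; linear_combination v.im * hP1 + v.re * hQ0 - u.im * v1
  rw [huv] at hu0
  obtain ⟨ε', hε', hball'⟩ := C.exists_T_ball (z + -v)
  obtain ⟨ζ, hζ, hζz⟩ := Metric.eventually_nhds_iff.1
    (((continuous_arc z (-v)).dist continuous_const).continuousAt.eventually_lt continuousAt_const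
      (show dist (arc z (-v) 0) (z + -v) < ε' by simp [arc_zero, hε']))
  obtain ⟨s, hs, hsζ, hs1⟩ : ∃ s : ℝ, 0 < s ∧ s < ζ ∧ s < 1 :=
    ⟨min ζ 1 / 2, by positivity, by linarith [min_le_left ζ (1 : ℝ)], by linarith [min_le_right ζ (1 : ℝ)]⟩
  refine hempty _ ((hball' _ (hζz (y := s) (by
    rw [dist_zero_right, Real.norm_of_nonneg hs.le]; exact hsζ))).trans hu0)
    (hJstr (-v * turn s) (by simp [hv, norm_turn]) ?_)
  have hN := one_add_sq_pos s
  have e1 : dot (-v * turn s) v = -((1 - s^2) / (1 + s^2)) := by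
    simp [dot, turn]; linear_combination (-((1 - s^2) / (1 + s^2))) * v1
  have e2 : dot (-v * turn s) (v * Complex.I) = -(2 * s / (1 + s^2)) := by
    simp [dot, turn]; linear_combination (-(2 * s / (1 + s^2))) * v1
  rw [e1, e2, abs_neg, abs_of_pos (div_pos (by linarith) hN)]
  rw [show 1 + -((1 - s^2) / (1 + s^2)) = 2 * s^2 / (1 + s^2) by field_simp; ring,
    abs_of_nonneg (by positivity), mul_div_assoc']
  refine div_lt_div_of_pos_right ?_ hN
  nlinarith [mul_pos hs hτ]

/-- The set of points in at least three closures contains no continuum. -/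
theorem subsingleton_of_three {K : Set ℂ} (hK : IsPreconnected K) (h : ∀ x ∈ K, 3 ≤ (C.T x).card) :
    K.Subsingleton := by
  classical
  let ι := {s : Finset (Fin 5) // s.card = 3}
  let E : ι → Set ℂ := fun s => {x | (s : Finset (Fin 5)) ⊆ C.T x}
  have hEc : ∀ s, IsClosed (E s) := fun s => by
    have : E s = ⋂ i ∈ (s : Finset (Fin 5)), C.F i := by
      ext x; simp [E, Finset.subset_iff, C.mem_T]
    rw [this]; exact isClosed_biInter fun i _ => C.isClosed_F i
  have hEt : ∀ s, IsTotallyDisconnected (E s) := by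
    rintro ⟨s, hs⟩
    obtain ⟨a, b, c, hab, hac, hbc, rfl⟩ := Finset.card_eq_three.1 hs
    exact fun L hL => C.isTotallyDisconnected_three hab hac hbc L fun x hx =>
      ⟨⟨C.mem_T.1 (hL hx (by simp)), C.mem_T.1 (hL hx (by simp))⟩, C.mem_T.1 (hL hx (by simp))⟩
  refine subsingleton_of_finite_cover E hEc hEt hK fun x hx => ?_
  obtain ⟨s, hs, hcard⟩ := Finset.exists_subset_card_eq (h x hx)
  exact mem_iUnion.2 ⟨⟨s, hcard⟩, hs⟩

end Cfg

end Vale.Agent.P032Baire
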