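import Vale.Agent.P032Baire.Triple
import Vale.Agent.P032Baire.ThreeTD

open Set Metric Filter Topology

namespace Vale.Agent.P032Baire

namespace Cfg

variable (C : Cfg)

/-- A slot on the unit circle about `q`: at most two closures, the same ones nearby on the circle. -/
def Slot (q z : ℂ) : Prop :=
  dist q z = 1 ∧ (C.T z).card ≤ 2 ∧ ∃ ε > 0, ∀ y, dist q y = 1 → dist y z < ε → C.T y = C.T z

/-- A slot comes with an arc of the circle carrying its closures. -/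
lemma slot_arc {q z : ℂ} (hz : C.Slot q z) :
    ∃ τ : ℝ, 0 < τ ∧ τ ≤ 1 ∧ ∀ t ∈ Icc (-τ) τ, C.T (arc q (z - q) t) = C.T z := by
  obtain ⟨hd, -, ε, hε, hT⟩ := hz
  have he : ‖z - q‖ = 1 := by rw [← dist_eq_norm, dist_comm]; exact hd
  obtain ⟨η, hη, hηw⟩ := Metric.eventually_nhds_iff.1
    (((continuous_arc q (z - q)).dist continuous_const).continuousAt.eventually_lt continuousAt_const
      (show dist (arc q (z - q) 0) z < ε by simp [arc_zero, hε]))
  refine ⟨min (η/2) 1, lt_min (half_pos hη) one_pos, min_le_right _ _, fun t ht =>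
    hT _ (dist_arc he t) (hηw ?_)⟩
  rw [dist_zero_right, Real.norm_eq_abs]
  exact (abs_le.2 ht).trans_lt ((min_le_left _ _).trans_lt (by linarith))

/-- A one-coloured slot's colour is missing at the centre. -/
lemma slot_single {q z : ℂ} {a : Fin 5} (hz : C.Slot q z) (h : C.T z = {a}) : a ∉ C.T q := fun ha =>
  C.dist_ne_one (C.interior_of_single h.subset) (C.mem_T.1 ha) (by rw [dist_comm]; exact hz.1)

/-- The closures of a slot are missing at its unit neighbours on the circle. -/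
lemma slot_cross {q z y : ℂ} {a : Fin 5} (hz : C.Slot q z) (hy : dist q y = 1) (hyz : dist y z = 1)
    (ha : a ∈ C.T z) : a ∉ C.T y := by
  obtain ⟨τ, hτ, hτ1, hT⟩ := C.slot_arc hz
  obtain ⟨s₁, hs₁, s₂, hs₂, l1, l2⟩ :=
    triangle_cross y q z (by rw [dist_comm]; exact hy) hz.1 hyz hτ hτ1
  intro hay
  refine C.crossing (isPreconnected_Icc.image _ (continuous_arc q (z - q)).continuousOn) ?_
    ⟨s₁, hs₁, rfl⟩ ⟨s₂, hs₂, rfl⟩ l1 l2 (C.mem_T.1 hay)
  rintro _ ⟨t, ht, rfl⟩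
  exact C.mem_T.1 ((hT t ht).symm ▸ ha)

/-- Adjacent slots have disjoint closures. -/
lemma slot_disjoint {q z y : ℂ} (hz : C.Slot q z) (hy : dist q y = 1) (hyz : dist y z = 1) :
    Disjoint (C.T z) (C.T y) :=
  Finset.disjoint_left.2 fun _ ha => C.slot_cross hz hy hyz ha

/-- Antipodal slots miss some closure of the centre. -/
lemma slot_opp {q z : ℂ} (hz : C.Slot q z) (hz' : C.Slot q (2 * q - z)) :
    ¬ C.T q ⊆ C.T z ∪ C.T (2 * q - z) := by
  intro hsub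
  obtain ⟨τ, hτ, -, hT⟩ := C.slot_arc hz
  obtain ⟨τ', hτ', -, hT'⟩ := C.slot_arc hz'
  set e := z - q with he_def
  have he : ‖e‖ = 1 := by rw [he_def, ← dist_eq_norm, dist_comm]; exact hz.1
  have he' : 2 * q - z - q = -e := by rw [he_def]; ring
  rw [he'] at hT'
  have hen : ‖-e‖ = 1 := by rw [norm_neg]; exact he
  obtain ⟨t1, t2⟩ := arc_tangent q e he hτ
  obtain ⟨σ, hσ, hstr⟩ := straddle_line q (arc q e τ) (arc q e (-τ)) (e * Complex.I)
    (dist_arc he _) (dist_arc he _) t1 t2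
  obtain ⟨u1, u2⟩ := arc_tangent q (-e) hen hτ'
  obtain ⟨σ', hσ', hstr'⟩ := straddle_line q (arc q (-e) τ') (arc q (-e) (-τ')) (-e * Complex.I)
    (dist_arc hen _) (dist_arc hen _) u1 u2
  obtain ⟨ρ, hρ, hTρ⟩ := C.exists_T_ball q
  let W : Set ℂ := {y | (dist y (arc q e τ) - 1) * (dist y (arc q e (-τ)) - 1) < 0} ∩
    ({y | (dist y (arc q (-e) τ') - 1) * (dist y (arc q (-e) (-τ')) - 1) < 0} ∩ ball q ρ)
  have hWo : IsOpen W := (isOpen_lt (by fun_prop) continuous_const).inter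
    ((isOpen_lt (by fun_prop) continuous_const).inter isOpen_ball)
  have hWne : W.Nonempty := by
    have hm : 0 < min (min σ σ') (ρ/2) := lt_min (lt_min hσ hσ') (by linarith)
    refine ⟨q + min (min σ σ') (ρ/2) • (e * Complex.I), hstr _ hm.ne' ?_, ?_, ?_⟩
    · rw [abs_of_pos hm]; exact (min_le_left _ _).trans (min_le_left _ _)
    · have := hstr' _ (neg_ne_zero.2 hm.ne')
        (by rw [abs_neg, abs_of_pos hm]; exact (min_le_left _ _).trans (min_le_right _ _))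
      simpa [neg_smul, neg_mul, smul_neg] using this
    · rw [mem_ball, dist_eq_norm, add_sub_cancel_left, norm_smul, Real.norm_of_nonneg hm.le]
      simp [he]; right; linarith
  obtain ⟨y, hy, hyU⟩ := C.dense.exists_mem_open hWo hWne |>.imp fun y h => And.intro h.2 h.1
  obtain ⟨i, hi⟩ := mem_iUnion.1 hyU
  have hyF : y ∈ C.F i := subset_closure hi
  rcases Finset.mem_union.1 (hsub (hTρ y hy.2.2 (C.mem_T.2 hyF))) with h | h
  · exact C.crossing_prod (isPreconnected_Icc.image _ (continuous_arc q e).continuousOn)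
      (by rintro _ ⟨t, ht, rfl⟩; exact C.mem_T.1 ((hT t ht).symm ▸ h))
      ⟨τ, ⟨by linarith, le_rfl⟩, rfl⟩ ⟨-τ, ⟨le_rfl, by linarith⟩, rfl⟩ hy.1 hyF
  · exact C.crossing_prod (isPreconnected_Icc.image _ (continuous_arc q (-e)).continuousOn)
      (by rintro _ ⟨t, ht, rfl⟩; exact C.mem_T.1 ((hT' t ht).symm ▸ h))
      ⟨τ', ⟨by linarith, le_rfl⟩, rfl⟩ ⟨-τ', ⟨le_rfl, by linarith⟩, rfl⟩ hy.2.1 hyF

/-- Slots are dense on every circle. -/
lemma slot_dense {q z₀ : ℂ} (hz₀ : dist q z₀ = 1) {ε : ℝ} (hε : 0 < ε) :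
    ∃ z, C.Slot q z ∧ dist z z₀ < ε := by
  classical
  set e := z₀ - q with he_def
  have he : ‖e‖ = 1 := by rw [he_def, ← dist_eq_norm, dist_comm]; exact hz₀
  obtain ⟨η, hη, hηw⟩ := Metric.eventually_nhds_iff.1
    (((continuous_arc q e).dist continuous_const).continuousAt.eventually_lt continuousAt_const
      (show dist (arc q e 0) z₀ < ε by simp [arc_zero, he_def, hε]))
  set τ := min (η/2) 1
  have hτ : 0 < τ := lt_min (half_pos hη) one_pos
  have hnear : ∀ t ∈ Icc (-τ) τ, dist (arc q e t) z₀ < ε := fun t ht => hηw (by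
    rw [dist_zero_right, Real.norm_eq_abs]
    exact (abs_le.2 ht).trans_lt ((min_le_left _ _).trans_lt (by linarith)))
  obtain ⟨y, ⟨hy, hyε⟩, hy2⟩ : ∃ y, (dist q y = 1 ∧ dist y z₀ < ε) ∧ (C.T y).card ≤ 2 := by
    by_contra h
    push Not at h
    obtain ⟨s₁, hs₁, s₂, hs₂, hne⟩ : ∃ s₁ ∈ Icc (-τ) τ, ∃ s₂ ∈ Icc (-τ) τ, arc q e s₁ ≠ arc q e s₂ := by
      obtain ⟨p, hp, hp'⟩ := exists_triangle q z₀ hz₀
      obtain ⟨s₁, hs₁, s₂, hs₂, l1, l2⟩ := triangle_cross p q z₀ (by rw [dist_comm]; exact hp)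
        hz₀ (by rw [dist_comm]; exact hp') hτ (min_le_right _ _)
      exact ⟨s₁, hs₁, s₂, hs₂, fun e' => by rw [he_def] at e'; rw [e'] at l1; linarith⟩
    refine hne (C.subsingleton_of_three (isPreconnected_Icc.image _ (continuous_arc q e).continuousOn) ?_
      ⟨s₁, hs₁, rfl⟩ ⟨s₂, hs₂, rfl⟩)
    rintro _ ⟨t, ht, rfl⟩
    exact h _ ⟨dist_arc he t, hnear t ht⟩
  obtain ⟨ρ, hρ, hTρ⟩ := C.exists_T_ball y
  set S : Set ℂ := {z | dist q z = 1 ∧ dist z z₀ < ε ∧ dist z y < ρ}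
  have hex : ∃ k, ∃ z ∈ S, (C.T z).card = k := ⟨_, y, ⟨hy, hyε, by simpa using hρ⟩, rfl⟩
  obtain ⟨z, hz, hzk⟩ := Nat.find_spec hex
  have hmin : ∀ w ∈ S, (C.T z).card ≤ (C.T w).card := fun w hw =>
    hzk.le.trans (Nat.find_min' hex ⟨w, hw, rfl⟩)
  obtain ⟨r, hr, hTr⟩ := C.exists_T_ball z
  refine ⟨z, ⟨hz.1, (Finset.card_le_card (hTρ z hz.2.2)).trans hy2,
    min r (min (ε - dist z z₀) (ρ - dist z y)),
    lt_min hr (lt_min (sub_pos.2 hz.2.1) (sub_pos.2 hz.2.2)), fun w hw hwd => ?_⟩, hz.2.1⟩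
  obtain ⟨h1, h2⟩ := lt_min_iff.1 hwd
  obtain ⟨h2, h3'⟩ := lt_min_iff.1 h2
  refine Finset.eq_of_subset_of_card_le (hTr w h1) (hmin w ⟨hw, ?_, ?_⟩)
  · linarith [dist_triangle w z z₀]
  · linarith [dist_triangle w z y]

end Cfg

end Vale.Agent.P032Baire
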