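import Vale.Agent.P032Baire.Degree

open Set Metric Filter Topology

namespace Vale.Agent.P032Baire

/-- A nonvanishing function on a totally disconnected compact set has a continuous logarithm,
equal to zero wherever the function is one. -/
lemma exists_log_tdisc {K : Set ℂ} (hK : IsCompact K) (hKd : IsTotallyDisconnected K) (f : K → ℂ)
    (hf : Continuous f) (h0 : ∀ x, f x ≠ 0) :
    ∃ g : K → ℂ, Continuous g ∧ (∀ x, Complex.exp (g x) = f x) ∧ ∀ x, f x = 1 → g x = 0 := by
  classical
  have : CompactSpace K := isCompact_iff_compactSpace.1 hK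
  have : TotallyDisconnectedSpace K := totallyDisconnectedSpace_subtype_iff.2 hKd
  -- near each point a branch of the logarithm
  have step : ∀ x : K, ∃ S : Set K, ∃ c : ℂ, IsClopen S ∧ x ∈ S ∧ c ≠ 0 ∧
      (∀ y ∈ S, f y / c ∈ Complex.slitPlane) ∧ ∀ y ∈ S, f y = 1 → c = 1 := by
    intro x
    by_cases h1 : f x = 1
    · obtain ⟨S, hS, hxS, hSO⟩ := compact_exists_isClopen_in_isOpen
        (Complex.isOpen_slitPlane.preimage hf) (show x ∈ f ⁻¹' Complex.slitPlane by
          rw [mem_preimage, h1]; exact Complex.one_mem_slitPlane)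
      exact ⟨S, 1, hS, hxS, one_ne_zero, fun y hy => by simpa using hSO hy, fun _ _ _ => rfl⟩
    · obtain ⟨S, hS, hxS, hSO⟩ := compact_exists_isClopen_in_isOpen
        ((Complex.isOpen_slitPlane.preimage (hf.div_const (f x))).inter
          (isOpen_compl_singleton.preimage hf))
        (show x ∈ (fun y => f y / f x) ⁻¹' Complex.slitPlane ∩ f ⁻¹' {(1:ℂ)}ᶜ by
          exact ⟨by simp [div_self (h0 x)], h1⟩)
      exact ⟨S, f x, hS, hxS, h0 x, fun y hy => (hSO hy).1, fun y hy e => absurd e (hSO hy).2⟩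
  choose S c hS hxS hc hsl hone using step
  obtain ⟨t, ht⟩ := isCompact_univ.elim_finite_subcover S (fun x => (hS x).2)
    (fun x _ => mem_iUnion.2 ⟨x, hxS x⟩)
  let e := t.equivFin
  let idx : K → Finset (Fin t.card) := fun y => Finset.univ.filter fun k => y ∈ S (e.symm k)
  have hidx : ∀ y, (idx y).Nonempty := by
    intro y
    obtain ⟨x, hxt, hy⟩ := mem_iUnion₂.1 (ht (mem_univ y))
    exact ⟨e ⟨x, hxt⟩, by simp [idx, hy]⟩
  let first : K → Fin t.card := fun y => (idx y).min' (hidx y)
  have hmem : ∀ y, y ∈ S (e.symm (first y)) := fun y =>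
    (Finset.mem_filter.1 ((idx y).min'_mem (hidx y))).2
  have hlc : IsLocallyConstant idx := by
    rw [IsLocallyConstant.iff_eventually_eq]
    intro y
    have : ∀ k : Fin t.card, ∀ᶠ z in 𝓝 y, (z ∈ S (e.symm k) ↔ y ∈ S (e.symm k)) := by
      intro k
      by_cases hy : y ∈ S (e.symm k)
      · filter_upwards [(hS (e.symm k)).2.mem_nhds hy] with z hz; simp [hy, hz]
      · filter_upwards [(hS (e.symm k)).1.isOpen_compl.mem_nhds hy] with z hz
        exact iff_of_false hz hy
    filter_upwards [eventually_all.2 this] with z hz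
    ext k; simp [idx, hz k]
  refine ⟨fun y => Complex.log (f y / c (e.symm (first y))) + Complex.log (c (e.symm (first y))),
    ?_, ?_, ?_⟩
  · have hfirst : IsLocallyConstant first := by
      rw [IsLocallyConstant.iff_eventually_eq]
      intro y
      filter_upwards [(IsLocallyConstant.iff_eventually_eq idx).1 hlc y] with z hz
      simp [first, hz]
    have hc' : Continuous fun y => c (e.symm (first y)) :=
      (hfirst.comp fun k => c (e.symm k)).continuous
    have hl' : Continuous fun y => Complex.log (c (e.symm (first y))) :=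
      (hfirst.comp fun k => Complex.log (c (e.symm k))).continuous
    exact ((hf.div hc' fun y => hc _).clog fun y => hsl _ _ (hmem y)).add hl'
  · intro y
    rw [Complex.exp_add, Complex.exp_log (div_ne_zero (h0 y) (hc _)), Complex.exp_log (hc _),
      div_mul_cancel₀ _ (hc _)]
  · intro y hy
    simp [hone _ _ (hmem y) hy, hy]

/-- A closed set which is totally disconnected in a closed disc does not separate the open disc. -/
theorem no_separation {K : Set ℂ} (hK : IsClosed K) {o : ℂ} {R : ℝ} (hR : 0 < R)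
    (hKd : IsTotallyDisconnected (K ∩ closedBall o R)) {U V : Set ℂ} (hU : IsOpen U) (hV : IsOpen V)
    (hd : Disjoint U V) (hcov : ball o R ⊆ U ∪ V ∪ K) {p p' : ℂ} (hp : p ∈ U) (hpb : p ∈ ball o R)
    (hpK : p ∉ K) (hp' : p' ∈ V) (hp'b : p' ∈ ball o R) (hp'K : p' ∉ K) : False := by
  classical
  -- centre the disc at the origin
  let τ : ℂ → ℂ := fun z => z + o
  have hτ : Continuous τ := by fun_prop
  have hτd : ∀ z, dist (τ z) o = ‖z‖ := fun z => by simp [τ, dist_eq_norm]
  set a := p - o with ha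
  set b := p' - o with hb
  have han : ‖a‖ < R := by rw [ha, ← dist_eq_norm]; exact hpb
  have hbn : ‖b‖ < R := by rw [hb, ← dist_eq_norm]; exact hp'b
  set D : Set ℂ := closedBall 0 R
  set U₀ := τ ⁻¹' U ∩ ball 0 R with hU₀
  set V₀ := τ ⁻¹' V ∩ ball 0 R with hV₀
  have hU₀o : IsOpen U₀ := (hU.preimage hτ).inter isOpen_ball
  have hV₀o : IsOpen V₀ := (hV.preimage hτ).inter isOpen_ball
  set K₀ := τ ⁻¹' K ∩ D with hK₀def
  have hK₀ : IsCompact K₀ := (isCompact_closedBall (0:ℂ) R).inter_left (hK.preimage hτ)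
  have hK₀d : IsTotallyDisconnected K₀ := by
    intro s hs hsc x hx y hy
    have := hKd (τ '' s) (by
      rintro _ ⟨z, hz, rfl⟩
      exact ⟨(hs hz).1, by rw [mem_closedBall, hτd]; exact mem_closedBall_zero_iff.1 (hs hz).2⟩)
      (hsc.image _ hτ.continuousOn) ⟨x, hx, rfl⟩ ⟨y, hy, rfl⟩
    exact add_right_cancel this
  have haU : a ∈ U₀ := ⟨by simpa [τ, ha] using hp, mem_ball_zero_iff.2 han⟩
  have hbV : b ∈ V₀ := ⟨by simpa [τ, hb] using hp', mem_ball_zero_iff.2 hbn⟩
  have hbU : b ∉ closure U₀ := fun h => by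
    obtain ⟨z, hzV, hzU⟩ := mem_closure_iff.1 h V₀ hV₀o hbV
    exact disjoint_left.1 hd hzU.1 hzV.1
  have hfr : ∀ z ∈ closure U₀, z ∉ U₀ → z ∈ K₀ ∪ sphere 0 R := by
    intro z hz hzn
    have hzD : z ∈ D := closure_minimal (inter_subset_right.trans ball_subset_closedBall) isClosed_closedBall hz
    rcases (mem_closedBall.1 hzD).eq_or_lt with h | h
    · exact Or.inr h
    left
    refine ⟨?_, hzD⟩
    rcases hcov (show τ z ∈ ball o R by rw [mem_ball, hτd, ← dist_zero_right]; exact h) with (hh | hh) | hh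
    · exact absurd ⟨hh, h⟩ hzn
    · obtain ⟨w, hwV, hwU⟩ := mem_closure_iff.1 hz V₀ hV₀o ⟨hh, h⟩
      exact absurd hwV.1 (disjoint_left.1 hd hwU.1)
    · exact hh
  -- the quotient of the two linear functions and its logarithm on the frontier
  set ψ : ℂ → ℂ := fun z => (z - a) / (z - b) with hψ
  have hS : ∀ z ∈ sphere (0:ℂ) R, z ≠ 0 ∧ 1 - a / z ∈ Complex.slitPlane ∧
      1 - b / z ∈ Complex.slitPlane ∧ z - a ≠ 0 ∧ z - b ≠ 0 := by
    intro z hz
    have hzn : ‖z‖ = R := mem_sphere_zero_iff_norm.1 hz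
    have key : ∀ c : ℂ, ‖c‖ < R → 1 - c / z ∈ Complex.slitPlane ∧ z - c ≠ 0 := fun c hc => by
      refine ⟨?_, fun e => by rw [sub_eq_zero] at e; rw [e] at hzn; linarith⟩
      have h : ‖-(c / z)‖ < 1 := by rw [norm_neg, norm_div, hzn, div_lt_one hR]; exact hc
      simpa [sub_eq_add_neg] using Complex.mem_slitPlane_of_norm_lt_one h
    exact ⟨norm_pos_iff.1 (by rw [hzn]; exact hR), (key a han).1, (key b hbn).1, (key a han).2, (key b hbn).2⟩
  let ΛS0 : C(sphere (0:ℂ) R, ℂ) := ⟨fun z : sphere (0:ℂ) R => Complex.log (1 - a / (z:ℂ)) - Complex.log (1 - b / (z:ℂ)), by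
    refine (Continuous.clog ?_ fun z : sphere (0:ℂ) R => (hS z z.2).2.1).sub
      (Continuous.clog ?_ fun z : sphere (0:ℂ) R => (hS z z.2).2.2.1) <;>
      exact continuous_const.sub (continuous_const.div continuous_subtype_val fun z : sphere (0:ℂ) R => (hS z z.2).1)⟩
  obtain ⟨Λ, hΛ⟩ := ContinuousMap.exists_restrict_eq (Metric.isClosed_sphere (x := (0:ℂ)) (ε := R)) ΛS0
  have hΛS : ∀ z ∈ sphere (0:ℂ) R, Complex.exp (Λ z) = ψ z := by
    intro z hz
    have : Λ z = ΛS0 ⟨z, hz⟩ := by rw [← hΛ]; rfl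
    obtain ⟨z0, s1, s2, za, zb⟩ := hS z hz
    rw [this]
    show Complex.exp (Complex.log (1 - a / z) - Complex.log (1 - b / z)) = ψ z
    rw [Complex.exp_sub, Complex.exp_log (Complex.slitPlane_ne_zero s1),
      Complex.exp_log (Complex.slitPlane_ne_zero s2), hψ]
    field_simp
  have haK : a ∉ K₀ := fun h => hpK (by simpa [τ, ha] using h.1)
  have hbK : b ∉ K₀ := fun h => hp'K (by simpa [τ, hb] using h.1)
  have hKne : ∀ z : K₀, (z:ℂ) - a ≠ 0 ∧ (z:ℂ) - b ≠ 0 := fun z =>
    ⟨fun e => haK (sub_eq_zero.1 e ▸ z.2), fun e => hbK (sub_eq_zero.1 e ▸ z.2)⟩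
  obtain ⟨g, hg, hge, hg1⟩ := exists_log_tdisc hK₀ hK₀d
    (fun z => ψ z * Complex.exp (-Λ z))
    (((continuous_subtype_val.sub continuous_const).div (continuous_subtype_val.sub continuous_const)
      fun z => (hKne z).2).mul (by fun_prop))
    (fun z => mul_ne_zero (div_ne_zero (hKne z).1 (hKne z).2) (Complex.exp_ne_zero _))
  obtain ⟨G, hG⟩ := ContinuousMap.exists_restrict_eq hK₀.isClosed (⟨g, hg⟩ : C(K₀, ℂ))
  let φ : ℂ → ℂ := fun z => if z ∈ K₀ then G z else 0
  have hφc : ContinuousOn φ (K₀ ∪ sphere 0 R) := by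
    refine ContinuousOn.union_of_isClosed ?_ ?_ hK₀.isClosed Metric.isClosed_sphere
    · exact G.continuous.continuousOn.congr fun z hz => by simp [φ, hz]
    · refine continuousOn_const (c := (0:ℂ)) |>.congr fun z hz => ?_
      simp only [φ]
      split_ifs with h
      · have : G z = g ⟨z, h⟩ := by
          have := congrFun (congrArg DFunLike.coe hG) ⟨z, h⟩; exact this
        rw [this]
        refine hg1 _ ?_
        show ψ z * Complex.exp (-Λ z) = 1
        rw [← hΛS z hz, ← Complex.exp_add, add_neg_cancel, Complex.exp_zero]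
      · rfl
  have hφe : ∀ z ∈ K₀ ∪ sphere (0:ℂ) R, Complex.exp (Λ z + φ z) = ψ z := by
    intro z hz
    by_cases h : z ∈ K₀
    · have : G z = g ⟨z, h⟩ := by
        have := congrFun (congrArg DFunLike.coe hG) ⟨z, h⟩; exact this
      simp only [φ, if_pos h, Complex.exp_add, this, hge]
      rw [mul_comm (ψ z), ← mul_assoc, ← Complex.exp_add, add_neg_cancel, Complex.exp_zero, one_mul]
    · simp [φ, h, hΛS z (hz.resolve_left h)]
  obtain ⟨Φ, hΦ⟩ := ContinuousMap.exists_restrict_eq (hK₀.isClosed.union Metric.isClosed_sphere)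
    (⟨(K₀ ∪ sphere (0:ℂ) R).domRestrict φ, hφc.domRestrict⟩ : C((K₀ ∪ sphere (0:ℂ) R : Set ℂ), ℂ))
  have hΦe : ∀ z ∈ K₀ ∪ sphere (0:ℂ) R, (z - b) * Complex.exp (Λ z + Φ z) = z - a := by
    intro z hz
    have : Φ z = φ z := by
      have := congrFun (congrArg DFunLike.coe hΦ) ⟨z, hz⟩; exact this
    rw [this, hφe z hz, hψ, mul_div_cancel₀]
    rcases hz with h | h
    · exact (hKne ⟨z, h⟩).2
    · exact (hS z h).2.2.2.2
  -- glue
  let H : ℂ → ℂ := fun z => if z ∈ closure U₀ then (z - b) * Complex.exp (Λ z + Φ z) else z - a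
  have hout : ∀ z, z ∉ U₀ → H z = z - a := by
    intro z hz
    simp only [H]
    split_ifs with h
    · exact hΦe z (hfr z h hz)
    · rfl
  have hHc : Continuous H := by
    have h1 : ContinuousOn H (closure U₀) :=
      ((continuous_id.sub (continuous_const (y := b))).mul
        (Complex.continuous_exp.comp (Λ.continuous.add Φ.continuous))).continuousOn.congr
        fun z hz => by simp [H, hz]
    have h2 : ContinuousOn H U₀ᶜ :=
      (continuous_id.sub continuous_const).continuousOn.congr fun z hz => hout z hz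
    rw [← continuousOn_univ]
    refine (h1.union_of_isClosed h2 isClosed_closure hU₀o.isClosed_compl).mono fun z _ => ?_
    by_cases h : z ∈ U₀
    · exact Or.inl (subset_closure h)
    · exact Or.inr h
  obtain ⟨M, hM⟩ := (isCompact_closedBall (0:ℂ) R).exists_bound_of_continuousOn
    (f := fun z => H z - z) (hHc.sub continuous_id).continuousOn
  have hR' : 0 < max M ‖a‖ + 1 := by
    have := norm_nonneg a; have := le_max_right M ‖a‖; linarith
  refine disk_no_retraction H hR' hHc.continuousOn ?_ ?_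
  · intro z _
    simp only [H]
    split_ifs with h
    · exact mul_ne_zero (fun e => hbU (sub_eq_zero.1 e ▸ h)) (Complex.exp_ne_zero _)
    · exact fun e => h (sub_eq_zero.1 e ▸ subset_closure haU)
  · intro z _
    by_cases h : z ∈ U₀
    · linarith [hM z (ball_subset_closedBall h.2), le_max_left M ‖a‖]
    · rw [hout z h, sub_sub_cancel_left, norm_neg]; linarith [le_max_right M ‖a‖]

end Vale.Agent.P032Baire
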