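import Mathlib

open Set Metric Filter Topology

namespace Vale.Agent.P032Baire

/-- Euclidean dot product of two complex numbers. -/
def dot (a b : ℂ) : ℝ := a.re * b.re + a.im * b.im

/-- Rational parametrisation of the unit circle near one. -/
noncomputable def turn (t : ℝ) : ℂ := ⟨(1 - t^2) / (1 + t^2), 2 * t / (1 + t^2)⟩

lemma one_add_sq_pos (t : ℝ) : 0 < 1 + t^2 := by positivity

lemma normSq_turn (t : ℝ) : Complex.normSq (turn t) = 1 := by
  have := one_add_sq_pos t
  simp only [turn, Complex.normSq_mk]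
  field_simp
  ring

lemma norm_turn (t : ℝ) : ‖turn t‖ = 1 := by
  rw [Complex.norm_def, normSq_turn, Real.sqrt_one]

lemma turn_zero : turn 0 = 1 := by
  apply Complex.ext <;> simp [turn]

lemma continuous_turn : Continuous turn := by
  have h : turn = fun t : ℝ => (((1 - t^2) / (1 + t^2) : ℝ) : ℂ) + ((2 * t / (1 + t^2) : ℝ) : ℂ) * Complex.I := by
    funext t; apply Complex.ext <;> simp only [turn, Complex.add_re, Complex.add_im, Complex.mul_re,
      Complex.mul_im, Complex.ofReal_re, Complex.ofReal_im, Complex.I_re, Complex.I_im] <;> ring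
  rw [h]
  have hne : ∀ t : ℝ, 1 + t^2 ≠ 0 := fun t => (one_add_sq_pos t).ne'
  exact (Complex.continuous_ofReal.comp ((by fun_prop : Continuous fun t : ℝ => 1 - t^2).div
    (by fun_prop) hne)).add ((Complex.continuous_ofReal.comp
    ((by fun_prop : Continuous fun t : ℝ => 2 * t).div (by fun_prop) hne)).mul continuous_const)

/-- The point at parameter `t` of the unit circle about `q` through `q + e`. -/
noncomputable def arc (q e : ℂ) (t : ℝ) : ℂ := q + e * turn t

lemma dist_arc {q e : ℂ} (he : ‖e‖ = 1) (t : ℝ) : dist q (arc q e t) = 1 := by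
  simp [arc, dist_eq_norm, he, norm_turn]

lemma continuous_arc (q e : ℂ) : Continuous (arc q e) :=
  continuous_const.add (continuous_const.mul continuous_turn)

lemma arc_zero (q e : ℂ) : arc q e 0 = q + e := by simp [arc, turn_zero]

lemma dist_sq (x y : ℂ) : dist x y ^ 2 = (x.re - y.re)^2 + (x.im - y.im)^2 := by
  rw [dist_eq_norm, Complex.sq_norm, Complex.normSq_apply]; simp; ring

lemma lt_one_iff_sq {a : ℝ} (ha : 0 ≤ a) : a < 1 ↔ a^2 < 1 := by constructor <;> intro h <;> nlinarith
lemma one_lt_iff_sq {a : ℝ} (ha : 0 ≤ a) : 1 < a ↔ 1 < a^2 := by constructor <;> intro h <;> nlinarith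

/-- Corners of a unit triangle: a unit arc about one corner crosses the circle about another. -/
lemma triangle_cross (p q z : ℂ) (hpq : dist p q = 1) (hqz : dist q z = 1) (hpz : dist p z = 1)
    {τ : ℝ} (hτ : 0 < τ) (hτ1 : τ ≤ 1) :
    ∃ s₁ ∈ Icc (-τ) τ, ∃ s₂ ∈ Icc (-τ) τ,
      dist p (arc q (z - q) s₁) < 1 ∧ 1 < dist p (arc q (z - q) s₂) := by
  set e := z - q with he
  set f := p - q with hf
  have e1 : e.re^2 + e.im^2 = 1 := by
    have := dist_sq z q; rw [dist_comm, hqz] at this; simp [he]; linarith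
  have f1 : f.re^2 + f.im^2 = 1 := by
    have := dist_sq p q; rw [hpq] at this; simp [hf]; linarith
  have ef : f.re * e.re + f.im * e.im = 1/2 := by
    have := dist_sq p z; rw [hpz] at this
    simp [he, hf] at *; nlinarith
  set X := e.re * f.im - e.im * f.re with hX
  have X2 : X^2 = 3/4 := by
    have : X^2 + (f.re * e.re + f.im * e.im)^2 = (e.re^2 + e.im^2) * (f.re^2 + f.im^2) := by
      rw [hX]; ring
    rw [ef, e1, f1] at this; linarith
  have key : ∀ t : ℝ, (dist p (arc q e t))^2 = 1 + (2 * t^2 - 4 * X * t) / (1 + t^2) := by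
    intro t
    have ht := (one_add_sq_pos t).ne'
    rw [dist_sq]
    have h1 : p.re - (arc q e t).re = f.re - (e.re * ((1 - t^2)/(1+t^2)) - e.im * (2*t/(1+t^2))) := by
      simp [arc, turn, hf]; ring
    have h2 : p.im - (arc q e t).im = f.im - (e.re * (2*t/(1+t^2)) + e.im * ((1 - t^2)/(1+t^2))) := by
      simp [arc, turn, hf]; ring
    rw [h1, h2, hX]
    field_simp
    linear_combination (1 + t^2)^2 * e1 + (1 + t^2)^2 * f1 - 2 * (1 - t^2) * (1 + t^2) * ef
  have hXt : ∃ t : ℝ, |t| ≤ τ ∧ 0 < X * t ∧ |t| < 2 * |X| := by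
    have hX0 : X ≠ 0 := by intro h; rw [h] at X2; norm_num at X2
    have : 1/2 < |X| := by nlinarith [sq_abs X, abs_nonneg X]
    rcases lt_or_gt_of_ne hX0 with h | h
    · exact ⟨-τ/2, by rw [abs_of_neg (by linarith)]; linarith, by nlinarith,
        by rw [abs_of_neg (by linarith)]; linarith⟩
    · exact ⟨τ/2, by rw [abs_of_pos (by linarith)]; linarith, by nlinarith,
        by rw [abs_of_pos (by linarith)]; linarith⟩
  obtain ⟨t, ht, hXt, htX⟩ := hXt
  refine ⟨t, abs_le.1 ht, -t, abs_le.1 (by rwa [abs_neg]), ?_, ?_⟩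
  · rw [lt_one_iff_sq dist_nonneg, key]
    have : (2 * t^2 - 4 * X * t) / (1 + t^2) < 0 := by
      refine div_neg_of_neg_of_pos ?_ (one_add_sq_pos t)
      have h1 : |t| * |t| < 2 * |X| * |t| := mul_lt_mul_of_pos_right htX (abs_pos.2 (by rintro rfl; simp at hXt))
      rw [abs_mul_abs_self, mul_assoc, ← abs_mul, abs_of_pos hXt] at h1
      nlinarith
    linarith
  · rw [one_lt_iff_sq dist_nonneg, key]
    have : 0 < (2 * (-t)^2 - 4 * X * (-t)) / (1 + (-t)^2) :=
      div_pos (by nlinarith [sq_nonneg t]) (one_add_sq_pos _)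
    linarith

/-- A direction at `q` pointing into one and out of the other of two unit circles through `q`. -/
lemma straddle_line (q w₁ w₂ d : ℂ) (h₁ : dist q w₁ = 1) (h₂ : dist q w₂ = 1)
    (hd₁ : dot (q - w₁) d < 0) (hd₂ : 0 < dot (q - w₂) d) :
    ∃ σ : ℝ, 0 < σ ∧ ∀ s : ℝ, s ≠ 0 → |s| ≤ σ →
      (dist (q + s • d) w₁ - 1) * (dist (q + s • d) w₂ - 1) < 0 := by
  set A := dot (q - w₁) d with hA
  set B := dot (q - w₂) d with hB
  set N := d.re^2 + d.im^2
  have hN : 0 ≤ N := by positivity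
  refine ⟨min (-A) B / (N + 1), div_pos (lt_min (neg_pos.2 hd₁) hd₂) (by linarith), fun s hs hsσ => ?_⟩
  have kw : ∀ w, dist q w = 1 → (dist (q + s • d) w)^2 = 1 + s * (2 * dot (q - w) d + s * N) := by
    intro w hw
    have := dist_sq q w; rw [hw] at this
    rw [dist_sq]; simp [dot, N]
    linear_combination -this
  have hb : |s * N| < 2 * min (-A) B := by
    rw [abs_mul, abs_of_nonneg hN]
    have h2 : |s| * (N+1) ≤ min (-A) B := by rwa [le_div_iff₀ (by linarith)] at hsσ
    have : 0 < |s| := abs_pos.2 hs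
    nlinarith
  have c1 : 2 * A + s * N < 0 := by
    have := (abs_lt.1 hb).2; have := min_le_left (-A) B; linarith
  have c2 : 0 < 2 * B + s * N := by
    have := (abs_lt.1 hb).1; have := min_le_right (-A) B; linarith
  have e1 := kw w₁ h₁
  have e2 := kw w₂ h₂
  rw [← hA] at e1; rw [← hB] at e2
  rcases lt_or_gt_of_ne hs with h | h
  · refine mul_neg_of_pos_of_neg (sub_pos.2 ?_) (sub_neg.2 ?_)
    · rw [one_lt_iff_sq dist_nonneg, e1]; nlinarith [mul_pos_of_neg_of_neg h c1]
    · rw [lt_one_iff_sq dist_nonneg, e2]; nlinarith [mul_neg_of_neg_of_pos h c2]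
  · refine mul_neg_of_neg_of_pos (sub_neg.2 ?_) (sub_pos.2 ?_)
    · rw [lt_one_iff_sq dist_nonneg, e1]; nlinarith [mul_neg_of_pos_of_neg h c1]
    · rw [one_lt_iff_sq dist_nonneg, e2]; nlinarith [mul_pos h c2]

/-- The tangent direction of an arc straddles its two ends. -/
lemma arc_tangent (q e : ℂ) (he : ‖e‖ = 1) {τ : ℝ} (hτ : 0 < τ) :
    dot (q - arc q e τ) (e * Complex.I) < 0 ∧ 0 < dot (q - arc q e (-τ)) (e * Complex.I) := by
  have e1 : e.re^2 + e.im^2 = 1 := by
    have := Complex.sq_norm e; rw [he, Complex.normSq_apply] at this; nlinarith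
  have k : ∀ t : ℝ, dot (q - arc q e t) (e * Complex.I) = -(2 * t / (1 + t^2)) := by
    intro t
    simp [dot, arc, turn]
    linear_combination -(2 * t / (1 + t^2)) * e1
  rw [k, k]
  refine ⟨neg_neg_iff_pos.2 (div_pos (by linarith) (one_add_sq_pos τ)), ?_⟩
  have : -(2 * -τ / (1 + (-τ)^2)) = 2 * τ / (1 + τ^2) := by rw [neg_sq]; ring
  rw [this]; exact div_pos (by linarith) (one_add_sq_pos τ)

/-- Two distinct unit circles share no point together with both of its symmetric neighbours. -/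
lemma not_three_on_two_circles (a b e : ℂ) (he : ‖e‖ = 1) (hab : a ≠ b) {t : ℝ} (ht : t ≠ 0)
    (h0 : dist b (arc a e 0) = 1) (hp : dist b (arc a e t) = 1) (hm : dist b (arc a e (-t)) = 1) :
    False := by
  have e1 : e.re^2 + e.im^2 = 1 := by
    have := Complex.sq_norm e; rw [he, Complex.normSq_apply] at this; nlinarith
  set v := a - b with hv
  set A := v.re * e.re + v.im * e.im with hA
  set B := v.im * e.re - v.re * e.im with hB
  have k : ∀ u : ℝ, (dist b (arc a e u))^2 = 1 + (v.re^2 + v.im^2) +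
      2 * (A * ((1 - u^2)/(1+u^2)) + B * (2*u/(1+u^2))) := by
    intro u
    have hu := (one_add_sq_pos u).ne'
    rw [dist_sq, hA, hB, hv]
    simp [arc, turn]
    field_simp
    linear_combination (1 + u^2)^2 * e1
  have k0 := k 0; rw [h0] at k0; norm_num at k0
  have k1 := k t; rw [hp] at k1
  have k2 := k (-t); rw [hm] at k2
  have ht2 := (one_add_sq_pos t).ne'
  simp only [neg_sq] at k2
  field_simp at k1 k2
  have : A * t^2 = 0 := by nlinarith
  have hA0 : A = 0 := (mul_eq_zero.1 this).resolve_right (pow_ne_zero 2 ht)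
  rw [hA0] at k0
  apply hab
  have r2 : v.re^2 + v.im^2 = 0 := by linarith
  have r0 : v.re = 0 := by nlinarith [sq_nonneg v.im, sq_nonneg v.re]
  have i0 : v.im = 0 := by nlinarith [sq_nonneg v.im, sq_nonneg v.re]
  exact sub_eq_zero.1 (Complex.ext r0 i0)

/-- Some point at unit distance from two points at unit distance. -/
lemma exists_triangle (p z : ℂ) (h : dist p z = 1) :
    ∃ z' : ℂ, dist p z' = 1 ∧ dist z z' = 1 := by
  refine ⟨p + (z - p) * ⟨1/2, Real.sqrt 3 / 2⟩, ?_, ?_⟩
  all_goals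
    have h3 := Real.sq_sqrt (show (0:ℝ) ≤ 3 by norm_num)
    have hs := dist_sq p z
    rw [h] at hs
    rw [← pow_left_inj₀ dist_nonneg zero_le_one two_ne_zero, dist_sq]
    simp
    nlinarith

end Vale.Agent.P032Baire
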