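import Vale.Agent.P032Baire.ThreeTD
import Vale.Agent.P032Baire.NoSep

open Set Metric Filter Topology

namespace Vale.Agent.P032Baire

/-- Two closed sets with totally disconnected intersection cover a closed disc only if one of them
covers the open disc. -/
theorem not_separated {A B : Set ℂ} (hA : IsClosed A) (hB : IsClosed B) {q : ℂ} {r : ℝ}
    (hcov : closedBall q r ⊆ A ∪ B) (htd : IsTotallyDisconnected (A ∩ B ∩ closedBall q r))
    {p p' : ℂ} (hp : p ∈ ball q r) (hpA : p ∈ A) (hpB : p ∉ B)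
    (hp' : p' ∈ ball q r) (hp'B : p' ∈ B) (hp'A : p' ∉ A) : False := by
  refine no_separation (K := A ∩ B) (hA.inter hB) (dist_nonneg.trans_lt hp) htd
    (U := Bᶜ ∩ ball q r) (V := Aᶜ ∩ ball q r) (hB.isOpen_compl.inter isOpen_ball)
    (hA.isOpen_compl.inter isOpen_ball) ?_ ?_ ⟨hpB, hp⟩ hp (fun h => hpB h.2)
    ⟨hp'A, hp'⟩ hp' (fun h => hp'A h.1)
  · rw [disjoint_left]
    rintro z ⟨hzB, hz⟩ ⟨hzA, -⟩
    exact (hcov (ball_subset_closedBall hz)).elim hzA hzB
  · intro z hz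
    by_cases h1 : z ∈ B
    · by_cases h2 : z ∈ A
      · exact Or.inr ⟨h2, h1⟩
      · exact Or.inl (Or.inr ⟨h2, hz⟩)
    · exact Or.inl (Or.inl ⟨h1, hz⟩)

/-- If no direction puts `h` inside and `k` outside the shifted unit circle, `k` is no longer than
its projection on `h`. -/
lemma sq_le_dot_of_no_straddle {h k : ℂ} (hh : h ≠ 0) (hh1 : ‖h‖ ≤ 1)
    (H : ∀ u : ℂ, ‖u‖ = 1 → ¬ (‖h‖ ^ 2 < 2 * dot u h ∧ 2 * dot u k < ‖k‖ ^ 2)) :
    ‖k‖ ^ 2 ≤ dot h k := by
  by_contra hlt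
  rw [not_le] at hlt
  have hh0 := norm_pos_iff.2 hh
  set c0 := ‖h‖ / 2
  let u : ℝ → ℝ → ℂ := fun σ c => ((‖h‖⁻¹ : ℝ) : ℂ) * h * ⟨c, σ * Real.sqrt (1 - c^2)⟩
  have hu : ∀ σ c : ℝ, σ ^ 2 = 1 → c ^ 2 ≤ 1 → ‖u σ c‖ = 1 ∧ dot (u σ c) h = c * ‖h‖ := by
    intro σ c hσ hc
    have hs := Real.sq_sqrt (show 0 ≤ 1 - c^2 by linarith)
    constructor
    · simp only [u, norm_mul, Complex.norm_real, norm_inv, norm_norm, inv_mul_cancel₀ hh0.ne', one_mul]
      rw [Complex.norm_def, Complex.normSq_mk, Real.sqrt_eq_one]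
      linear_combination Real.sqrt (1 - c^2) ^ 2 * hσ + hs
    · have h2 := Complex.sq_norm h
      rw [Complex.normSq_apply] at h2
      simp [u, dot]
      field_simp
      linear_combination (-c) * h2
  obtain ⟨σ, hσ, hs⟩ : ∃ σ : ℝ, σ ^ 2 = 1 ∧ 2 * dot (u σ c0) k < ‖k‖ ^ 2 := by
    by_contra hn
    push Not at hn
    have h1 := hn 1 (by norm_num)
    have h2 := hn (-1) (by norm_num)
    have : dot (u 1 c0) k + dot (u (-1) c0) k = dot h k := by
      simp [u, dot, c0]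
      field_simp
      ring
    linarith
  have hcont : Continuous fun c => 2 * dot (u σ c) k := by
    have : u σ = fun c : ℝ => ((‖h‖⁻¹ : ℝ) : ℂ) * h *
        ((c : ℂ) + ((σ * Real.sqrt (1 - c^2) : ℝ) : ℂ) * Complex.I) := by
      funext c; simp only [u]; congr 1; apply Complex.ext <;> simp
    unfold dot; rw [this]; fun_prop
  obtain ⟨η, hη, hη'⟩ := Metric.eventually_nhds_iff.1
    (hcont.continuousAt.eventually_lt continuousAt_const hs)
  set c := c0 + min (η/2) (1/4) with hc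
  have hm : 0 < min (η/2) (1/4) := lt_min (half_pos hη) (by norm_num)
  have hc1 : c ^ 2 ≤ 1 := by
    have := min_le_right (η/2) (1/4 : ℝ)
    have : c0 ≤ 1/2 := by show ‖h‖ / 2 ≤ 1/2; linarith
    have : 0 ≤ c0 := by positivity
    nlinarith
  obtain ⟨hu1, hu2⟩ := hu σ c hσ hc1
  refine H _ hu1 ⟨?_, hη' (by
    rw [Real.dist_eq, show c - c0 = min (η/2) (1/4) by ring, abs_of_pos hm]
    linarith [min_le_left (η/2) (1/4 : ℝ)])⟩
  rw [hu2, hc]
  show ‖h‖ ^ 2 < 2 * ((‖h‖ / 2 + min (η/2) (1/4)) * ‖h‖)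
  nlinarith

namespace Cfg

variable (C : Cfg)

/-- A colour present at `q` beside another one shares a continuum near `q` with some colour. -/
theorem isolation {q : ℂ} {a j : Fin 5} (ha : a ∈ C.T q) (hj : j ∈ C.T q) (hja : j ≠ a) :
    ∃ b ∈ C.T q, b ≠ a ∧ ∀ δ > 0, ¬ IsTotallyDisconnected (C.F a ∩ C.F b ∩ closedBall q δ) := by
  classical
  by_contra hno
  push Not at hno
  let ι := {b : Fin 5 // b ∈ (C.T q).erase a}
  have hex : ∀ b : ι, ∃ δ > 0, IsTotallyDisconnected (C.F a ∩ C.F b ∩ closedBall q δ) := fun b => by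
    obtain ⟨h1, h2⟩ := Finset.mem_erase.1 b.2
    exact hno b h2 h1
  choose δ hδ htd using hex
  obtain ⟨ρ, hρ, hT⟩ := C.exists_T_ball q
  have : Nonempty ι := ⟨⟨j, Finset.mem_erase.2 ⟨hja, hj⟩⟩⟩
  obtain ⟨b0, hb0⟩ := Finite.exists_min δ
  set r := min (δ b0) (ρ/2)
  have hr : 0 < r := lt_min (hδ b0) (half_pos hρ)
  set B := ⋃ b : ι, C.F b
  have hBc : IsClosed B := isClosed_iUnion_of_finite fun b : ι => C.isClosed_F b
  have hdisj : ∀ {i k : Fin 5} {z : ℂ}, i ≠ k → z ∈ C.U i → z ∉ C.F k := fun hik hz hzk => by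
    obtain ⟨w, hw, hwk⟩ := mem_closure_iff.1 hzk _ (C.isOpen _) hz
    exact disjoint_left.1 (C.disj _ _ hik) hw hwk
  obtain ⟨p, hpb, hp⟩ := mem_closure_iff.1 (C.mem_T.1 ha) (ball q r) isOpen_ball (mem_ball_self hr)
  obtain ⟨p', hp'b, hp'⟩ := mem_closure_iff.1 (C.mem_T.1 hj) (ball q r) isOpen_ball (mem_ball_self hr)
  refine not_separated (C.isClosed_F a) hBc (q := q) (r := r) ?_ ?_ hpb (subset_closure hp) ?_ hp'b ?_
    (hdisj hja hp')
  · intro z hz
    obtain ⟨i, hi⟩ := C.cover z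
    by_cases hia : i = a
    · exact Or.inl (hia ▸ hi)
    · have : i ∈ C.T q := hT z (lt_of_le_of_lt ((mem_closedBall.1 hz).trans (min_le_right _ _))
        (half_lt_self hρ)) (C.mem_T.2 hi)
      exact Or.inr (mem_iUnion.2 ⟨⟨i, Finset.mem_erase.2 ⟨hia, this⟩⟩, hi⟩)
  · intro L hL hLc
    refine subsingleton_of_finite_cover (fun b : ι => C.F a ∩ C.F b ∩ closedBall q r)
      (fun b => ((C.isClosed_F a).inter (C.isClosed_F b)).inter isClosed_closedBall)
      (fun b s hs => htd b s (hs.trans (inter_subset_inter_right _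
        (closedBall_subset_closedBall ((min_le_left _ _).trans (hb0 b)))))) hLc fun z hz => ?_
    obtain ⟨⟨hza, hzB⟩, hzb⟩ := hL hz
    obtain ⟨b, hb⟩ := mem_iUnion.1 hzB
    exact mem_iUnion.2 ⟨b, ⟨hza, hb⟩, hzb⟩
  · rintro h
    obtain ⟨b, hb⟩ := mem_iUnion.1 h
    exact hdisj (Finset.mem_erase.1 b.2).1.symm hp hb
  · exact mem_iUnion.2 ⟨⟨j, Finset.mem_erase.2 ⟨hja, hj⟩⟩, subset_closure hp'⟩

/-- If the circle about `q` is covered by the closures of `a` and `b`, their common boundary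
contains no continuum within distance one half of `q`. -/
theorem thin_of_cover {q : ℂ} {a b : Fin 5} (hcov : ∀ z, dist q z = 1 → z ∈ C.F a ∨ z ∈ C.F b) :
    IsTotallyDisconnected (C.F a ∩ C.F b ∩ closedBall q (1/2)) := by
  intro L hL hLc x hx y hy
  by_contra hne
  have key : ∀ z ∈ L, ∀ w ∈ L, z ≠ q → ‖w - q‖ ^ 2 ≤ dot (z - q) (w - q) := by
    intro z hz w hw hzq
    have hzn : ‖z - q‖ ≤ 1/2 := by rw [← dist_eq_norm]; exact (hL hz).2
    refine sq_le_dot_of_no_straddle (sub_ne_zero.2 hzq) (by linarith) fun u hu ⟨h1, h2⟩ => ?_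
    have k : ∀ v : ℂ, dist (q + u) v ^ 2 = 1 + (‖v - q‖ ^ 2 - 2 * dot u (v - q)) := by
      intro v
      rw [dist_sq, Complex.sq_norm, Complex.normSq_apply]
      simp [dot]
      linear_combination re_sq_add_im_sq hu
    have hs : (dist (q + u) z - 1) * (dist (q + u) w - 1) < 0 := by
      refine mul_neg_of_neg_of_pos (sub_neg.2 ?_) (sub_pos.2 ?_)
      · rw [lt_one_iff_sq dist_nonneg, k]; linarith
      · rw [one_lt_iff_sq dist_nonneg, k]; linarith
    rcases hcov (q + u) (by simp [dist_eq_norm, hu]) with h | h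
    · exact C.crossing_prod hLc (fun t ht => (hL ht).1.1) hz hw hs h
    · exact C.crossing_prod hLc (fun t ht => (hL ht).1.2) hz hw hs h
  have eq : ∀ z ∈ L, ∀ w ∈ L, z ≠ q → w ≠ q → z = w := by
    intro z hz w hw hzq hwq
    have h1 := key z hz w hw hzq
    have h2 := key w hw z hz hwq
    have h3 : ‖(z - q) - (w - q)‖ ^ 2 =
        ‖z - q‖ ^ 2 + ‖w - q‖ ^ 2 - (dot (z - q) (w - q) + dot (w - q) (z - q)) := by
      simp only [Complex.sq_norm, Complex.normSq_apply, dot, Complex.sub_re, Complex.sub_im]; ring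
    have : ‖(z - q) - (w - q)‖ ^ 2 ≤ 0 := by linarith
    rw [sub_sub_sub_cancel_right] at this
    exact sub_eq_zero.1 (norm_eq_zero.1 (by nlinarith [norm_nonneg (z - w)]))
  obtain ⟨z, hz, hzq⟩ : ∃ z ∈ L, z ≠ q := by
    rcases eq_or_ne x q with h | h
    · exact ⟨y, hy, fun e => hne (h.trans e.symm)⟩
    · exact ⟨x, hx, h⟩
  refine infinite_inter_ball hLc hx hy hne one_pos ((Set.toFinite ({z, q} : Set ℂ)).subset ?_)
  rintro w ⟨hw, -⟩
  by_cases hwq : w = q
  · exact Or.inr hwq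
  · exact Or.inl (eq w hw z hz hwq hzq)

/-- `thin_of_cover` when the colours `a`, `b` are known on a dense subset of the circle only. -/
theorem thin_of_slot_cover {q : ℂ} {a b : Fin 5}
    (h : ∀ z, dist q z = 1 → ∀ ε > 0, ∃ y, dist y z < ε ∧ (a ∈ C.T y ∨ b ∈ C.T y)) :
    IsTotallyDisconnected (C.F a ∩ C.F b ∩ closedBall q (1/2)) := by
  refine C.thin_of_cover fun z hz => ?_
  rw [← mem_union, ← ((C.isClosed_F a).union (C.isClosed_F b)).closure_eq, Metric.mem_closure_iff]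
  intro ε hε
  obtain ⟨y, hy, hab⟩ := h z hz ε hε
  exact ⟨y, hab.imp C.mem_T.1 C.mem_T.1, by rw [dist_comm]; exact hy⟩

end Cfg

end Vale.Agent.P032Baire
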