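import Vale.Agent.P032Baire.Hex

open Set Metric Filter Topology

namespace Vale.Agent.P032Baire

lemma erase_of_four_le {A : Finset (Fin 5)} {i : Fin 5} (hA : 4 ≤ A.card) (hi : i ∉ A) :
    A = Finset.univ.erase i :=
  Finset.eq_of_subset_of_card_le (fun k hk => Finset.mem_erase.2 ⟨fun e => hi (e ▸ hk), Finset.mem_univ k⟩)
    (by simpa using hA)

lemma unit_cross_ne_zero {u v : ℂ} (hu : ‖u‖ = 1) (hv : ‖v‖ = 1) (huv : ‖u - v‖ = 1) :
    u.re * v.im - u.im * v.re ≠ 0 := by
  have hu' := Complex.sq_norm u; rw [hu, Complex.normSq_apply] at hu'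
  have hv' := Complex.sq_norm v; rw [hv, Complex.normSq_apply] at hv'
  have hw' := Complex.sq_norm (u - v); rw [huv, Complex.normSq_apply] at hw'
  simp at hw'
  intro h
  have hd : u.re * v.re + u.im * v.im = 1/2 := by nlinarith
  have : (u.re * v.im - u.im * v.re) ^ 2 + (u.re * v.re + u.im * v.im) ^ 2 = 1 := by
    linear_combination -(v.re * v.re + v.im * v.im) * hu' - hv'
  rw [h, hd] at this; norm_num at this

namespace Cfg

variable (C : Cfg)

/-- Translating a slot by a unit vector not along its radius loses all of its closures. -/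
lemma trans_disjoint {a b z : ℂ} (hz : C.Slot a z) (hab : dist a b = 1)
    (hX : (z - a).re * (b - a).im - (z - a).im * (b - a).re ≠ 0) :
    Disjoint (C.T z) (C.T (z + (b - a))) := by
  obtain ⟨τ, hτ, -, hT⟩ := C.slot_arc hz
  refine Finset.disjoint_left.2 fun i hi hi' => ?_
  have := C.rect_excl (a := i) a (z - a) (b - a) (by rw [← dist_eq_norm, dist_comm]; exact hz.1)
    (by rw [← dist_eq_norm, dist_comm]; exact hab) hX hτ (by
      rintro _ ⟨t, ht, rfl⟩; exact C.mem_T.1 ((hT t ht).symm ▸ hi))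
  rw [add_sub_cancel] at this
  exact this (C.mem_T.1 hi')

/-- A colour filling an arc of the circle about `a` at `b` is missing on the circle about `b`
off the line `ab`. -/
lemma sol {a b p : ℂ} {c : Fin 5} {τ : ℝ} (hτ : 0 < τ) (hab : dist a b = 1)
    (harc : ∀ t ∈ Icc (-τ) τ, c ∈ C.T (arc a (b - a) t)) (hp : dist b p = 1)
    (hX : (b - a).re * (p - b).im - (b - a).im * (p - b).re ≠ 0) : c ∉ C.T p := by
  intro h
  have := C.rect_excl (a := c) a (b - a) (p - b) (by rw [← dist_eq_norm, dist_comm]; exact hab)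
    (by rw [← dist_eq_norm, dist_comm]; exact hp) hX hτ (by
      rintro _ ⟨t, ht, rfl⟩; exact C.mem_T.1 (harc t ht))
  rw [add_sub_cancel, add_sub_cancel] at this
  exact this (C.mem_T.1 h)

/-- With a filled pair, the third colour at `q` is missing at every point at distance one. -/
lemma bad_absent {q : ℂ} {a b : Fin 5} (hcard : (C.T q).card ≤ 3) (h : C.Bad q a b) {p : ℂ}
    (hpq : dist p q = 1) :
    ∃ c, c ∈ C.T q ∧ c ≠ a ∧ c ≠ b ∧ p ∉ C.F c := by
  obtain ⟨hab, ha, hb, w, ε, hε, hw, hT⟩ := h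
  set e := w - q with he_def
  have he : ‖e‖ = 1 := by rw [he_def, ← dist_eq_norm, dist_comm]; exact hw
  have hev : ∀ᶠ t in 𝓝 (0:ℝ), dist (arc q e t) w < ε := by
    refine ((continuous_arc q e).dist continuous_const).continuousAt.eventually_lt continuousAt_const ?_
    simp [arc_zero, he_def, hε]
  obtain ⟨η, hη, hηw⟩ := Metric.eventually_nhds_iff.1 hev
  set τ := η/2 with hτ
  have hτ0 : 0 < τ := half_pos hη
  set K := arc q e '' Icc (-τ) τ
  have hK : IsPreconnected K := isPreconnected_Icc.image _ (continuous_arc q e).continuousOn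
  have hKF : K ⊆ C.F a ∩ C.F b := by
    rintro _ ⟨t, ht, rfl⟩
    exact C.pair_arc hT (C.mem_T.1 ha) (C.mem_T.1 hb)
      (hηw (by rw [dist_zero_right, Real.norm_eq_abs]; exact (abs_le.2 ht).trans_lt (by linarith))) (dist_arc he t)
  obtain ⟨d, hd1, hd2, hd3⟩ : ∃ d : ℂ, dot (q - arc q e τ) d < 0 ∧
      0 < dot (q - arc q e (-τ)) d ∧ dot (q - p) d ≠ 0 := by
    obtain ⟨t1, t2⟩ := arc_tangent q e he hτ0
    by_cases h0 : dot (q - p) (e * Complex.I) = 0
    · have cont : ∀ u : ℂ, Continuous fun η : ℝ => dot u (e * Complex.I + η • (q - p)) := by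
        intro u; unfold dot; fun_prop
      have e1 : ∀ᶠ η in 𝓝 (0:ℝ), dot (q - arc q e τ) (e * Complex.I + η • (q - p)) < 0 :=
        (cont _).continuousAt.eventually_lt continuousAt_const (by simpa using t1)
      have e2 : ∀ᶠ η in 𝓝 (0:ℝ), 0 < dot (q - arc q e (-τ)) (e * Complex.I + η • (q - p)) :=
        continuousAt_const.eventually_lt (cont _).continuousAt (by simpa using t2)
      obtain ⟨r, hr, hr'⟩ := Metric.eventually_nhds_iff.1 (e1.and e2)
      have hh := hr' (y := r/2) (by simp [abs_of_pos hr]; linarith)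
      refine ⟨_, hh.1, hh.2, ?_⟩
      have hqp : (q-p).re^2 + (q-p).im^2 = 1 := by
        have := dist_sq p q; rw [hpq] at this; simp at this ⊢; linarith
      have : dot (q - p) (e * Complex.I + (r/2) • (q - p)) = r/2 := by
        unfold dot at h0 ⊢
        simp only [Complex.add_re, Complex.add_im, Complex.smul_re, Complex.smul_im, smul_eq_mul]
        linear_combination h0 + (r/2) * hqp
      rw [this]; exact (half_pos hr).ne'
    · exact ⟨_, t1, t2, h0⟩
  obtain ⟨σ₁, hσ₁, hstr⟩ := straddle_line q (arc q e τ) (arc q e (-τ)) d (dist_arc he _) (dist_arc he _) hd1 hd2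
  obtain ⟨ρ, hρ, hTρ⟩ := C.exists_T_ball q
  obtain ⟨σ, hσ, hσle, hσρ⟩ : ∃ σ, 0 < σ ∧ σ ≤ σ₁ ∧ σ * ‖d‖ < ρ := by
    refine ⟨min σ₁ (ρ / (‖d‖ + 1)), lt_min hσ₁ (by positivity), min_le_left _ _, ?_⟩
    calc min σ₁ (ρ / (‖d‖ + 1)) * ‖d‖ ≤ ρ / (‖d‖ + 1) * ‖d‖ :=
          mul_le_mul_of_nonneg_right (min_le_right _ _) (norm_nonneg _)
      _ < ρ := by rw [div_mul_eq_mul_div, div_lt_iff₀ (by positivity)]; nlinarith [norm_nonneg d]
  have honly : ∀ s : ℝ, s ≠ 0 → |s| ≤ σ → ∀ i ∈ C.T (q + s • d), i ∈ C.T q ∧ i ≠ a ∧ i ≠ b := by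
    intro s hs hsσ i hi
    have hnear : dist (q + s • d) q < ρ := by
      rw [dist_eq_norm, add_sub_cancel_left, norm_smul, Real.norm_eq_abs]
      exact (mul_le_mul_of_nonneg_right hsσ (norm_nonneg _)).trans_lt hσρ
    have hst := hstr s hs (hsσ.trans hσle)
    refine ⟨hTρ _ hnear hi, ?_, ?_⟩ <;> rintro rfl
    · exact C.crossing_prod hK (fun z hz => (hKF hz).1) ⟨τ, ⟨by linarith, le_rfl⟩, rfl⟩
        ⟨-τ, ⟨le_rfl, by linarith⟩, rfl⟩ hst (C.mem_T.1 hi)
    · exact C.crossing_prod hK (fun z hz => (hKF hz).2) ⟨τ, ⟨by linarith, le_rfl⟩, rfl⟩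
        ⟨-τ, ⟨le_rfl, by linarith⟩, rfl⟩ hst (C.mem_T.1 hi)
  obtain ⟨c, hc⟩ := C.T_nonempty (q + σ • d)
  obtain ⟨hcq, hca, hcb⟩ := honly σ hσ.ne' (abs_of_pos hσ).le c hc
  refine ⟨c, hcq, hca, hcb, ?_⟩
  have huniq : ∀ i ∈ C.T q, i ≠ a → i ≠ b → i = c := by
    intro i hi hia hib
    by_contra hic
    have hsub : ({a, b, c, i} : Finset (Fin 5)) ⊆ C.T q := by
      simp [Finset.insert_subset_iff, ha, hb, hcq, hi]
    have : ({a, b, c, i} : Finset (Fin 5)).card = 4 := by
      rw [Finset.card_insert_of_notMem (by simp [hab, Ne.symm hca, Ne.symm hia]),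
        Finset.card_insert_of_notMem (by simp [Ne.symm hcb, Ne.symm hib]),
        Finset.card_insert_of_notMem (by simp [Ne.symm hic]), Finset.card_singleton]
    have := (Finset.card_le_card hsub).trans hcard
    omega
  set L := (fun s : ℝ => q + s • d) '' Icc (-σ) σ
  have hL : IsPreconnected L := isPreconnected_Icc.image _ (by fun_prop)
  have hLF : L ⊆ C.F c := by
    rintro _ ⟨s, hs, rfl⟩
    by_cases h0 : s = 0
    · simpa [h0] using C.mem_T.1 hcq
    obtain ⟨i, hi⟩ := C.T_nonempty (q + s • d)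
    obtain ⟨h1, h2, h3⟩ := honly s h0 (abs_le.2 hs) i hi
    exact huniq i h1 h2 h3 ▸ C.mem_T.1 hi
  set A := dot (q - p) d with hA
  set N := d.re^2 + d.im^2
  have hN : 0 ≤ N := by positivity
  have kk : ∀ s : ℝ, (dist p (q + s • d))^2 = 1 + s * (2 * A + s * N) := by
    intro s
    have := dist_sq p q; rw [hpq] at this
    rw [dist_sq]; simp [hA, dot, N]
    linear_combination -this
  obtain ⟨s, hs0, hsσ, hsN⟩ : ∃ s, 0 < s ∧ s ≤ σ ∧ s * N < 2 * |A| := by
    refine ⟨min σ (|A| / (N + 1)), lt_min hσ (div_pos (abs_pos.2 hd3) (by linarith)), min_le_left _ _, ?_⟩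
    have : min σ (|A| / (N+1)) * N ≤ |A| / (N+1) * N := mul_le_mul_of_nonneg_right (min_le_right _ _) hN
    have h2 : |A| / (N+1) * N ≤ |A| := by
      rw [div_mul_eq_mul_div, div_le_iff₀ (by linarith)]; nlinarith [abs_nonneg A]
    linarith [abs_pos.2 hd3]
  refine C.crossing_prod hL hLF ⟨s, ⟨by linarith, hsσ⟩, rfl⟩ ⟨-s, ⟨by linarith, by linarith⟩, rfl⟩ ?_
  have hsN0 : 0 ≤ s * N := mul_nonneg hs0.le hN
  rcases lt_or_gt_of_ne hd3 with h | h
  · rw [abs_of_neg h] at hsN
    refine mul_neg_of_neg_of_pos (sub_neg.2 ?_) (sub_pos.2 ?_)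
    · rw [lt_one_iff_sq dist_nonneg, kk]
      nlinarith [mul_pos hs0 (show 0 < -(2 * A + s * N) by linarith)]
    · rw [one_lt_iff_sq dist_nonneg, kk]
      nlinarith [mul_pos hs0 (show 0 < -(2 * A - s * N) by linarith)]
  · rw [abs_of_pos h] at hsN
    refine mul_neg_of_pos_of_neg (sub_pos.2 ?_) (sub_neg.2 ?_)
    · rw [one_lt_iff_sq dist_nonneg, kk]
      nlinarith [mul_pos hs0 (show 0 < 2 * A + s * N by linarith)]
    · rw [lt_one_iff_sq dist_nonneg, kk]
      nlinarith [mul_pos hs0 (show 0 < 2 * A - s * N by linarith)]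

/-- A colour of a two-coloured circle point fills an arc if the other colour is at the centre. -/
lemma arc_of_pair {q z : ℂ} {i j : Fin 5} (hz : dist q z = 1) (hT : C.T z ⊆ {i, j}) (hj : j ∈ C.T q) :
    ∃ τ : ℝ, 0 < τ ∧ τ ≤ 1 ∧ ∀ t ∈ Icc (-τ) τ, i ∈ C.T (arc q (z - q) t) := by
  obtain ⟨ε, hε, hball⟩ := C.exists_T_ball z
  have he : ‖z - q‖ = 1 := by rw [← dist_eq_norm, dist_comm]; exact hz
  obtain ⟨η, hη, hηw⟩ := Metric.eventually_nhds_iff.1
    (((continuous_arc q (z - q)).dist continuous_const).continuousAt.eventually_lt continuousAt_const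
      (show dist (arc q (z - q) 0) z < ε by simp [arc_zero, hε]))
  refine ⟨min (η/2) 1, lt_min (half_pos hη) one_pos, min_le_right _ _, fun t ht => ?_⟩
  have hsub := (hball _ (hηw (y := t) (by
    rw [dist_zero_right, Real.norm_eq_abs]
    exact (abs_le.2 ht).trans_lt ((min_le_left _ _).trans_lt (by linarith))))).trans hT
  by_contra hi
  refine C.dist_ne_one (C.interior_of_single (a := j) fun k hk => ?_) (C.mem_T.1 hj)
    (by rw [dist_comm]; exact dist_arc he t)
  have := hsub hk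
  simp only [Finset.mem_insert, Finset.mem_singleton] at this ⊢
  exact this.resolve_left fun e => hi (e ▸ hk)

/-- R1: two rich points at distance one, with different or full closure sets, have only common
neighbours in three closures. -/
theorem rich_neighbour {q y z : ℂ} (hqy : dist q y = 1) (hqz : dist q z = 1) (hyz : dist y z = 1)
    (hq : 4 ≤ (C.T q).card) (hy : 4 ≤ (C.T y).card) (hz : (C.T z).card ≤ 2) :
    C.T q = C.T y ∧ (C.T q).card = 4 := by
  have cross : ∀ {p p' : ℂ} {i j : Fin 5}, dist p p' = 1 → dist p z = 1 → dist p' z = 1 →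
      C.T z ⊆ {i, j} → j ∈ C.T p → i ∉ C.T p' := by
    intro p p' i j hpp hpz hp'z hT hj hi
    obtain ⟨τ, hτ, hτ1, harc⟩ := C.arc_of_pair hpz hT hj
    obtain ⟨s₁, hs₁, s₂, hs₂, l1, l2⟩ :=
      triangle_cross p' p z (by rw [dist_comm]; exact hpp) hpz hp'z hτ hτ1
    refine C.crossing (isPreconnected_Icc.image _ (continuous_arc p (z - p)).continuousOn) ?_
      ⟨s₁, hs₁, rfl⟩ ⟨s₂, hs₂, rfl⟩ l1 l2 (C.mem_T.1 hi)
    rintro _ ⟨t, ht, rfl⟩
    exact C.mem_T.1 (harc t ht)
  have fin : ∀ i, i ∉ C.T q → i ∉ C.T y → C.T q = C.T y ∧ (C.T q).card = 4 := fun i h1 h2 =>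
    ⟨(erase_of_four_le hq h1).trans (erase_of_four_le hy h2).symm, by
      rw [erase_of_four_le hq h1]; simp⟩
  have hy' : dist y q = 1 := by rw [dist_comm]; exact hqy
  rcases lt_or_eq_of_le hz with h1 | h2
  · obtain ⟨i, hi⟩ := Finset.card_eq_one.1 (show (C.T z).card = 1 by
      have := (C.T_nonempty z).card_pos; omega)
    exact fin i (fun h => C.dist_ne_one (C.interior_of_single hi.subset) (C.mem_T.1 h) (by rw [dist_comm]; exact hqz))
      (fun h => C.dist_ne_one (C.interior_of_single hi.subset) (C.mem_T.1 h) (by rw [dist_comm]; exact hyz))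
  · obtain ⟨i, j, hij, hT⟩ := Finset.card_eq_two.1 h2
    have hT1 : C.T z ⊆ {i, j} := hT.subset
    have hT2 : C.T z ⊆ {j, i} := by rw [Finset.pair_comm]; exact hT.subset
    by_cases hjq : j ∈ C.T q
    · have hiy := cross hqy hqz hyz hT1 hjq
      refine fin i (fun hiq => ?_) hiy
      have hjy := cross hqy hqz hyz hT2 hiq
      have := erase_of_four_le hy hiy
      rw [this] at hjy
      simp [hij.symm] at hjy
    · have hiq : i ∈ C.T q := by rw [erase_of_four_le hq hjq]; simp [hij]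
      exact fin j hjq (cross hqy hqz hyz hT2 hiq)

/-- F1: a common neighbour of a point in five closures and one of its neighbours in three is in
three closures. -/
theorem five_neighbour {q y z : ℂ} (hqy : dist q y = 1) (hqz : dist q z = 1) (hyz : dist y z = 1)
    (hq : (C.T q).card = 5) (hy : (C.T y).card = 3) : 3 ≤ (C.T z).card := by
  have hall : ∀ i, i ∈ C.T q := fun i => by
    rw [Finset.eq_univ_of_card _ (hq.trans (by simp))]; exact Finset.mem_univ i
  have hyq : dist y q = 1 := by rw [dist_comm]; exact hqy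
  have hno : ∀ a b, ¬ C.Bad y a b := fun a b hab => by
    obtain ⟨c, -, -, -, hcq⟩ := C.bad_absent hy.le hab hqy
    exact hcq (C.mem_T.1 (hall c))
  have hout := C.circle_outside hy hno
  obtain ⟨u, v, huv, hcompl⟩ := Finset.card_eq_two.1
    (show (C.T y)ᶜ.card = 2 by rw [Finset.card_compl, hy]; rfl)
  have hcov : ∀ w, dist y w = 1 → w ∈ C.F u ∨ w ∈ C.F v := by
    intro w hw
    obtain ⟨i, hi, hiy⟩ := Finset.not_subset.1 (hout w hw)
    have := hcompl ▸ Finset.mem_compl.2 hiy
    simp only [Finset.mem_insert, Finset.mem_singleton] at this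
    rcases this with rfl | rfl
    · exact Or.inl (C.mem_T.1 hi)
    · exact Or.inr (C.mem_T.1 hi)
  obtain ⟨hzu, hzv⟩ := C.switch_next hcov hyq hyz hqz (C.mem_T.1 (hall u)) (C.mem_T.1 (hall v))
  by_contra hlt
  have hT : C.T z = {u, v} := by
    refine (Finset.eq_of_subset_of_card_le (by simp [Finset.insert_subset_iff, C.mem_T.2 hzu, C.mem_T.2 hzv]) ?_).symm
    rw [Finset.card_pair huv]; omega
  have hX := unit_cross_ne_zero (u := z - q) (v := y - q) (by rw [← dist_eq_norm, dist_comm]; exact hqz)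
    (by rw [← dist_eq_norm]; exact hyq)
    (by rw [sub_sub_sub_cancel_right, ← dist_eq_norm, dist_comm]; exact hyz)
  have avoid : ∀ i j, C.T z ⊆ {i, j} → q + (z - q) + (y - q) ∉ C.F i := by
    intro i j hT
    obtain ⟨τ, hτ, -, harc⟩ := C.arc_of_pair hqz hT (hall j)
    refine C.rect_excl q (z - q) (y - q) (by rw [← dist_eq_norm, dist_comm]; exact hqz)
      (by rw [← dist_eq_norm]; exact hyq) hX hτ ?_
    rintro _ ⟨t, ht, rfl⟩
    exact C.mem_T.1 (harc t ht)
  rcases hcov (q + (z - q) + (y - q)) (by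
      rw [dist_eq_norm, show y - (q + (z - q) + (y - q)) = q - z by ring, ← dist_eq_norm]; exact hqz) with h | h
  · exact avoid u v hT.subset h
  · exact avoid v u (by rw [Finset.pair_comm]; exact hT.subset) h

lemma isOpen_setOf_slot {c e : ℂ} (he : ‖e‖ = 1) :
    IsOpen {θ : ℝ | C.Slot c (c + e * Complex.exp (θ * Complex.I))} := by
  rw [isOpen_iff_mem_nhds]
  rintro θ ⟨-, h2, ε, hε, hT⟩
  have hd : ∀ φ : ℝ, dist c (c + e * Complex.exp (φ * Complex.I)) = 1 := fun φ => by
    simp [dist_eq_norm, he, Complex.norm_exp_ofReal_mul_I]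
  filter_upwards [((by fun_prop : Continuous fun φ : ℝ => dist (c + e * Complex.exp (φ * Complex.I))
    (c + e * Complex.exp (θ * Complex.I))).continuousAt.eventually_lt continuousAt_const
    (show dist (c + e * Complex.exp (θ * Complex.I)) (c + e * Complex.exp (θ * Complex.I)) < ε / 2 by
      rw [dist_self]; linarith))] with φ hφ
  refine ⟨hd φ, by rw [hT _ (hd φ) (by linarith)]; exact h2, ε/2, half_pos hε, fun y hy hyd => ?_⟩
  rw [hT _ (hd φ) (by linarith), hT y hy ?_]
  linarith [dist_triangle y (c + e * Complex.exp (φ * Complex.I)) (c + e * Complex.exp (θ * Complex.I))]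

lemma dense_setOf_slot {c e : ℂ} (he : ‖e‖ = 1) :
    Dense {θ : ℝ | C.Slot c (c + e * Complex.exp (θ * Complex.I))} := by
  rw [Metric.dense_iff]
  intro θ η hη
  set w := e * Complex.exp (θ * Complex.I) with hw
  have hwn : ‖w‖ = 1 := by simp [hw, he, Complex.norm_exp_ofReal_mul_I]
  have hw0 : w ≠ 0 := norm_pos_iff.1 (by rw [hwn]; exact one_pos)
  have harg : ContinuousAt (fun z : ℂ => Complex.arg ((z - c) / w)) (c + w) := by
    refine ContinuousAt.comp (Complex.continuousAt_arg ?_) (by fun_prop)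
    simp [hw0, Complex.one_mem_slitPlane]
  obtain ⟨ε, hε, hε'⟩ := Metric.continuousAt_iff.1 harg η hη
  obtain ⟨z, hz, hzd⟩ := C.slot_dense (show dist c (c + w) = 1 by simp [dist_eq_norm, hwn]) hε
  have hz' := hε' hzd
  simp [hw0] at hz'
  refine ⟨θ + Complex.arg ((z - c) / w), by simpa [Real.dist_eq] using hz', ?_⟩
  have hn : ‖(z - c) / w‖ = 1 := by
    rw [norm_div, hwn, div_one, ← dist_eq_norm, dist_comm]; exact hz.1
  have : Complex.exp (Complex.arg ((z - c) / w) * Complex.I) = (z - c) / w := by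
    have := Complex.norm_mul_exp_arg_mul_I ((z - c) / w)
    rwa [hn, Complex.ofReal_one, one_mul] at this
  show C.Slot c _
  rw [Complex.ofReal_add, add_mul, Complex.exp_add, this, ← mul_assoc, ← hw, mul_div_cancel₀ _ hw0,
    add_sub_cancel]
  exact hz

/-- Finitely many rotating circle points are slots simultaneously at a dense set of angles. -/
theorem exists_generic {ι : Type*} [Finite ι] (c e : ι → ℂ) (he : ∀ i, ‖e i‖ = 1) (θ₀ : ℝ) {η : ℝ}
    (hη : 0 < η) :
    ∃ θ : ℝ, |θ - θ₀| < η ∧ ∀ i, C.Slot (c i) (c i + e i * Complex.exp (θ * Complex.I)) := by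
  have hd := dense_iInter_of_isOpen (fun i => C.isOpen_setOf_slot (c := c i) (he i))
    (fun i => C.dense_setOf_slot (c := c i) (he i))
  obtain ⟨θ, hθ, h⟩ := Metric.dense_iff.1 hd θ₀ η hη
  exact ⟨θ, by simpa [Real.dist_eq] using hθ, mem_iInter.1 h⟩

end Cfg

end Vale.Agent.P032Baire
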