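import Vale.Agent.P032Baire.Tube

open Set Metric Filter Topology
open scoped ComplexConjugate

namespace Vale.Agent.P032Baire

/-- Two unit circles with nearby centres meet at most once in a small disc. -/
lemma meet_unique {m x v₀ v₁ : ℂ} (hmx : m ≠ x) (hd : dist m x ≤ 3/2) (hv : dist v₀ v₁ ≤ 1)
    (h₀m : dist v₀ m = 1) (h₀x : dist v₀ x = 1) (h₁m : dist v₁ m = 1) (h₁x : dist v₁ x = 1) :
    v₀ = v₁ := by
  have alg : ∀ A₁ A₂ e₁ e₂ w₁ w₂ : ℝ, w₁ * e₁ + w₂ * e₂ = 0 → w₁ * A₁ + w₂ * A₂ = 0 →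
      2 * (A₁ * e₁ + A₂ * e₂) + (e₁^2 + e₂^2) = 0 → 0 < w₁^2 + w₂^2 → 0 < e₁^2 + e₂^2 →
      4 * (A₁^2 + A₂^2) = e₁^2 + e₂^2 := by
    intro A₁ A₂ e₁ e₂ w₁ w₂ o1 o2 hc hN hE
    have hpar : A₁ * e₂ - A₂ * e₁ = 0 := by
      have : (w₁^2 + w₂^2) * (A₁ * e₂ - A₂ * e₁) = 0 := by
        linear_combination (w₁ * e₂ - w₂ * e₁) * o2 + (A₁ * w₂ - A₂ * w₁) * o1
      exact (mul_eq_zero.1 this).resolve_left hN.ne'
    have : (e₁^2 + e₂^2) * (4 * (A₁^2 + A₂^2)) = (e₁^2 + e₂^2) * (e₁^2 + e₂^2) := by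
      linear_combination (2 * (A₁ * e₁ + A₂ * e₂) - (e₁^2 + e₂^2)) * hc +
        4 * (A₁ * e₂ - A₂ * e₁) * hpar
    exact mul_left_cancel₀ hE.ne' this
  by_contra hne
  have a0 := dist_sq v₀ m; rw [h₀m] at a0
  have b0 := dist_sq v₀ x; rw [h₀x] at b0
  have a1 := dist_sq v₁ m; rw [h₁m] at a1
  have b1 := dist_sq v₁ x; rw [h₁x] at b1
  have hE : (v₁.re - v₀.re)^2 + (v₁.im - v₀.im)^2 = dist v₀ v₁ ^ 2 := by rw [dist_sq]; ring
  have hW : (m.re - x.re)^2 + (m.im - x.im)^2 = dist m x ^ 2 := by rw [dist_sq]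
  have hA := alg (v₀.re - (m.re + x.re)/2) (v₀.im - (m.im + x.im)/2) (v₁.re - v₀.re)
    (v₁.im - v₀.im) (m.re - x.re) (m.im - x.im)
    (by linear_combination ((a1 - b1) - (a0 - b0)) / 2) (by linear_combination (a0 - b0) / 2)
    (by linear_combination -(a1 + b1)/2 + (a0 + b0)/2)
    (by rw [hW]; exact pow_pos (dist_pos.2 hmx) 2) (by rw [hE]; exact pow_pos (dist_pos.2 hne) 2)
  have hlen : dist v₀ v₁ ^ 2 + dist m x ^ 2 = 4 := by
    rw [← hE, ← hW]; linear_combination -hA - 2 * a0 - 2 * b0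
  have h1 : dist v₀ v₁ ^ 2 ≤ 1 := pow_le_one₀ dist_nonneg hv
  have h2 : dist m x ^ 2 ≤ (3/2)^2 := pow_le_pow_left₀ dist_nonneg hd 2
  norm_num at h2
  linarith

/-- The second meeting point of the unit circles about `q` and `v`, one of them being `m`. -/
lemma second_meet {q m v : ℂ} (hm : dist q m = 1) (hmv : dist m v = 1)
    (hX : (v.re - q.re) * (m.im - q.im) - (v.im - q.im) * (m.re - q.re) ≠ 0)
    (hD : (v.re - q.re) * (m.re - q.re) + (v.im - q.im) * (m.im - q.im) ≠ 0) :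
    ∃ z, dist q z = 1 ∧ dist z v = 1 ∧ z ≠ m ∧ dist z m < 2 := by
  set w := v - q with hw
  set u := m - q with hu
  have hw0 : w ≠ 0 := by
    intro h; apply hX
    have h1 := congrArg Complex.re h; have h2 := congrArg Complex.im h
    simp [hw] at h1 h2
    rw [h1, h2]; ring
  have hcw : conj w ≠ 0 := by simpa using hw0
  have hun : ‖u‖ = 1 := by rw [hu, ← dist_eq_norm, dist_comm, hm]
  have hr : ‖w / conj w‖ = 1 := by
    rw [norm_div, Complex.norm_conj, div_self (norm_ne_zero_iff.2 hw0)]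
  obtain ⟨ρ, hρ, hrρ⟩ : ∃ ρ, ρ * conj w = w ∧ ‖ρ‖ = 1 := ⟨_, div_mul_cancel₀ w hcw, hr⟩
  refine ⟨q + ρ * conj u, ?_, ?_, ?_, ?_⟩
  · rw [dist_comm, dist_eq_norm, add_sub_cancel_left, norm_mul, hrρ, Complex.norm_conj, hun, one_mul]
  · have : q + ρ * conj u - v = ρ * conj (u - w) := by
      simp only [map_sub] at hρ ⊢; linear_combination hρ + hw
    rw [dist_eq_norm, this, norm_mul, hrρ, Complex.norm_conj, one_mul]
    have : u - w = m - v := by simp [hu, hw]
    rw [this, ← dist_eq_norm, hmv]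
  all_goals
    have hk : q + ρ * conj u - m = (w * conj u - conj w * u) / conj w := by
      rw [eq_div_iff hcw]
      have : q + ρ * conj u - m = ρ * conj u - u := by rw [hu]; ring
      rw [this]; linear_combination (conj u) * hρ
    have hn : Complex.normSq (w * conj u - conj w * u) =
        4 * ((v.re - q.re) * (m.im - q.im) - (v.im - q.im) * (m.re - q.re))^2 := by
      simp [Complex.normSq_apply, hw, hu]; ring
  · intro h
    rw [h, sub_self] at hk
    have h0 : w * conj u - conj w * u = 0 := by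
      rcases div_eq_zero_iff.1 hk.symm with h' | h'
      · exact h'
      · exact absurd h' hcw
    rw [h0, map_zero] at hn
    exact hX (by nlinarith)
  · rw [dist_eq_norm, hk, norm_div, Complex.norm_conj, div_lt_iff₀ (norm_pos_iff.2 hw0)]
    refine lt_of_pow_lt_pow_left₀ 2 (by positivity) ?_
    rw [mul_pow, Complex.sq_norm, Complex.sq_norm, hn]
    have hu1 : (m.re - q.re)^2 + (m.im - q.im)^2 = 1 := by
      have := dist_sq m q; rw [dist_comm, hm] at this; linarith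
    have e : Complex.normSq w = ((v.re - q.re) * (m.im - q.im) - (v.im - q.im) * (m.re - q.re))^2 +
        ((v.re - q.re) * (m.re - q.re) + (v.im - q.im) * (m.im - q.im))^2 := by
      simp [Complex.normSq_apply, hw]
      linear_combination -((v.re - q.re)^2 + (v.im - q.im)^2) * hu1
    rw [e]
    have : 0 < ((v.re - q.re) * (m.re - q.re) + (v.im - q.im) * (m.im - q.im))^2 := by positivity
    nlinarith

namespace Cfg

variable (C : Cfg)

/-- Without a filled pair, every point of the circle about a triple point has an outside closure. -/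
lemma circle_outside {p : ℂ} (hp : (C.T p).card = 3) (hno : ∀ a b, ¬ C.Bad p a b) :
    ∀ z, dist p z = 1 → ¬ C.T z ⊆ C.T p := by
  have small : ∀ z, dist p z = 1 → C.T z ⊆ C.T p → C.T z = C.T p := by
    intro z hz hsub
    refine Finset.eq_of_subset_of_card_le hsub ?_
    by_contra hlt
    push Not at hlt
    obtain ⟨i, j, hij⟩ : ∃ i j, C.T z = {i, j} := by
      rcases lt_or_eq_of_le (show (C.T z).card ≤ 2 by omega) with h1 | h2
      · obtain ⟨i, hi⟩ := Finset.card_eq_one.1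
          (show (C.T z).card = 1 by have := (C.T_nonempty z).card_pos; omega)
        exact ⟨i, i, by simp [hi]⟩
      · obtain ⟨i, j, -, h⟩ := Finset.card_eq_two.1 h2
        exact ⟨i, j, h⟩
    obtain ⟨k, hk, hki, hkj⟩ := C.outside_pair (a := i) (b := j) hz
      (hsub (by simp [hij])) (hsub (by simp [hij])) (fun _ => hno i j)
    rw [hij] at hk; simp [hki, hkj] at hk
  intro z hz hsub
  obtain ⟨ε, hε, hball⟩ := C.exists_T_ball z
  set e := z - p with he_def
  have he : ‖e‖ = 1 := by rw [he_def, ← dist_eq_norm, dist_comm]; exact hz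
  obtain ⟨η, hη, hηw⟩ := Metric.eventually_nhds_iff.1
    (((continuous_arc p e).dist continuous_const).continuousAt.eventually_lt continuousAt_const
      (show dist (arc p e 0) z < ε by simp [arc_zero, he_def, hε]))
  set τ := η/2 with hτ
  have hτ0 : 0 < τ := half_pos hη
  set K := arc p e '' Icc (-τ) τ
  have hK : IsPreconnected K := isPreconnected_Icc.image _ (continuous_arc p e).continuousOn
  have hKF : ∀ i ∈ C.T p, K ⊆ C.F i := by
    rintro i hi _ ⟨t, ht, rfl⟩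
    have h1 := (hball _ (hηw (by rw [dist_zero_right, Real.norm_eq_abs]; exact (abs_le.2 ht).trans_lt (by linarith)))).trans hsub
    exact C.mem_T.1 ((small _ (dist_arc he t) h1).symm ▸ hi)
  obtain ⟨t1, t2⟩ := arc_tangent p e he hτ0
  obtain ⟨σ, hσ, hstr⟩ := straddle_line p (arc p e τ) (arc p e (-τ)) (e * Complex.I)
    (dist_arc he _) (dist_arc he _) t1 t2
  obtain ⟨ρ, hρ, hTρ⟩ := C.exists_T_ball p
  let W : Set ℂ := {y | (dist y (arc p e τ) - 1) * (dist y (arc p e (-τ)) - 1) < 0} ∩ ball p ρ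
  have hWo : IsOpen W := (isOpen_lt (by fun_prop) continuous_const).inter isOpen_ball
  have hWne : W.Nonempty := by
    have hm : 0 < min σ (ρ/2) := lt_min hσ (by linarith)
    refine ⟨p + (min σ (ρ/2)) • (e * Complex.I), hstr _ hm.ne' (by rw [abs_of_pos hm]; exact min_le_left _ _), ?_⟩
    rw [mem_ball, dist_eq_norm, add_sub_cancel_left, norm_smul, Real.norm_of_nonneg hm.le]
    simp [he]; right; linarith
  obtain ⟨y, hy, hyU⟩ := C.dense.exists_mem_open hWo hWne |>.imp fun y h => And.intro h.2 h.1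
  obtain ⟨i, hi⟩ := mem_iUnion.1 hyU
  have hyF : y ∈ C.F i := subset_closure hi
  exact C.crossing_prod hK (hKF i (hTρ y hy.2 (C.mem_T.2 hyF)))
    ⟨τ, ⟨by linarith, le_rfl⟩, rfl⟩ ⟨-τ, ⟨le_rfl, by linarith⟩, rfl⟩ hy.1 hyF

/-- Two closures covering the circle about `p` alternate along unit chords. -/
lemma flip {p : ℂ} {f g : Fin 5} (hfg : ∀ z, dist p z = 1 → z ∈ C.F f ∨ z ∈ C.F g) {z z' : ℂ}
    (hz : dist p z = 1) (hz' : dist p z' = 1) (hzz : dist z z' = 1) (hzg : z ∉ C.F g) :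
    z' ∉ C.F f := by
  obtain ⟨ε, hε, hball⟩ := Metric.isOpen_iff.1 (C.isClosed_F g).isOpen_compl z hzg
  set v := z - p with hv_def
  have hv : ‖v‖ = 1 := by rw [hv_def, ← dist_eq_norm, dist_comm]; exact hz
  obtain ⟨η, hη, hηw⟩ := Metric.eventually_nhds_iff.1
    (((continuous_arc p v).dist continuous_const).continuousAt.eventually_lt continuousAt_const
      (show dist (arc p v 0) z < ε by simp [arc_zero, hv_def, hε]))
  set τ := min (η/2) 1 with hτ
  have hτ0 : 0 < τ := lt_min (half_pos hη) one_pos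
  obtain ⟨s₁, hs₁, s₂, hs₂, l1, l2⟩ := triangle_cross z' p z (by rw [dist_comm]; exact hz')
    hz (by rw [dist_comm]; exact hzz) hτ0 (min_le_right _ _)
  refine C.crossing (isPreconnected_Icc.image _ (continuous_arc p v).continuousOn) ?_
    ⟨s₁, hs₁, rfl⟩ ⟨s₂, hs₂, rfl⟩ l1 l2
  rintro _ ⟨t, ht, rfl⟩
  refine (hfg _ (dist_arc hv t)).resolve_right (hball (hηw ?_))
  rw [dist_zero_right, Real.norm_eq_abs]
  exact (abs_le.2 ht).trans_lt ((min_le_left _ _).trans_lt (by linarith))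

/-- Near a switch `n` of a triple point `q`: a connected set of centres, each with a closure outside
`d`, `e`, and lying on both sides of the unit circle about every point near `q`. -/
lemma switch_arc {q n m : ℂ} {d e : Fin 5} (hcov : ∀ z, dist q z = 1 → z ∈ C.F d ∨ z ∈ C.F e)
    (hn : dist q n = 1) (hm : dist q m = 1) (hnm : dist m n = 1)
    (hmd : m ∈ C.F d) (hme : m ∈ C.F e) {r : ℝ} (hr : 0 < r) :
    ∃ J : Set ℂ, IsPreconnected J ∧ (∀ v ∈ J, dist v n < r ∧ dist v m = 1 ∧ C.T v ⊆ C.T n ∧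
        ∃ i ∈ C.T v, i ≠ d ∧ i ≠ e) ∧
      ∃ v₁ ∈ J, ∃ v₂ ∈ J, dist q v₁ < 1 ∧ 1 < dist q v₂ := by
  have hu1 : (m.re - q.re)^2 + (m.im - q.im)^2 = 1 := by
    have := dist_sq m q; rw [dist_comm, hm] at this; linarith
  have hn1 : (n.re - q.re)^2 + (n.im - q.im)^2 = 1 := by
    have := dist_sq n q; rw [dist_comm, hn] at this; linarith
  have hmn1 : (m.re - n.re)^2 + (m.im - n.im)^2 = 1 := by
    have := dist_sq m n; rw [hnm] at this; linarith
  let X : ℂ → ℝ := fun v => (v.re - q.re) * (m.im - q.im) - (v.im - q.im) * (m.re - q.re)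
  let D : ℂ → ℝ := fun v => (v.re - q.re) * (m.re - q.re) + (v.im - q.im) * (m.im - q.im)
  have hDn : D n = 1/2 := by simp only [D]; linear_combination (hu1 + hn1 - hmn1) / 2
  have hXn : X n ≠ 0 := by
    intro h
    have : X n ^ 2 + D n ^ 2 = 1 := by
      simp only [X, D]; linear_combination ((n.re - q.re)^2 + (n.im - q.im)^2) * hu1 + hn1
    rw [h, hDn] at this; norm_num at this
  have ev : ∀ᶠ v in 𝓝 n, C.T v ⊆ C.T n ∧ dist v n < r ∧ X v ≠ 0 ∧ D v ≠ 0 :=
    (C.eventually_T_subset n).and ((Metric.eventually_nhds_iff.2 ⟨r, hr, fun y hy => hy⟩).and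
      (((by fun_prop : Continuous X).continuousAt.eventually_ne hXn).and
        ((by fun_prop : Continuous D).continuousAt.eventually_ne (by rw [hDn]; norm_num))))
  set e₀ := n - m with he₀
  have he : ‖e₀‖ = 1 := by rw [he₀, ← dist_eq_norm, dist_comm]; exact hnm
  have harc : Tendsto (arc m e₀) (𝓝 0) (𝓝 n) := by
    have := (continuous_arc m e₀).tendsto 0
    simpa [arc_zero, he₀] using this
  obtain ⟨η, hη, hηv⟩ := Metric.eventually_nhds_iff.1 (harc.eventually ev)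
  set τ := min (η/2) 1
  have hτ0 : 0 < τ := lt_min (half_pos hη) one_pos
  obtain ⟨s₁, hs₁, s₂, hs₂, l1, l2⟩ := triangle_cross q m n hm hnm hn hτ0 (min_le_right _ _)
  refine ⟨arc m e₀ '' Icc (-τ) τ, isPreconnected_Icc.image _ (continuous_arc m e₀).continuousOn, ?_,
    _, ⟨s₁, hs₁, rfl⟩, _, ⟨s₂, hs₂, rfl⟩, l1, l2⟩
  rintro _ ⟨t, ht, rfl⟩
  obtain ⟨hT, hd, hX, hD⟩ := hηv (y := t) (by
    rw [dist_zero_right, Real.norm_eq_abs]
    exact (abs_le.2 ht).trans_lt ((min_le_left _ _).trans_lt (by linarith)))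
  have hmv := dist_arc (q := m) he t
  refine ⟨hd, by rw [dist_comm]; exact hmv, hT, ?_⟩
  obtain ⟨z, hz, hzv, hne, hlt⟩ := second_meet hm hmv hX hD
  rcases hcov z hz with h | h
  · exact C.slot h hme hzv hmv hne hlt
  · obtain ⟨i, hi, h1, h2⟩ := C.slot h hmd hzv hmv hne hlt
    exact ⟨i, hi, h2, h1⟩

/-- A unit neighbour of a switch is a switch. -/
lemma switch_next {q z z' : ℂ} {d e : Fin 5} (hcov : ∀ z, dist q z = 1 → z ∈ C.F d ∨ z ∈ C.F e)
    (hz : dist q z = 1) (hz' : dist q z' = 1) (hzz : dist z z' = 1) (hd : z ∈ C.F d) (he : z ∈ C.F e) :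
    z' ∈ C.F d ∧ z' ∈ C.F e := by
  have hcov' : ∀ z, dist q z = 1 → z ∈ C.F e ∨ z ∈ C.F d := fun z hz => (hcov z hz).symm
  constructor
  · by_contra h; exact C.flip hcov' hz' hz (by rw [dist_comm]; exact hzz) h he
  · by_contra h; exact C.flip hcov hz' hz (by rw [dist_comm]; exact hzz) h hd

/-- Two closures covering the circle about `q` have a switch on it. -/
lemma exists_switch {q : ℂ} {d e : Fin 5} (hcov : ∀ z, dist q z = 1 → z ∈ C.F d ∨ z ∈ C.F e) :
    ∃ b, dist q b = 1 ∧ b ∈ C.F d ∧ b ∈ C.F e := by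
  have hcov' : ∀ z, dist q z = 1 → z ∈ C.F e ∨ z ∈ C.F d := fun z hz => (hcov z hz).symm
  have hS : IsPreconnected (sphere q 1) := isPreconnected_sphere (by simp) q 1
  have hs : sphere q 1 ⊆ C.F d ∪ C.F e := fun z hz => hcov z (by rw [dist_comm]; exact hz)
  obtain ⟨z, hz⟩ : (sphere q 1).Nonempty := NormedSpace.sphere_nonempty.2 zero_le_one
  have hz1 : dist q z = 1 := by rw [dist_comm]; exact hz
  obtain ⟨z', hz', hzz'⟩ := exists_triangle q z hz1
  have hz's : z' ∈ sphere q 1 := by rw [mem_sphere, dist_comm]; exact hz'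
  have hboth : (sphere q 1 ∩ C.F d).Nonempty ∧ (sphere q 1 ∩ C.F e).Nonempty := by
    by_cases h1 : z ∈ C.F d <;> by_cases h2 : z ∈ C.F e
    · exact ⟨⟨z, hz, h1⟩, ⟨z, hz, h2⟩⟩
    · exact ⟨⟨z, hz, h1⟩, ⟨z', hz's, (hcov z' hz').resolve_left (C.flip hcov hz1 hz' hzz' h2)⟩⟩
    · exact ⟨⟨z', hz's, (hcov z' hz').resolve_right (C.flip hcov' hz1 hz' hzz' h1)⟩, ⟨z, hz, h2⟩⟩
    · exact absurd (hcov z hz1) (by tauto)
  obtain ⟨b, hb, hbd, hbe⟩ := isPreconnected_closed_iff.1 hS _ _ (C.isClosed_F d) (C.isClosed_F e)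
    hs hboth.1 hboth.2
  exact ⟨b, by rw [dist_comm]; exact hb, hbd, hbe⟩

/-- The switch hexagon: six switches, each at distance one from the next, four of them distinct. -/
lemma switch_hexagon {q : ℂ} {d e : Fin 5} (hcov : ∀ z, dist q z = 1 → z ∈ C.F d ∨ z ∈ C.F e) :
    ∃ n : ℕ → ℂ, (∀ k, dist q (n k) = 1) ∧ (∀ k, dist (n (k+1)) (n k) = 1) ∧
      (∀ k, n k ∈ C.F d ∧ n k ∈ C.F e) ∧ ∀ i j : Fin 4, i ≠ j → n i ≠ n j := by
  obtain ⟨b0, hb0, hb0d, hb0e⟩ := C.exists_switch hcov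
  set ω : ℂ := ⟨1/2, Real.sqrt 3 / 2⟩ with hω
  have h3 := Real.sq_sqrt (show (0:ℝ) ≤ 3 by norm_num)
  have hω1 : ‖ω‖ = 1 := by
    rw [Complex.norm_def, Complex.normSq_mk]
    rw [show (1/2 * (1/2) + Real.sqrt 3 / 2 * (Real.sqrt 3 / 2) : ℝ) = 1 by nlinarith, Real.sqrt_one]
  have hω' : ‖ω - 1‖ = 1 := by
    rw [Complex.norm_def, Complex.normSq_apply]
    simp [hω]
    nlinarith
  set u := b0 - q with hu
  have hun : ‖u‖ = 1 := by rw [hu, ← dist_eq_norm, dist_comm]; exact hb0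
  let n : ℕ → ℂ := fun k => q + u * ω ^ k
  have hnq : ∀ k, dist q (n k) = 1 := fun k => by simp [n, dist_eq_norm, hun, hω1]
  have hnn : ∀ k, dist (n (k+1)) (n k) = 1 := by
    intro k
    have : n (k+1) - n k = u * ω ^ k * (ω - 1) := by simp only [n]; ring
    simp [dist_eq_norm, this, hun, hω1, hω']
  have hsw : ∀ k, n k ∈ C.F d ∧ n k ∈ C.F e := by
    intro k
    induction k with
    | zero => simpa [n, hu] using And.intro hb0d hb0e
    | succ k ih => exact C.switch_next hcov (hnq k) (hnq _) (by rw [dist_comm]; exact hnn k) ih.1 ih.2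
  refine ⟨n, hnq, hnn, hsw, fun i j hij => ?_⟩
  have hu0 : u ≠ 0 := by intro h; rw [h] at hun; simp at hun
  intro h
  have h' : ω ^ (i : ℕ) = ω ^ (j : ℕ) := mul_left_cancel₀ hu0 (add_left_cancel h)
  fin_cases i <;> fin_cases j <;> first | exact hij rfl |
    (simp [Complex.ext_iff, pow_succ, hω] at h' <;> nlinarith [Real.sqrt_pos.2 (show (0:ℝ) < 3 by norm_num)])

/-- Two switches all of whose closures are among `d`, `e`, `a`, `b` make `F a ∩ F b` thin near `q`. -/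
theorem thin_of_two_switch {q n₁ n₂ : ℂ} {a b d e : Fin 5}
    (hcov : ∀ z, dist q z = 1 → z ∈ C.F d ∨ z ∈ C.F e) (h₁ : dist q n₁ = 1) (h₂ : dist q n₂ = 1)
    (hd₁ : n₁ ∈ C.F d) (he₁ : n₁ ∈ C.F e) (hd₂ : n₂ ∈ C.F d) (he₂ : n₂ ∈ C.F e) (hne : n₁ ≠ n₂)
    (hT₁ : C.T n₁ ⊆ {d, e, a, b}) (hT₂ : C.T n₂ ⊆ {d, e, a, b}) :
    ∃ δ > 0, IsTotallyDisconnected (C.F a ∩ C.F b ∩ closedBall q δ) := by
  let N : Fin 2 → ℂ := ![n₁, n₂]
  have hNq : ∀ k, dist q (N k) = 1 := Fin.forall_fin_two.2 ⟨h₁, h₂⟩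
  have hN : ∀ k, N k ∈ C.F d ∧ N k ∈ C.F e := Fin.forall_fin_two.2 ⟨⟨hd₁, he₁⟩, hd₂, he₂⟩
  have hNT : ∀ k, C.T (N k) ⊆ {d, e, a, b} := Fin.forall_fin_two.2 ⟨hT₁, hT₂⟩
  have hM : ∀ k, ∃ m, dist q m = 1 ∧ dist m (N k) = 1 := fun k => by
    obtain ⟨m, h1, h2⟩ := exists_triangle q (N k) (hNq k)
    exact ⟨m, h1, by rw [dist_comm]; exact h2⟩
  choose M hMq hMN using hM
  have hr : 0 < min (dist n₁ n₂ / 2) (1/2) := lt_min (half_pos (dist_pos.2 hne)) (by norm_num)
  have harcs : ∀ k : Fin 2, ∃ J : Set ℂ, IsPreconnected J ∧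
      (∀ v ∈ J, dist v (N k) < min (dist n₁ n₂ / 2) (1/2) ∧ dist v (M k) = 1 ∧
        C.T v ⊆ C.T (N k) ∧ ∃ i ∈ C.T v, i ≠ d ∧ i ≠ e) ∧
      ∃ v₁ ∈ J, ∃ v₂ ∈ J, dist q v₁ < 1 ∧ 1 < dist q v₂ := fun k =>
    have hm := C.switch_next hcov (hNq k) (hMq k) (by rw [dist_comm]; exact hMN k) (hN k).1 (hN k).2
    C.switch_arc hcov (hNq k) (hMq k) (hMN k) hm.1 hm.2 hr
  choose J hJ hJv v₁ hv₁ v₂ hv₂ hin hout' using harcs
  have ev : ∀ᶠ l in 𝓝 q, dist q l < 1/2 ∧ ∀ k, dist l (v₁ k) < 1 ∧ 1 < dist l (v₂ k) :=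
    (Metric.eventually_nhds_iff.2 ⟨1/2, by norm_num, fun y hy => by rwa [dist_comm]⟩).and
    (eventually_all.2 fun k =>
      ((by fun_prop : Continuous fun l => dist l (v₁ k)).continuousAt.eventually_lt continuousAt_const (hin k)).and
      (continuousAt_const.eventually_lt (by fun_prop : Continuous fun l => dist l (v₂ k)).continuousAt (hout' k)))
  obtain ⟨δ, hδ, hev⟩ := Metric.eventually_nhds_iff.1 ev
  refine ⟨δ/2, half_pos hδ, fun L hLsub hL x hx y hy => ?_⟩
  have near : ∀ l ∈ L, dist q l < 1/2 ∧ ∀ k, dist l (v₁ k) < 1 ∧ 1 < dist l (v₂ k) := fun l hl =>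
    hev ((mem_closedBall.1 (hLsub hl).2).trans_lt (half_lt_self hδ))
  have centre : ∀ k : Fin 2,
      ∃ v, dist v (N k) < min (dist n₁ n₂ / 2) (1/2) ∧ ∀ l ∈ L, dist l v = 1 := by
    intro k
    have common : ∀ l₁ ∈ L, ∀ l₂ ∈ L, ∃ v ∈ J k, dist l₁ v = 1 ∧ dist l₂ v = 1 := by
      intro l₁ h₁ l₂ h₂
      by_cases hs : ∃ v ∈ J k, (dist v l₁ - 1) * (dist v l₂ - 1) < 0
      · obtain ⟨v, hv, hs⟩ := hs
        obtain ⟨-, -, hT, i', hi', hid, hie⟩ := hJv k v hv
        have := hNT k (hT hi')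
        simp only [Finset.mem_insert, Finset.mem_singleton, hid, hie, false_or] at this
        rcases this with rfl | rfl
        · exact absurd hi' (C.tube_excl hL (fun z hz => (hLsub hz).1.1) h₁ h₂ hs)
        · exact absurd hi' (C.tube_excl hL (fun z hz => (hLsub hz).1.2) h₁ h₂ hs)
      push Not at hs
      obtain ⟨v, hv, ⟨a1, a2⟩, b1, b2⟩ := isPreconnected_closed_iff.1 (hJ k)
        {v | dist l₁ v ≤ 1 ∧ dist l₂ v ≤ 1} {v | 1 ≤ dist l₁ v ∧ 1 ≤ dist l₂ v}
        ((isClosed_le (continuous_const.dist continuous_id) continuous_const).inter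
          (isClosed_le (continuous_const.dist continuous_id) continuous_const))
        ((isClosed_le continuous_const (continuous_const.dist continuous_id)).inter
          (isClosed_le continuous_const (continuous_const.dist continuous_id)))
        (fun v hv => by
          have := hs v hv
          rw [dist_comm v l₁, dist_comm v l₂] at this
          rcases lt_trichotomy (dist l₁ v) 1 with h | h | h
          · exact Or.inl ⟨h.le, by nlinarith⟩
          · rcases le_total (dist l₂ v) 1 with h' | h'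
            · exact Or.inl ⟨h.le, h'⟩
            · exact Or.inr ⟨h.ge, h'⟩
          · exact Or.inr ⟨h.le, by nlinarith⟩)
        ⟨v₁ k, hv₁ k, ((near _ h₁).2 k).1.le, ((near _ h₂).2 k).1.le⟩
        ⟨v₂ k, hv₂ k, ((near _ h₁).2 k).2.le, ((near _ h₂).2 k).2.le⟩
      exact ⟨v, hv, le_antisymm a1 b1, le_antisymm a2 b2⟩
    obtain ⟨v, hv, hxv, -⟩ := common x hx x hx
    refine ⟨v, (hJv k v hv).1, fun l hl => ?_⟩
    obtain ⟨v', hv', hxv', hlv'⟩ := common x hx l hl
    have hxm : dist (M k) x ≤ 3/2 := by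
      have := dist_triangle (M k) q x
      rw [dist_comm (M k) q, hMq] at this; linarith [(near x hx).1]
    have hxne : M k ≠ x := by
      intro h; have h1 := (near x hx).1; rw [← h, hMq] at h1; norm_num at h1
    have hclose : dist v v' ≤ 1 := by
      have := dist_triangle_right v v' (N k)
      linarith [(hJv k v hv).1, (hJv k v' hv').1, min_le_right (dist n₁ n₂ / 2) (1/2 : ℝ)]
    rw [meet_unique hxne hxm hclose (hJv k v hv).2.1 (by rw [dist_comm]; exact hxv)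
      (hJv k v' hv').2.1 (by rw [dist_comm]; exact hxv')]
    exact hlv'
  obtain ⟨w₁, hw₁, hL₁⟩ := centre 0
  obtain ⟨w₂, hw₂, hL₂⟩ := centre 1
  refine eq_of_two_circles hL ?_ (fun z hz => ⟨hL₁ z hz, hL₂ z hz⟩) hx hy
  rintro rfl
  simp only [N, Matrix.cons_val_zero, Matrix.cons_val_one] at hw₁ hw₂
  have := dist_triangle_left n₁ n₂ w₁
  linarith [min_le_left (dist n₁ n₂ / 2) (1/2 : ℝ)]

/-- A colouring of the circle about `q` by two closures makes some pair of the other three thin. -/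
theorem switch_thin (hfive : ∀ x, (C.T x).card ≤ 4) {q : ℂ} {d e : Fin 5} (hde : d ≠ e)
    (hcov : ∀ z, dist q z = 1 → z ∈ C.F d ∨ z ∈ C.F e) :
    ∃ a b, a ≠ b ∧ a ≠ d ∧ a ≠ e ∧ b ≠ d ∧ b ≠ e ∧
      ∃ δ > 0, IsTotallyDisconnected (C.F a ∩ C.F b ∩ closedBall q δ) := by
  obtain ⟨n, hnq, -, hsw, hinj⟩ := C.switch_hexagon hcov
  set O : Finset (Fin 5) := {d, e}ᶜ with hO
  have hOc : O.card = 3 := by rw [hO, Finset.card_compl, Finset.card_pair hde]; rfl
  have hOm : ∀ i, i ∈ O ↔ i ≠ d ∧ i ≠ e := fun i => by simp [hO]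
  have hmiss : ∀ k : Fin 4, ∃ c : O, (c : Fin 5) ∉ C.T (n k) := by
    intro k
    by_contra h
    push Not at h
    have hall : (Finset.univ : Finset (Fin 5)) ⊆ C.T (n k) := by
      intro i _
      by_cases hi : i ∈ O
      · exact h ⟨i, hi⟩
      · rcases (show i = d ∨ i = e by have := hOm i; tauto) with rfl | rfl
        · exact C.mem_T.2 (hsw k).1
        · exact C.mem_T.2 (hsw k).2
    have := (Finset.card_le_card hall).trans (hfive (n k))
    simp at this
  choose g hg using hmiss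
  obtain ⟨i, j, hij, hgij⟩ := Fintype.exists_ne_map_eq_of_card_lt g (by simp [hOc])
  obtain ⟨a, b, hab, hpair⟩ := Finset.card_eq_two.1
    (show (O.erase (g i)).card = 2 by rw [Finset.card_erase_of_mem (g i).2, hOc])
  have ha := (hOm a).1 (Finset.mem_of_mem_erase (hpair ▸ by simp : a ∈ O.erase (g i)))
  have hb := (hOm b).1 (Finset.mem_of_mem_erase (hpair ▸ by simp : b ∈ O.erase (g i)))
  have hsub : ∀ k, g k = g i → C.T (n k) ⊆ {d, e, a, b} := by
    intro k hk x hx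
    by_cases hxO : x ∈ O
    · have : x ∈ O.erase (g i) := Finset.mem_erase.2 ⟨fun h => hg k (by rw [hk, ← h]; exact hx), hxO⟩
      rw [hpair] at this
      simp only [Finset.mem_insert, Finset.mem_singleton] at this ⊢; tauto
    · have := hOm x
      simp only [Finset.mem_insert, Finset.mem_singleton]; tauto
  exact ⟨a, b, hab, ha.1, ha.2, hb.1, hb.2, C.thin_of_two_switch hcov (hnq i) (hnq j) (hsw i).1
    (hsw i).2 (hsw j).1 (hsw j).2 (hinj i j hij) (hsub i rfl) (hsub j hgij.symm)⟩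

/-- Every triple point has two of its colours whose common boundary is totally disconnected nearby,
provided no point is in all five closures. -/
theorem triple_center (hfive : ∀ x, (C.T x).card ≤ 4) {q : ℂ} (hq : (C.T q).card = 3) :
    ∃ a b, a ≠ b ∧ a ∈ C.T q ∧ b ∈ C.T q ∧
      ∃ δ > 0, IsTotallyDisconnected (C.F a ∩ C.F b ∩ closedBall q δ) := by
  by_cases hbad : ∃ a b, C.Bad q a b
  · obtain ⟨a, b, h⟩ := hbad
    exact ⟨a, b, h.1, h.2.1, h.2.2.1, C.bad_totally_disconnected h⟩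
  push Not at hbad
  have hout := C.circle_outside hq hbad
  have hc2 : (C.T q)ᶜ.card = 2 := by rw [Finset.card_compl, hq]; rfl
  obtain ⟨d, e, hde, hcompl⟩ := Finset.card_eq_two.1 hc2
  have hA : ∀ i, i ∈ C.T q ↔ i ≠ d ∧ i ≠ e := by
    intro i
    have : i ∈ (C.T q)ᶜ ↔ i = d ∨ i = e := by simp [hcompl]
    rw [Finset.mem_compl] at this
    tauto
  have hcov : ∀ z, dist q z = 1 → z ∈ C.F d ∨ z ∈ C.F e := by
    intro z hz
    obtain ⟨i, hi, hiq⟩ := Finset.not_subset.1 (hout z hz)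
    rcases (show i = d ∨ i = e by have := hA i; tauto) with rfl | rfl
    · exact Or.inl (C.mem_T.1 hi)
    · exact Or.inr (C.mem_T.1 hi)
  obtain ⟨a, b, hab, had, hae, hbd, hbe, h⟩ := C.switch_thin hfive hde hcov
  exact ⟨a, b, hab, (hA a).2 ⟨had, hae⟩, (hA b).2 ⟨hbd, hbe⟩, h⟩

end Cfg

end Vale.Agent.P032Baire
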