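import Vale.Agent.P032Baire.Base

open Set Metric Filter Topology

namespace Vale.Agent.P032Baire

/-- A connected set on two different unit circles is a single point. -/
lemma eq_of_two_circles {L : Set ℂ} (hL : IsPreconnected L) {n n' : ℂ} (hn : n ≠ n')
    (h : ∀ z ∈ L, dist z n = 1 ∧ dist z n' = 1) {x y : ℂ} (hx : x ∈ L) (hy : y ∈ L) : x = y := by
  set w := n' - n with hw
  set N := w.re ^ 2 + w.im ^ 2 with hN
  have hN0 : 0 < N := by
    have := Complex.normSq_pos.2 (sub_ne_zero.2 (Ne.symm hn))
    rw [Complex.normSq_apply] at this; simp only [hN, hw]; nlinarith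
  let g : ℂ → ℝ := fun z => w.re * (z.im - n.im) - w.im * (z.re - n.re)
  let d : ℂ → ℝ := fun z => w.re * (z.re - n.re) + w.im * (z.im - n.im)
  have hd : ∀ z ∈ L, d z = N / 2 := by
    intro z hz
    have e1 := dist_sq z n; rw [(h z hz).1] at e1
    have e2 := dist_sq z n'; rw [(h z hz).2] at e2
    simp [d, hN, hw]; linear_combination (e2 - e1) / 2
  have hg : ∀ z ∈ L, g z ^ 2 = N - (N / 2) ^ 2 := by
    intro z hz
    have e1 := dist_sq z n; rw [(h z hz).1] at e1
    rw [← hd z hz]
    simp only [g, d, hN]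
    linear_combination -(w.re ^ 2 + w.im ^ 2) * e1
  have heq : g x = g y := by
    by_contra hne
    have hs : g x = -g y := by
      rcases eq_or_eq_neg_of_sq_eq_sq _ _ ((hg x hx).trans (hg y hy).symm) with e | e
      · exact absurd e hne
      · exact e
    have hgc : Continuous g := by fun_prop
    obtain ⟨z, hz, hz0⟩ : ∃ z ∈ L, g z = 0 := by
      rcases le_total (g x) 0 with h0 | h0
      · exact hL.intermediate_value hx hy hgc.continuousOn ⟨h0, by linarith⟩
      · exact hL.intermediate_value hy hx hgc.continuousOn ⟨by linarith, h0⟩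
    have e := hg z hz
    rw [hz0] at e
    have ex : g x = 0 := by have := hg x hx; nlinarith
    exact hne (ex.trans (by linarith))
  have hdd : d x = d y := (hd x hx).trans (hd y hy).symm
  simp only [g, d] at heq hdd
  have h1 : N * (x.re - y.re) = 0 := by
    simp only [hN]; linear_combination w.re * hdd - w.im * heq
  have h2 : N * (x.im - y.im) = 0 := by
    simp only [hN]; linear_combination w.im * hdd + w.re * heq
  rcases mul_eq_zero.1 h1 with e | e
  · exact absurd e hN0.ne'
  rcases mul_eq_zero.1 h2 with e' | e'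
  · exact absurd e' hN0.ne'
  exact Complex.ext (sub_eq_zero.1 e) (sub_eq_zero.1 e')

namespace Cfg

variable (C : Cfg)

/-- The points strictly straddled by a connected part of `F a` avoid `F a`. -/
lemma tube_excl {a : Fin 5} {L : Set ℂ} (hL : IsPreconnected L) (hLF : L ⊆ C.F a) {l₁ l₂ y : ℂ}
    (h₁ : l₁ ∈ L) (h₂ : l₂ ∈ L) (h : (dist y l₁ - 1) * (dist y l₂ - 1) < 0) : a ∉ C.T y :=
  fun hy => C.crossing_prod hL hLF h₁ h₂ h (C.mem_T.1 hy)

/-- Off the circle about `n`, a continuum through `q` leaves near `n` a set of centres that it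
straddles: all sufficiently small offsets of one sign. -/
lemma offsets {q n l : ℂ} (hl : dist n l ≠ 1) :
    ∃ r > 0, ∀ y, dist y n < r → (dist y q - 1) * (dist n l - 1) < 0 →
      (dist y q - 1) * (dist y l - 1) < 0 := by
  refine ⟨|dist n l - 1|, abs_pos.2 (sub_ne_zero.2 hl), fun y hy hs => ?_⟩
  have h1 : |dist y l - dist n l| < |dist n l - 1| := (abs_dist_sub_le y n l).trans_lt hy
  rcases mul_neg_iff.1 hs with ⟨a, b⟩ | ⟨a, b⟩
  · rw [abs_of_neg b] at h1
    exact mul_neg_of_pos_of_neg a (by linarith [(abs_lt.1 h1).2])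
  · rw [abs_of_pos b] at h1
    exact mul_neg_of_neg_of_pos a (by linarith [(abs_lt.1 h1).1])

/-- A continuum in `F a ∩ F b` through `q`, not inside the circle about `n`, keeps `a` and `b`
away from the nearby centres with offsets of one sign. -/
lemma tube_pair {a b : Fin 5} {L : Set ℂ} (hL : IsPreconnected L) (hLF : L ⊆ C.F a ∩ C.F b)
    {q n l : ℂ} (hqL : q ∈ L) (hlL : l ∈ L) (hl : dist n l ≠ 1) :
    ∃ r > 0, ∀ y, dist y n < r → (dist y q - 1) * (dist n l - 1) < 0 →
      a ∉ C.T y ∧ b ∉ C.T y := by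
  obtain ⟨r, hr, h⟩ := offsets (q := q) hl
  exact ⟨r, hr, fun y hy hs =>
    ⟨C.tube_excl hL (hLF.trans inter_subset_left) hqL hlL (h y hy hs),
      C.tube_excl hL (hLF.trans inter_subset_right) hqL hlL (h y hy hs)⟩⟩

end Cfg

end Vale.Agent.P032Baire
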